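import Vale.Agent.P163.MathlibUsed
import Vale.Agent.P163.Model

set_option linter.all false

section

section

open MeasureTheory Filter Topology
open scoped RealInnerProductSpace

namespace Vale.Agent.P163

/-- The Euclidean space `R^n`. -/
abbrev E (n : ℕ) := EuclideanSpace ℝ (Fin n)

/-- The unit sphere `S^{n-1}` of `R^n`. -/
abbrev Spin (n : ℕ) := Metric.sphere (0 : E n) 1

/-- The normalized uniform (surface) measure on the unit sphere. -/
noncomputable def unif (n : ℕ) : Measure (Spin n) :=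
  ((volume : Measure (E n)).toSphere Set.univ)⁻¹ • (volume : Measure (E n)).toSphere

/-- Boltzmann weight `exp (1/2 * sum over ordered pairs of J x y * (σ x . σ y))`. -/
noncomputable def weight {V : Type} [Fintype V] {n : ℕ} (J : V → V → ℝ) (σ : V → Spin n) : ℝ :=
  Real.exp ((1 / 2) * ∑ x, ∑ y, J x y * ⟪(σ x : E n), (σ y : E n)⟫)

/-- The Gibbs probability measure of the O(n) spin model on the finite set of sites `V` with
symmetric couplings `J`. -/
noncomputable def gibbs {V : Type} [Fintype V] (n : ℕ) (J : V → V → ℝ) : Measure (V → Spin n) :=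
  (∫⁻ σ, ENNReal.ofReal (weight J σ) ∂(Measure.pi fun _ : V => unif n))⁻¹ •
    (Measure.pi fun _ : V => unif n).withDensity fun σ => ENNReal.ofReal (weight J σ)

/-- Nearest neighbours of the square lattice. -/
def Adj (x y : ℤ × ℤ) : Prop := |x.1 - y.1| + |x.2 - y.2| = 1

/-- Nearest neighbours in the box `[a, b]` with periodic boundary conditions: `y`, translated by
a vector whose coordinates are multiples of the side lengths, is a neighbour of `x`. -/
def PerAdj (a b x y : ℤ × ℤ) : Prop :=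
  ∃ k l : ℤ, Adj x (y.1 + k * (b.1 - a.1 + 1), y.2 + l * (b.2 - a.2 + 1))

open Classical in
/-- The O(n) model at inverse temperature `β` in the box `[a, b]` of the square lattice, with
periodic (`p = true`) or free (`p = false`) boundary conditions. -/
noncomputable def boxState (n : ℕ) (β : ℝ) (p : Bool) (a b : ℤ × ℤ) :
    Measure (Finset.Icc a b → Spin n) :=
  gibbs n fun x y => if (p = true ∧ PerAdj a b x y) ∨ (p = false ∧ Adj x y) then β else 0

open Classical in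
/-- Infinite-volume states at inverse temperature `β`: local weak limits of the finite-volume
measures (free or periodic) along boxes that exhaust the square lattice. -/
def IsInfiniteVolumeState (n : ℕ) (β : ℝ) (μ : Measure (ℤ × ℤ → Spin n)) : Prop :=
  ∃ (p : ℕ → Bool) (a b : ℕ → ℤ × ℤ),
    (∀ x : ℤ × ℤ, ∀ᶠ k in atTop, x ∈ Finset.Icc (a k) (b k)) ∧
    ∀ (A : Finset (ℤ × ℤ)) (f : (A → Spin n) → ℝ), Continuous f →
      Tendsto (fun k => if h : A ⊆ Finset.Icc (a k) (b k) then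
          ∫ σ, f (fun x => σ ⟨x.1, h x.2⟩) ∂(boxState n β (p k) (a k) (b k)) else 0)
        atTop (𝓝 (∫ σ, f (fun x => σ x.1) ∂μ))

/-- Euclidean distance in the square lattice. -/
noncomputable def dist2 (x y : ℤ × ℤ) : ℝ :=
  Real.sqrt (((x.1 - y.1 : ℤ) : ℝ) ^ 2 + ((x.2 - y.2 : ℤ) : ℝ) ^ 2)

/-- Exponential decay of the spin-spin correlation, uniformly over infinite-volume states. -/
def ExpDecay (n : ℕ) (β : ℝ) : Prop :=
  ∃ C m : ℝ, 0 < m ∧ ∀ μ : Measure (ℤ × ℤ → Spin n), IsInfiniteVolumeState n β μ →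
    ∀ x y : ℤ × ℤ, ∫ σ, ⟪(σ x : E n), (σ y : E n)⟫ ∂μ ≤ C * Real.exp (-m * dist2 x y)

end Vale.Agent.P163
end
end

section

section

open MeasureTheory Filter Topology
open scoped RealInnerProductSpace Pointwise

namespace Vale.Agent.P163

variable {n : ℕ}

/-! ### The uniform measure on the sphere, seen as a measure on `E n` -/

/-- uniform measure of the unit sphere, as a measure on `E n` -/
noncomputable def om (n : ℕ) : Measure (E n) := (unif n).map Subtype.val

instance unif_isProb [NeZero n] : IsProbabilityMeasure (unif n) := by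
  constructor
  have h1 : (volume : Measure (E n)).toSphere Set.univ ≠ 0 := by
    rw [Ne, Measure.measure_univ_eq_zero, Measure.toSphere_eq_zero_iff_finrank]
    simpa using NeZero.ne n
  have h2 : (volume : Measure (E n)).toSphere Set.univ ≠ ⊤ := measure_ne_top _ _
  simp only [unif, Measure.smul_apply, smul_eq_mul]
  exact ENNReal.inv_mul_cancel h1 h2

instance om_isProb [NeZero n] : IsProbabilityMeasure (om n) :=
  Measure.isProbabilityMeasure_map (measurable_subtype_coe.aemeasurable)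

lemma om_ae_norm : ∀ᵐ s ∂(om n), ‖s‖ = 1 := by
  rw [om, ae_map_iff measurable_subtype_coe.aemeasurable]
  · exact Filter.Eventually.of_forall fun s => by simp
  · exact measurableSet_eq_fun measurable_norm measurable_const

/-- The linear isometry acting on the unit sphere. -/
noncomputable def isoSphere (U : E n ≃ₗᵢ[ℝ] E n) : Spin n → Spin n :=
  fun s => ⟨U s, by simp [U.norm_map]⟩

lemma measurable_isoSphere (U : E n ≃ₗᵢ[ℝ] E n) : Measurable (isoSphere U) :=
  Measurable.subtype_mk (U.continuous.measurable.comp measurable_subtype_coe)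

lemma unif_map_iso (U : E n ≃ₗᵢ[ℝ] E n) : (unif n).map (isoSphere U) = unif n := by
  rw [unif, Measure.map_smul]
  congr 1
  ext s hs
  rw [Measure.map_apply (measurable_isoSphere U) hs,
    Measure.toSphere_apply' _ (measurable_isoSphere U hs), Measure.toSphere_apply' _ hs]
  congr 1
  have hU : MeasurePreserving U (volume : Measure (E n)) volume := U.measurePreserving
  have : Set.Ioo (0 : ℝ) 1 • ((↑) '' (isoSphere U ⁻¹' s) : Set (E n)) =
      U ⁻¹' (Set.Ioo (0 : ℝ) 1 • ((↑) '' s : Set (E n))) := by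
    ext x
    simp only [Set.mem_smul, Set.mem_image, Set.mem_preimage, Subtype.exists, exists_and_right,
      exists_eq_right]
    constructor
    · rintro ⟨r, hr, y, ⟨hy, hys⟩, rfl⟩
      exact ⟨r, hr, U y, ⟨by simpa only [mem_sphere_iff_norm, sub_zero, U.norm_map] using hy, hys⟩, by simp⟩
    · rintro ⟨r, hr, y, ⟨hy, hys⟩, hxy⟩
      refine ⟨r, hr, U.symm y, ⟨by simpa only [mem_sphere_iff_norm, sub_zero, norm_map] using hy, ?_⟩, ?_⟩
      · simpa [isoSphere] using hys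
      · apply U.injective
        simp only [map_smul, LinearIsometryEquiv.apply_symm_apply, ← hxy]
  rw [this]
  exact hU.measure_preimage_equiv (f := U.toHomeomorph.toMeasurableEquiv) _

lemma om_map_iso (U : E n ≃ₗᵢ[ℝ] E n) : (om n).map U = om n := by
  rw [om, Measure.map_map U.continuous.measurable measurable_subtype_coe]
  have : (U ∘ Subtype.val : Spin n → E n) = Subtype.val ∘ isoSphere U := rfl
  rw [this, ← Measure.map_map measurable_subtype_coe (measurable_isoSphere U), unif_map_iso]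

lemma om_mp_iso (U : E n ≃ₗᵢ[ℝ] E n) : MeasurePreserving U (om n) (om n) :=
  ⟨U.continuous.measurable, om_map_iso U⟩

/-! ### Configurations -/

variable {V : Type} [Fintype V]

/-- reference product measure on vector valued configurations -/
noncomputable def P (V : Type) [Fintype V] (n : ℕ) : Measure (V → E n) :=
  Measure.pi fun _ : V => om n

instance P_isProb [NeZero n] : IsProbabilityMeasure (P V n) := by
  unfold P; infer_instance

lemma P_ae_norm [NeZero n] : ∀ᵐ σ ∂(P V n), ∀ x, ‖σ x‖ = 1 := by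
  rw [ae_all_iff]
  intro x
  have h := Measure.tendsto_eval_ae_ae (μ := fun _ : V => om n) (i := x)
  exact h.eventually om_ae_norm

/-- the compact set of unit configurations -/
def unitBall (V : Type) (n : ℕ) : Set (V → E n) := {σ | ∀ x, ‖σ x‖ ≤ 1}

omit [Fintype V] in
lemma isCompact_unitBall : IsCompact (unitBall V n) := by
  have : unitBall V n = Set.pi Set.univ fun _ : V => Metric.closedBall (0 : E n) 1 := by
    ext σ; simp only [unitBall, Set.mem_ofPred_eq, Set.mem_pi, Set.mem_univ, Metric.mem_closedBall, dist_zero_right, forall_const]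
  rw [this]
  exact isCompact_univ_pi fun _ => isCompact_closedBall _ _

lemma P_ae_mem [NeZero n] : ∀ᵐ σ ∂(P V n), σ ∈ unitBall V n := by
  filter_upwards [P_ae_norm] with σ h x using (h x).le

/-- Continuous functions are integrable. -/
lemma integrable_of_continuous [NeZero n] {F : Type*} [NormedAddCommGroup F]
    {f : (V → E n) → F} (hf : Continuous f) : Integrable f (P V n) := by
  obtain ⟨C, hC⟩ := isCompact_unitBall.exists_bound_of_continuousOn
    (f := f) (s := unitBall V n) hf.continuousOn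
  refine ⟨hf.aestronglyMeasurable, HasFiniteIntegral.of_bounded (C := C) ?_⟩
  filter_upwards [P_ae_mem] with σ h using hC σ h

lemma integrable_om [NeZero n] {F : Type*} [NormedAddCommGroup F]
    {f : E n → F} (hf : Continuous f) : Integrable f (om n) := by
  obtain ⟨C, hC⟩ := (isCompact_closedBall (0 : E n) 1).exists_bound_of_continuousOn
    (f := f) hf.continuousOn
  refine ⟨hf.aestronglyMeasurable, HasFiniteIntegral.of_bounded (C := C) ?_⟩
  filter_upwards [om_ae_norm] with s h using hC s (by simp [h])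

/-- The energy `1/2 * sum J x y * (σ x . σ y)`. -/
noncomputable def Hh (J : V → V → ℝ) (σ : V → E n) : ℝ :=
  (1 / 2) * ∑ x, ∑ y, J x y * ⟪σ x, σ y⟫

/-- Boltzmann weight for vector valued configurations. -/
noncomputable def wt (J : V → V → ℝ) (σ : V → E n) : ℝ := Real.exp (Hh J σ)

lemma continuous_Hh (J : V → V → ℝ) : Continuous (Hh (n := n) J) := by
  unfold Hh; fun_prop

lemma continuous_wt (J : V → V → ℝ) : Continuous (wt (n := n) J) :=
  Real.continuous_exp.comp (continuous_Hh J)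

lemma wt_pos (J : V → V → ℝ) (σ : V → E n) : 0 < wt J σ := Real.exp_pos _

/-- partition function -/
noncomputable def Zp (n : ℕ) (J : V → V → ℝ) : ℝ := ∫ σ, wt (n := n) J σ ∂(P V n)

lemma Zp_pos [NeZero n] (J : V → V → ℝ) : 0 < Zp n J := by
  unfold Zp
  rw [integral_pos_iff_support_of_nonneg (fun σ => (wt_pos J σ).le)
    (integrable_of_continuous (continuous_wt J))]
  have : Function.support (wt (n := n) J) = Set.univ := by
    ext σ; simp [(wt_pos J σ).ne']
  rw [this]; simp only [measure_univ, zero_lt_one]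

end Vale.Agent.P163
end
end

section

section

open MeasureTheory Filter Topology
open scoped RealInnerProductSpace

set_option linter.unusedSectionVars false

namespace Vale.Agent.P163

variable {n : ℕ} {I : Type} [DecidableEq I] [Countable I]

/-- reference product measure on sphere valued configurations -/
noncomputable def QQ (I : Type) (n : ℕ) : Measure (I → Spin n) :=
  Measure.infinitePi fun _ => unif n

instance QQ_isProb [NeZero n] : IsProbabilityMeasure (QQ I n) := by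
  unfold QQ; infer_instance

instance spin_nonempty [NeZero n] : Nonempty (Spin n) := by
  have h : (unif n) Set.univ = 1 := measure_univ
  by_contra hne
  rw [not_nonempty_iff] at hne
  have : (Set.univ : Set (Spin n)) = ∅ := Set.univ_eq_empty_iff.2 hne
  rw [this] at h
  simp at h

lemma bdd_of_continuous {X : Type} [TopologicalSpace X] [CompactSpace X] {f : X → ℝ}
    (hf : Continuous f) : ∃ C, 0 ≤ C ∧ ∀ x, |f x| ≤ C := by
  obtain ⟨C, hC⟩ := isCompact_univ.exists_bound_of_continuousOn (f := f) hf.continuousOn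
  refine ⟨max C 0, le_max_right _ _, fun x => ?_⟩
  have := hC x (Set.mem_univ x)
  rw [Real.norm_eq_abs] at this
  exact this.trans (le_max_left _ _)

lemma integrable_QQ [NeZero n] {f : (I → Spin n) → ℝ} (hf : Continuous f) :
    Integrable f (QQ I n) := by
  obtain ⟨C, _, hC⟩ := bdd_of_continuous hf
  refine ⟨hf.aestronglyMeasurable, HasFiniteIntegral.of_bounded (C := C) ?_⟩
  exact Filter.Eventually.of_forall hC

/-- averaging over the spins in `D` -/
noncomputable def Av (D : Finset I) (f : (I → Spin n) → ℝ) (σ : I → Spin n) : ℝ :=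
  ∫ ξ, f (D.piecewise ξ σ) ∂(QQ I n)

lemma continuous_pw (D : Finset I) :
    Continuous fun p : (I → Spin n) × (I → Spin n) => D.piecewise p.1 p.2 := by
  refine continuous_pi fun x => ?_
  by_cases h : x ∈ D
  · simp only [Finset.piecewise_eq_of_mem _ _ _ h]
    exact (continuous_apply x).comp continuous_fst
  · simp only [Finset.piecewise_eq_of_notMem _ _ _ h]
    exact (continuous_apply x).comp continuous_snd

lemma continuous_pw_left (D : Finset I) (σ : I → Spin n) :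
    Continuous fun ξ : I → Spin n => D.piecewise ξ σ :=
  (continuous_pw D).comp (continuous_id.prodMk continuous_const)

lemma continuous_pw_right (D : Finset I) (ξ : I → Spin n) :
    Continuous fun σ : I → Spin n => D.piecewise ξ σ :=
  (continuous_pw D).comp (continuous_const.prodMk continuous_id)

lemma continuous_Av [NeZero n] (D : Finset I) {f : (I → Spin n) → ℝ} (hf : Continuous f) :
    Continuous (Av D f) := by
  obtain ⟨C, _, hC⟩ := bdd_of_continuous hf
  unfold Av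
  refine continuous_of_dominated (bound := fun _ => C) ?_ ?_ ?_ ?_
  · intro σ
    exact (hf.comp (continuous_pw_left D σ)).aestronglyMeasurable
  · intro σ
    exact Filter.Eventually.of_forall fun ξ => hC _
  · exact integrable_const _
  · exact Filter.Eventually.of_forall fun ξ => hf.comp (continuous_pw_right D ξ)

lemma Av_add [NeZero n] (D : Finset I) {f g : (I → Spin n) → ℝ} (hf : Continuous f)
    (hg : Continuous g) (σ : I → Spin n) :
    Av D (fun σ => f σ + g σ) σ = Av D f σ + Av D g σ := by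
  unfold Av
  exact integral_add (integrable_QQ (hf.comp (continuous_pw_left D σ)))
    (integrable_QQ (hg.comp (continuous_pw_left D σ)))

lemma Av_sub [NeZero n] (D : Finset I) {f g : (I → Spin n) → ℝ} (hf : Continuous f)
    (hg : Continuous g) (σ : I → Spin n) :
    Av D (fun σ => f σ - g σ) σ = Av D f σ - Av D g σ := by
  unfold Av
  exact integral_sub (integrable_QQ (hf.comp (continuous_pw_left D σ)))
    (integrable_QQ (hg.comp (continuous_pw_left D σ)))

lemma Av_const_mul [NeZero n] (D : Finset I) (c : ℝ) (f : (I → Spin n) → ℝ)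
    (σ : I → Spin n) : Av D (fun σ => c * f σ) σ = c * Av D f σ := by
  unfold Av
  exact integral_const_mul _ _

lemma Av_sum [NeZero n] (D : Finset I) {κ : Type*} (s : Finset κ)
    {f : κ → (I → Spin n) → ℝ} (hf : ∀ k ∈ s, Continuous (f k)) (σ : I → Spin n) :
    Av D (fun σ => ∑ k ∈ s, f k σ) σ = ∑ k ∈ s, Av D (f k) σ := by
  unfold Av
  exact integral_finsetSum _ fun k hk =>
    (integrable_QQ ((hf k hk).comp (continuous_pw_left D σ)))

lemma Av_mono [NeZero n] (D : Finset I) {f g : (I → Spin n) → ℝ} (hf : Continuous f)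
    (hg : Continuous g) (h : ∀ σ, f σ ≤ g σ) (σ : I → Spin n) : Av D f σ ≤ Av D g σ := by
  unfold Av
  exact integral_mono (integrable_QQ (hf.comp (continuous_pw_left D σ)))
    (integrable_QQ (hg.comp (continuous_pw_left D σ))) fun ξ => h _

lemma Av_pos [NeZero n] (D : Finset I) {f : (I → Spin n) → ℝ} (hf : Continuous f)
    (h : ∀ σ, 0 < f σ) (σ : I → Spin n) : 0 < Av D f σ := by
  unfold Av
  rw [integral_pos_iff_support_of_nonneg (fun ξ => (h _).le)
    (integrable_QQ (hf.comp (continuous_pw_left D σ)))]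
  have : Function.support (fun ξ => f (D.piecewise ξ σ)) = Set.univ := by
    ext ξ; simp [(h _).ne']
  rw [this]; simp only [measure_univ, zero_lt_one]

/-- `f` does not depend on the spins in `D` -/
def NoDep (D : Finset I) (f : (I → Spin n) → ℝ) : Prop :=
  ∀ ξ σ, f (D.piecewise ξ σ) = f σ

lemma NoDep.mono {D D' : Finset I} (h : D' ⊆ D) {f : (I → Spin n) → ℝ} (hf : NoDep D f) :
    NoDep D' f := by
  intro ξ σ
  have : D'.piecewise ξ σ = D.piecewise (D'.piecewise ξ σ) σ := by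
    funext x
    by_cases hx : x ∈ D
    · simp [hx]
    · have hx' : x ∉ D' := fun hh => hx (h hh)
      simp [hx, hx']
  rw [this, hf]

lemma NoDep.add {D : Finset I} {f g : (I → Spin n) → ℝ} (hf : NoDep D f) (hg : NoDep D g) :
    NoDep D (fun σ => f σ + g σ) := fun ξ σ => by simp only [hf ξ σ, hg ξ σ]

lemma NoDep.mul {D : Finset I} {f g : (I → Spin n) → ℝ} (hf : NoDep D f) (hg : NoDep D g) :
    NoDep D (fun σ => f σ * g σ) := fun ξ σ => by simp only [hf ξ σ, hg ξ σ]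

lemma NoDep.comp {D : Finset I} {f : (I → Spin n) → ℝ} (hf : NoDep D f) (g : ℝ → ℝ) :
    NoDep D (fun σ => g (f σ)) := fun ξ σ => by simp only [hf ξ σ]

lemma pw_pw (D : Finset I) (ξ ξ' σ : I → Spin n) :
    D.piecewise ξ (D.piecewise ξ' σ) = D.piecewise ξ σ := by
  funext x
  by_cases hx : x ∈ D <;> simp [hx]

lemma NoDep_Av (D : Finset I) (f : (I → Spin n) → ℝ) : NoDep D (Av D f) := by
  intro ξ σ
  unfold Av
  simp only [pw_pw]

/-- if `f` does not depend on `D'` then neither does `Av D f` -/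
lemma NoDep.Av {D' : Finset I} {f : (I → Spin n) → ℝ} (hf : NoDep D' f) (D : Finset I) :
    NoDep D' (Av D f) := by
  intro ξ σ
  unfold Vale.Agent.P163.Av
  congr 1
  funext ζ
  have : D.piecewise ζ (D'.piecewise ξ σ) = D'.piecewise (D.piecewise ζ ξ) (D.piecewise ζ σ) := by
    funext x
    by_cases hx : x ∈ D <;> by_cases hx' : x ∈ D' <;> simp [hx, hx']
  rw [this, hf]

lemma Av_mul_of_NoDep [NeZero n] (D : Finset I) {f g : (I → Spin n) → ℝ} (hg : NoDep D g)
    (σ : I → Spin n) : Av D (fun σ => g σ * f σ) σ = g σ * Av D f σ := by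
  unfold Av
  rw [← integral_const_mul]
  congr 1
  funext ξ
  simp only [hg ξ σ]

/-! ### Resampling -/

lemma measurable_pw (D : Finset I) :
    Measurable fun p : (I → Spin n) × (I → Spin n) => D.piecewise p.1 p.2 :=
  (continuous_pw D).measurable

lemma mp_pw [NeZero n] (D : Finset I) :
    MeasurePreserving (fun p : (I → Spin n) × (I → Spin n) => D.piecewise p.1 p.2)
      ((QQ I n).prod (QQ I n)) (QQ I n) := by
  refine ⟨measurable_pw D, ?_⟩
  unfold QQ
  refine Measure.eq_infinitePi _ fun s t ht => ?_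
  rw [Measure.map_apply (measurable_pw D) (MeasurableSet.pi s.countable_toSet fun i _ => ht i)]
  have hpre : (fun p : (I → Spin n) × (I → Spin n) => D.piecewise p.1 p.2) ⁻¹'
      (Set.pi (s : Set I) t) =
      (Set.pi ((s ∩ D : Finset I) : Set I) t) ×ˢ (Set.pi ((s \ D : Finset I) : Set I) t) := by
    ext ⟨ξ, σ⟩
    simp only [Set.mem_preimage, Set.mem_pi, Set.mem_prod, Finset.mem_coe, Finset.mem_inter,
      Finset.mem_sdiff]
    constructor
    · intro h
      refine ⟨fun i hi => ?_, fun i hi => ?_⟩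
      · have := h i hi.1
        rwa [Finset.piecewise_eq_of_mem _ _ _ hi.2] at this
      · have := h i hi.1
        rwa [Finset.piecewise_eq_of_notMem _ _ _ hi.2] at this
    · rintro ⟨h1, h2⟩ i hi
      by_cases hD : i ∈ D
      · rw [Finset.piecewise_eq_of_mem _ _ _ hD]; exact h1 i ⟨hi, hD⟩
      · rw [Finset.piecewise_eq_of_notMem _ _ _ hD]; exact h2 i ⟨hi, hD⟩
  rw [hpre, Measure.prod_prod, Measure.infinitePi_pi _ (fun i _ => ht i),
    Measure.infinitePi_pi _ (fun i _ => ht i)]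
  exact Finset.prod_inter_mul_prod_sdiff _ _ _

lemma integral_pw [NeZero n] (D : Finset I) {f : (I → Spin n) → ℝ} (hf : Continuous f) :
    ∫ ξ, ∫ ζ, f (D.piecewise ζ ξ) ∂(QQ I n) ∂(QQ I n) = ∫ ξ, f ξ ∂(QQ I n) := by
  have hmp := mp_pw (n := n) D
  have h1 : ∫ p, f (D.piecewise p.1 p.2) ∂((QQ I n).prod (QQ I n)) = ∫ σ, f σ ∂(QQ I n) := by
    have h3 := integral_map (μ := (QQ I n).prod (QQ I n)) hmp.measurable.aemeasurable
      (f := f) hf.aestronglyMeasurable
    rw [hmp.map_eq] at h3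
    exact h3.symm
  have h2 : Integrable (fun p : (I → Spin n) × (I → Spin n) => f (D.piecewise p.1 p.2))
      ((QQ I n).prod (QQ I n)) :=
    hmp.integrable_comp_of_integrable (integrable_QQ hf)
  rw [← h1, integral_prod_symm _ h2]

/-- tower property -/
lemma Av_Av [NeZero n] {D D' : Finset I} (h : D' ⊆ D) {f : (I → Spin n) → ℝ}
    (hf : Continuous f) (σ : I → Spin n) : Av D (Av D' f) σ = Av D f σ := by
  have h1 := integral_pw (n := n) D' (f := fun ξ => f (D.piecewise ξ σ))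
    (hf.comp (continuous_pw_left D σ))
  unfold Av
  rw [← h1]
  congr 1
  funext ξ
  congr 1
  funext ζ
  congr 1
  funext x
  by_cases hx : x ∈ D
  · by_cases hx' : x ∈ D' <;> simp [hx, hx']
  · have hx' : x ∉ D' := fun hh => hx (h hh)
    simp [hx, hx']

/-! ### Gauge transformations -/

/-- site-dependent isometries -/
abbrev Gau (I : Type) (n : ℕ) := I → (E n ≃ₗᵢ[ℝ] E n)

/-- action of site-dependent isometries on configurations -/
noncomputable def act (h : Gau I n) (σ : I → Spin n) : I → Spin n :=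
  fun x => isoSphere (h x) (σ x)

@[simp] lemma coe_act (h : Gau I n) (σ : I → Spin n) (x : I) :
    ((act h σ x : Spin n) : E n) = h x (σ x) := rfl

lemma continuous_isoSphere (U : E n ≃ₗᵢ[ℝ] E n) : Continuous (isoSphere U) :=
  Continuous.subtype_mk (U.continuous.comp continuous_subtype_val) _

lemma continuous_act (h : Gau I n) : Continuous (act h) :=
  continuous_pi fun x => (continuous_isoSphere (h x)).comp (continuous_apply x)

lemma act_pw (h : Gau I n) (D : Finset I) (ξ σ : I → Spin n) :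
    act h (D.piecewise ξ σ) = D.piecewise (act h ξ) (act h σ) := by
  funext x
  by_cases hx : x ∈ D <;> simp [act, hx]

lemma act_symm_act (h : Gau I n) (σ : I → Spin n) :
    act (fun x => (h x).symm) (act h σ) = σ := by
  funext x; apply Subtype.ext; simp

lemma mp_act [NeZero n] (h : Gau I n) : MeasurePreserving (act h) (QQ I n) (QQ I n) := by
  refine ⟨(continuous_act h).measurable, ?_⟩
  unfold QQ
  have := Measure.infinitePi_map_pi (ι := I) (fun _ => unif n) (Y := fun _ => Spin n)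
    (f := fun x => isoSphere (h x)) (fun x => measurable_isoSphere (h x))
  simp only [unif_map_iso] at this
  exact this

lemma integral_act [NeZero n] (h : Gau I n) {f : (I → Spin n) → ℝ} (hf : Continuous f) :
    ∫ ξ, f (act h ξ) ∂(QQ I n) = ∫ ξ, f ξ ∂(QQ I n) := by
  have hmp := mp_act (n := n) h
  have h3 := integral_map (μ := QQ I n) hmp.measurable.aemeasurable
      (f := f) hf.aestronglyMeasurable
  rw [hmp.map_eq] at h3
  exact h3.symm

lemma Av_act [NeZero n] (D : Finset I) (h : Gau I n) {f : (I → Spin n) → ℝ} (hf : Continuous f)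
    (σ : I → Spin n) : Av D (fun σ => f (act h σ)) σ = Av D f (act h σ) := by
  unfold Av
  simp only [act_pw]
  exact integral_act h (f := fun ξ => f (D.piecewise ξ (act h σ)))
    (hf.comp (continuous_pw_left D _))

/-- gauge transformations supported in `D` -/
def SuppIn (D : Finset I) (h : Gau I n) : Prop := ∀ x ∉ D, h x = LinearIsometryEquiv.refl ℝ _

lemma Av_act_of_supp [NeZero n] {D : Finset I} {h : Gau I n} (hh : SuppIn D h)
    {f : (I → Spin n) → ℝ} (hf : Continuous f)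
    (σ : I → Spin n) : Av D (fun σ => f (act h σ)) σ = Av D f σ := by
  rw [Av_act D h hf]
  unfold Av
  congr 1
  funext ξ
  congr 1
  funext x
  by_cases hx : x ∈ D
  · simp [hx]
  · simp only [Finset.piecewise_eq_of_notMem _ _ _ hx]
    apply Subtype.ext
    simp [hh x hx]

end Vale.Agent.P163
end
end

section

section

open MeasureTheory Filter Topology
open scoped RealInnerProductSpace

set_option linter.unusedSectionVars false

namespace Vale.Agent.P163

variable {n : ℕ} {I : Type} [DecidableEq I] [Countable I]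

/-- Gibbs expectation over the spins in `D` with energy `H`, given the other spins -/
noncomputable def Gb (D : Finset I) (H f : (I → Spin n) → ℝ) (σ : I → Spin n) : ℝ :=
  Av D (fun σ => f σ * Real.exp (H σ)) σ / Av D (fun σ => Real.exp (H σ)) σ

section basic

omit [DecidableEq I] [Countable I] in
lemma cexp {H : (I → Spin n) → ℝ} (hH : Continuous H) : Continuous fun σ => Real.exp (H σ) :=
  Real.continuous_exp.comp hH

omit [DecidableEq I] [Countable I] in
lemma cfe {H f : (I → Spin n) → ℝ} (hf : Continuous f) (hH : Continuous H) :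
    Continuous fun σ => f σ * Real.exp (H σ) :=
  hf.mul (cexp hH)

variable [NeZero n] {D : Finset I} {H : (I → Spin n) → ℝ}

lemma Gb_den_pos (hH : Continuous H) (σ : I → Spin n) :
    0 < Av D (fun σ => Real.exp (H σ)) σ :=
  Av_pos D (cexp hH) (fun σ => Real.exp_pos _) σ

lemma Gb_const (hH : Continuous H) (c : ℝ) (σ : I → Spin n) :
    Gb D H (fun _ => c) σ = c := by
  unfold Gb
  rw [Av_const_mul]
  exact mul_div_cancel_right₀ c (Gb_den_pos hH σ).ne'

lemma Gb_add {f g : (I → Spin n) → ℝ} (hH : Continuous H) (hf : Continuous f)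
    (hg : Continuous g) (σ : I → Spin n) :
    Gb D H (fun σ => f σ + g σ) σ = Gb D H f σ + Gb D H g σ := by
  unfold Gb
  rw [← add_div, ← Av_add D (cfe hf hH) (cfe hg hH)]
  simp only [add_mul]

lemma Gb_sub {f g : (I → Spin n) → ℝ} (hH : Continuous H) (hf : Continuous f)
    (hg : Continuous g) (σ : I → Spin n) :
    Gb D H (fun σ => f σ - g σ) σ = Gb D H f σ - Gb D H g σ := by
  unfold Gb
  rw [← sub_div, ← Av_sub D (cfe hf hH) (cfe hg hH)]
  simp only [sub_mul]

lemma Gb_const_mul (c : ℝ) (f : (I → Spin n) → ℝ) (σ : I → Spin n) :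
    Gb D H (fun σ => c * f σ) σ = c * Gb D H f σ := by
  unfold Gb
  simp only [mul_assoc]
  rw [Av_const_mul, mul_div_assoc]

lemma Gb_sum {κ : Type*} (s : Finset κ) {f : κ → (I → Spin n) → ℝ} (hH : Continuous H)
    (hf : ∀ k ∈ s, Continuous (f k)) (σ : I → Spin n) :
    Gb D H (fun σ => ∑ k ∈ s, f k σ) σ = ∑ k ∈ s, Gb D H (f k) σ := by
  unfold Gb
  simp only [Finset.sum_mul]
  rw [Av_sum D s (fun k hk => cfe (hf k hk) hH), Finset.sum_div]

lemma Gb_mono {f g : (I → Spin n) → ℝ} (hH : Continuous H) (hf : Continuous f)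
    (hg : Continuous g) (h : ∀ σ, f σ ≤ g σ) (σ : I → Spin n) :
    Gb D H f σ ≤ Gb D H g σ := by
  unfold Gb
  refine div_le_div_of_nonneg_right ?_ (Gb_den_pos hH σ).le
  exact Av_mono D (hf.mul (cexp hH)) (hg.mul (cexp hH))
    (fun σ => mul_le_mul_of_nonneg_right (h σ) (Real.exp_pos _).le) σ

lemma Gb_nonneg {f : (I → Spin n) → ℝ} (hH : Continuous H) (hf : Continuous f)
    (h : ∀ σ, 0 ≤ f σ) (σ : I → Spin n) : 0 ≤ Gb D H f σ := by
  have := Gb_mono (D := D) hH continuous_const hf h σ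
  rwa [Gb_const hH] at this

lemma Gb_abs_le {f : (I → Spin n) → ℝ} (hH : Continuous H) (hf : Continuous f) {C : ℝ}
    (h : ∀ σ, |f σ| ≤ C) (σ : I → Spin n) : |Gb D H f σ| ≤ C := by
  rw [abs_le]
  constructor
  · have := Gb_mono (D := D) hH (continuous_const (y := -C)) hf (fun σ => (abs_le.1 (h σ)).1) σ
    rwa [Gb_const hH] at this
  · have := Gb_mono (D := D) hH hf (continuous_const (y := C)) (fun σ => (abs_le.1 (h σ)).2) σ
    rwa [Gb_const hH] at this

lemma continuous_Gb {f : (I → Spin n) → ℝ} (hH : Continuous H) (hf : Continuous f) :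
    Continuous (Gb D H f) :=
  (continuous_Av D (hf.mul (cexp hH))).div (continuous_Av D (cexp hH))
    fun σ => (Gb_den_pos hH σ).ne'

lemma Gb_mul_of_NoDep {f g : (I → Spin n) → ℝ} (hg : NoDep D g) (σ : I → Spin n) :
    Gb D H (fun σ => g σ * f σ) σ = g σ * Gb D H f σ := by
  unfold Gb
  simp only [mul_assoc]
  rw [Av_mul_of_NoDep D hg, mul_div_assoc]

lemma NoDep_Gb (f : (I → Spin n) → ℝ) : NoDep D (Gb D H f) := by
  intro ξ σ
  unfold Gb
  rw [NoDep_Av D _ ξ σ, NoDep_Av D _ ξ σ]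

lemma NoDep.Gb {D' : Finset I} {f : (I → Spin n) → ℝ} (hf : NoDep D' f) (hH : NoDep D' H) :
    NoDep D' (Gb D H f) := by
  intro ξ σ
  unfold Vale.Agent.P163.Gb
  rw [(hf.mul (hH.comp Real.exp)).Av D ξ σ, (hH.comp Real.exp).Av D ξ σ]

/-- consistency of Gibbs kernels -/
lemma Gb_Gb {D' : Finset I} (hD : D' ⊆ D) {H' f : (I → Spin n) → ℝ} (hH : Continuous H)
    (hH' : Continuous H') (hf : Continuous f) (hd : NoDep D' (fun σ => H σ - H' σ))
    (σ : I → Spin n) : Gb D H (Gb D' H' f) σ = Gb D H f σ := by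
  have hGc : Continuous (Gb D' H' f) := continuous_Gb hH' hf
  have key : Av D (fun σ => Gb D' H' f σ * Real.exp (H σ)) σ =
      Av D (fun σ => f σ * Real.exp (H σ)) σ := by
    rw [← Av_Av hD (cfe hGc hH), ← Av_Av hD (cfe hf hH)]
    congr 1
    funext τ
    have e1 : ∀ σ, Real.exp (H σ) = Real.exp (H σ - H' σ) * Real.exp (H' σ) := fun σ => by
      rw [← Real.exp_add]; congr 1; ring
    have hd' : NoDep D' (fun σ => Real.exp (H σ - H' σ)) := hd.comp Real.exp
    have e2 : (fun σ => Gb D' H' f σ * Real.exp (H σ)) =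
        fun σ => (Gb D' H' f σ * Real.exp (H σ - H' σ)) * Real.exp (H' σ) := by
      funext σ; rw [e1 σ]; ring
    have e3 : (fun σ => f σ * Real.exp (H σ)) =
        fun σ => Real.exp (H σ - H' σ) * (f σ * Real.exp (H' σ)) := by
      funext σ; rw [e1 σ]; ring
    rw [e2, e3, Av_mul_of_NoDep D' ((NoDep_Gb f).mul hd'), Av_mul_of_NoDep D' hd']
    have hpos := Gb_den_pos (D := D') hH' τ
    unfold Gb
    (clear * - hpos; field_simp)
  unfold Gb at key ⊢
  rw [key]

/-- covariance of Gibbs kernels under arbitrary gauge transformations -/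
lemma Gb_act (h : Gau I n) {f : (I → Spin n) → ℝ} (hH : Continuous H) (hf : Continuous f)
    (σ : I → Spin n) :
    Gb D H f (act h σ) = Gb D H (fun σ => f (act h σ) * Real.exp (H (act h σ) - H σ)) σ /
      Gb D H (fun σ => Real.exp (H (act h σ) - H σ)) σ := by
  have hpos := Gb_den_pos (D := D) hH σ
  have hc := continuous_act (n := n) h
  unfold Gb
  rw [← Av_act D h (cfe hf hH), ← Av_act D h (cexp hH)]
  have e1 : (fun σ => f (act h σ) * Real.exp (H (act h σ) - H σ) * Real.exp (H σ)) =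
      fun σ => f (act h σ) * Real.exp (H (act h σ)) := by
    funext σ
    rw [mul_assoc, ← Real.exp_add]; congr 2; ring
  have e2 : (fun σ => Real.exp (H (act h σ) - H σ) * Real.exp (H σ)) =
      fun σ => Real.exp (H (act h σ)) := by
    funext σ
    rw [← Real.exp_add]; congr 1; ring
  simp only [e1, e2]
  rw [div_div_div_cancel_right₀ hpos.ne']

/-- change of variables -/
lemma Gb_act_supp {h : Gau I n} (hh : SuppIn D h) {f : (I → Spin n) → ℝ} (hH : Continuous H)
    (hf : Continuous f) (σ : I → Spin n) :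
    Gb D H (fun σ => f (act h σ)) σ =
      Gb D H (fun σ => f σ * Real.exp (H (act (fun x => (h x).symm) σ) - H σ)) σ := by
  have hc := continuous_act (n := n) h
  have hc' := continuous_act (n := n) (fun x => (h x).symm)
  unfold Gb
  congr 1
  have hcont : Continuous fun σ => f σ * Real.exp (H (act (fun x => (h x).symm) σ) - H σ) *
      Real.exp (H σ) := (hf.mul (cexp ((hH.comp hc').sub hH))).mul (cexp hH)
  rw [← Av_act_of_supp hh hcont]
  congr 1
  funext τ
  rw [act_symm_act, mul_assoc, ← Real.exp_add]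
  congr 2; ring

lemma Gb_exp_supp {h : Gau I n} (hh : SuppIn D h) (hH : Continuous H) (σ : I → Spin n) :
    Gb D H (fun σ => Real.exp (H (act h σ) - H σ)) σ = 1 := by
  have hh' : SuppIn D (fun x => (h x).symm) := fun x hx => by simp only [hh x hx]; rfl
  have h1 := Gb_act_supp (D := D) (H := H) hh' (f := fun _ => 1) hH continuous_const σ
  rw [Gb_const hH] at h1
  simpa using h1.symm

/-- Cauchy-Schwarz -/
lemma Gb_cs {f g : (I → Spin n) → ℝ} (hH : Continuous H) (hf : Continuous f)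
    (hg : Continuous g) (σ : I → Spin n) :
    (Gb D H (fun σ => f σ * g σ) σ) ^ 2 ≤
      Gb D H (fun σ => f σ ^ 2) σ * Gb D H (fun σ => g σ ^ 2) σ := by
  have key : ∀ t : ℝ, 0 ≤ Gb D H (fun σ => g σ ^ 2) σ * (t * t) +
      (2 * Gb D H (fun σ => f σ * g σ) σ) * t + Gb D H (fun σ => f σ ^ 2) σ := by
    intro t
    have h1 : 0 ≤ Gb D H (fun σ => (f σ + t * g σ) ^ 2) σ :=
      Gb_nonneg hH (by fun_prop) (fun σ => sq_nonneg _) σ
    have h2 : Gb D H (fun σ => (f σ + t * g σ) ^ 2) σ =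
        Gb D H (fun σ => f σ ^ 2) σ + (2 * t) * Gb D H (fun σ => f σ * g σ) σ +
          (t * t) * Gb D H (fun σ => g σ ^ 2) σ := by
      rw [← Gb_const_mul, ← Gb_const_mul, ← Gb_add hH (by fun_prop) (by fun_prop),
        ← Gb_add hH (by fun_prop) (by fun_prop)]
      congr 1; funext σ; ring
    rw [h2] at h1
    linarith only [h1]
  have := discrim_le_zero key
  unfold discrim at this
  linarith

/-- variance -/
noncomputable def Vr (D : Finset I) (H f : (I → Spin n) → ℝ) (σ : I → Spin n) : ℝ :=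
  Gb D H (fun σ => f σ ^ 2) σ - (Gb D H f σ) ^ 2

lemma Vr_eq {f : (I → Spin n) → ℝ} (hH : Continuous H) (hf : Continuous f) (σ : I → Spin n) :
    Vr D H f σ = Gb D H (fun τ => (f τ - Gb D H f σ) ^ 2) σ := by
  unfold Vr
  set m := Gb D H f σ with hm
  have : (fun τ => (f τ - m) ^ 2) = fun τ => (f τ ^ 2 - (2 * m) * f τ) + m ^ 2 := by
    funext τ; ring
  rw [this, Gb_add hH (by fun_prop) (by fun_prop), Gb_sub hH (by fun_prop) (by fun_prop),
    Gb_const_mul, Gb_const hH, ← hm]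
  ring

lemma Vr_nonneg {f : (I → Spin n) → ℝ} (hH : Continuous H) (hf : Continuous f)
    (σ : I → Spin n) : 0 ≤ Vr D H f σ := by
  rw [Vr_eq hH hf]
  exact Gb_nonneg hH (by fun_prop) (fun _ => sq_nonneg _) σ

/-- covariance -/
noncomputable def Cv (D : Finset I) (H f g : (I → Spin n) → ℝ) (σ : I → Spin n) : ℝ :=
  Gb D H (fun σ => f σ * g σ) σ - Gb D H f σ * Gb D H g σ

lemma Cv_sq_le {f g : (I → Spin n) → ℝ} (hH : Continuous H) (hf : Continuous f)
    (hg : Continuous g) (σ : I → Spin n) :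
    (Cv D H f g σ) ^ 2 ≤ Vr D H f σ * Gb D H (fun σ => g σ ^ 2) σ := by
  have h1 : Cv D H f g σ = Gb D H (fun τ => (f τ - Gb D H f σ) * g τ) σ := by
    set m := Gb D H f σ with hm
    have : (fun τ => (f τ - m) * g τ) = fun τ => f τ * g τ - m * g τ := by
      funext τ; ring
    rw [this, Gb_sub hH (by fun_prop) (by fun_prop), Gb_const_mul]
    rfl
  rw [h1, Vr_eq hH hf]
  exact Gb_cs hH (by fun_prop) hg σ

end basic

end Vale.Agent.P163
end
end

section

section

open MeasureTheory Filter Topology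
open scoped RealInnerProductSpace

set_option linter.unusedSectionVars false

namespace Vale.Agent.P163

variable {n : ℕ} {I : Type} [DecidableEq I] [Countable I]

/-- Data for the decomposition of a Gibbs expectation over `D` in cells. -/
structure CellSys (n : ℕ) (I : Type) [DecidableEq I] (κ : Type) where
  s : Finset κ
  D : Finset I
  H : (I → Spin n) → ℝ
  Dk : κ → Finset I
  Hk : κ → (I → Spin n) → ℝ
  hH : Continuous H
  hHk : ∀ k, Continuous (Hk k)
  sub : ∀ k ∈ s, Dk k ⊆ D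
  loc : ∀ k ∈ s, NoDep (Dk k) (fun σ => H σ - Hk k σ)
  indep : ∀ k ∈ s, ∀ k' ∈ s, k ≠ k' → NoDep (Dk k') (Hk k)

namespace CellSys

variable [NeZero n] {κ : Type} [DecidableEq κ] (S : CellSys n I κ)

lemma dlr {k : κ} (hk : k ∈ S.s) {f : (I → Spin n) → ℝ} (hf : Continuous f) (σ : I → Spin n) :
    Gb S.D S.H (Gb (S.Dk k) (S.Hk k) f) σ = Gb S.D S.H f σ :=
  Gb_Gb (S.sub k hk) S.hH (S.hHk k) hf (S.loc k hk) σ

/-- replacement of a cell function by its conditional expectation -/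
lemma repl {k : κ} (hk : k ∈ S.s) {f g : (I → Spin n) → ℝ} (hf : Continuous f)
    (hg : Continuous g) (hgn : NoDep (S.Dk k) g) (σ : I → Spin n) :
    Gb S.D S.H (fun σ => g σ * f σ) σ =
      Gb S.D S.H (fun σ => g σ * Gb (S.Dk k) (S.Hk k) f σ) σ := by
  have hgf : Continuous fun σ => g σ * f σ := hg.mul hf
  rw [← S.dlr hk hgf σ]
  congr 1
  funext τ
  exact Gb_mul_of_NoDep hgn τ

lemma cross {k k' : κ} (hk : k ∈ S.s) (hk' : k' ∈ S.s) (hne : k ≠ k')
    {f g : (I → Spin n) → ℝ} (hf : Continuous f) (hg : Continuous g)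
    (hfn : NoDep (S.Dk k') f) (hgn : NoDep (S.Dk k) g) (σ : I → Spin n) :
    Gb S.D S.H (fun σ => f σ * g σ) σ =
      Gb S.D S.H (fun σ => Gb (S.Dk k) (S.Hk k) f σ * Gb (S.Dk k') (S.Hk k') g σ) σ := by
  have h1 : Gb S.D S.H (fun σ => f σ * g σ) σ = Gb S.D S.H (fun σ => g σ * f σ) σ := by
    congr 1; funext τ; ring
  rw [h1, S.repl hk hf hg hgn]
  have hc : Continuous (Gb (S.Dk k) (S.Hk k) f) := continuous_Gb (S.hHk k) hf
  have hn : NoDep (S.Dk k') (Gb (S.Dk k) (S.Hk k) f) :=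
    hfn.Gb (S.indep k hk k' hk' hne)
  have h2 : Gb S.D S.H (fun σ => g σ * Gb (S.Dk k) (S.Hk k) f σ) σ =
      Gb S.D S.H (fun σ => Gb (S.Dk k) (S.Hk k) f σ * g σ) σ := by
    congr 1; funext τ; ring
  rw [h2, S.repl hk' hg hc hn]

lemma diag {k : κ} (hk : k ∈ S.s) {f : (I → Spin n) → ℝ} (hf : Continuous f)
    (σ : I → Spin n) :
    Gb S.D S.H (fun σ => f σ * f σ) σ = Gb S.D S.H (Vr (S.Dk k) (S.Hk k) f) σ +
      Gb S.D S.H (fun σ => Gb (S.Dk k) (S.Hk k) f σ * Gb (S.Dk k) (S.Hk k) f σ) σ := by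
  have hc : Continuous (Gb (S.Dk k) (S.Hk k) f) := continuous_Gb (S.hHk k) hf
  have hc2 : Continuous (Gb (S.Dk k) (S.Hk k) (fun σ => f σ ^ 2)) :=
    continuous_Gb (S.hHk k) (by fun_prop)
  have hv : Continuous (Vr (S.Dk k) (S.Hk k) f) := by
    unfold Vr; exact hc2.sub (hc.pow 2)
  have hcc : Continuous fun σ => Gb (S.Dk k) (S.Hk k) f σ * Gb (S.Dk k) (S.Hk k) f σ :=
    hc.mul hc
  have hff : Continuous fun σ => f σ * f σ := hf.mul hf
  rw [← Gb_add S.hH hv hcc, ← S.dlr hk hff σ]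
  congr 1
  funext τ
  simp only [Vr, sq]
  ring

/-- Law of total variance (second moment form). -/
theorem total_sq {Φ : κ → (I → Spin n) → ℝ} (hΦ : ∀ k, Continuous (Φ k))
    (hΦn : ∀ k ∈ S.s, ∀ k' ∈ S.s, k ≠ k' → NoDep (S.Dk k') (Φ k)) (σ : I → Spin n) :
    Gb S.D S.H (fun σ => (∑ k ∈ S.s, Φ k σ) ^ 2) σ =
      ∑ k ∈ S.s, Gb S.D S.H (Vr (S.Dk k) (S.Hk k) (Φ k)) σ +
      Gb S.D S.H (fun σ => (∑ k ∈ S.s, Gb (S.Dk k) (S.Hk k) (Φ k) σ) ^ 2) σ := by
  have hc : ∀ k, Continuous (Gb (S.Dk k) (S.Hk k) (Φ k)) := fun k =>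
    continuous_Gb (S.hHk k) (hΦ k)
  have e1 : (fun σ => (∑ k ∈ S.s, Φ k σ) ^ 2) =
      fun σ => ∑ k ∈ S.s, ∑ k' ∈ S.s, Φ k σ * Φ k' σ := by
    funext σ; rw [sq, Finset.sum_mul_sum]
  have e2 : (fun σ => (∑ k ∈ S.s, Gb (S.Dk k) (S.Hk k) (Φ k) σ) ^ 2) =
      fun σ => ∑ k ∈ S.s, ∑ k' ∈ S.s, Gb (S.Dk k) (S.Hk k) (Φ k) σ *
        Gb (S.Dk k') (S.Hk k') (Φ k') σ := by
    funext σ; rw [sq, Finset.sum_mul_sum]
  have c1 : ∀ k k', Continuous fun σ => Φ k σ * Φ k' σ := fun k k' => (hΦ k).mul (hΦ k')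
  have c2 : ∀ k k', Continuous fun σ => Gb (S.Dk k) (S.Hk k) (Φ k) σ *
      Gb (S.Dk k') (S.Hk k') (Φ k') σ := fun k k' => (hc k).mul (hc k')
  rw [e1, e2, Gb_sum _ S.hH (fun k _ => continuous_finsetSum _ fun k' _ => c1 k k'),
    Gb_sum _ S.hH (fun k _ => continuous_finsetSum _ fun k' _ => c2 k k'),
    ← Finset.sum_add_distrib]
  refine Finset.sum_congr rfl fun k hk => ?_
  rw [Gb_sum _ S.hH (fun k' _ => c1 k k'), Gb_sum _ S.hH (fun k' _ => c2 k k')]
  rw [← Finset.add_sum_erase _ _ hk, ← Finset.add_sum_erase _ (fun k' =>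
    Gb S.D S.H (fun σ => Gb (S.Dk k) (S.Hk k) (Φ k) σ * Gb (S.Dk k') (S.Hk k') (Φ k') σ) σ) hk,
    S.diag hk (hΦ k), add_assoc]
  congr 2
  refine Finset.sum_congr rfl fun k' hk' => ?_
  have hne : k ≠ k' := (Finset.ne_of_mem_erase hk').symm
  have hk's := Finset.mem_of_mem_erase hk'
  exact S.cross hk hk's hne (hΦ k) (hΦ k') (hΦn k hk k' hk's hne)
    (hΦn k' hk's k hk hne.symm) σ

lemma total_mean {Φ : κ → (I → Spin n) → ℝ} (hΦ : ∀ k, Continuous (Φ k)) (σ : I → Spin n) :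
    Gb S.D S.H (fun σ => ∑ k ∈ S.s, Φ k σ) σ =
      Gb S.D S.H (fun σ => ∑ k ∈ S.s, Gb (S.Dk k) (S.Hk k) (Φ k) σ) σ := by
  rw [Gb_sum _ S.hH (fun k _ => hΦ k),
    Gb_sum _ S.hH (fun k _ => continuous_Gb (S.hHk k) (hΦ k))]
  exact Finset.sum_congr rfl fun k hk => (S.dlr hk (hΦ k) σ).symm

/-- Law of total variance. -/
theorem total_var {Φ : κ → (I → Spin n) → ℝ} (hΦ : ∀ k, Continuous (Φ k))
    (hΦn : ∀ k ∈ S.s, ∀ k' ∈ S.s, k ≠ k' → NoDep (S.Dk k') (Φ k)) (σ : I → Spin n) :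
    Vr S.D S.H (fun σ => ∑ k ∈ S.s, Φ k σ) σ =
      ∑ k ∈ S.s, Gb S.D S.H (Vr (S.Dk k) (S.Hk k) (Φ k)) σ +
      Vr S.D S.H (fun σ => ∑ k ∈ S.s, Gb (S.Dk k) (S.Hk k) (Φ k) σ) σ := by
  have h1 := S.total_sq hΦ hΦn σ
  have h2 := S.total_mean hΦ σ
  unfold Vr at h1 ⊢
  rw [h1, h2]
  ring

end CellSys

end Vale.Agent.P163
end
end

section

section

open MeasureTheory Filter Topology
open scoped RealInnerProductSpace

namespace Vale.Agent.P163

variable {n : ℕ}

/-! ### Plane rotations -/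

/-- infinitesimal rotation in the plane spanned by `a`, `b` -/
noncomputable def genA (a b x : E n) : E n := ⟪a, x⟫ • b - ⟪b, x⟫ • a

/-- rotation by the angle `t` in the plane spanned by the orthonormal vectors `a`, `b` -/
noncomputable def rotFun (a b : E n) (t : ℝ) (x : E n) : E n :=
  x + (Real.cos t - 1) • (⟪a, x⟫ • a + ⟪b, x⟫ • b) + Real.sin t • genA a b x

noncomputable def rotLin (a b : E n) (t : ℝ) : E n →ₗ[ℝ] E n where
  toFun := rotFun a b t
  map_add' x y := by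
    simp only [rotFun, genA, inner_add_right, add_smul]
    module
  map_smul' c x := by
    simp only [rotFun, genA, inner_smul_right, mul_smul, RingHom.id_apply]
    module

lemma rotFun_norm {a b : E n} (ha : ‖a‖ = 1) (hb : ‖b‖ = 1) (hab : ⟪a, b⟫ = 0) (t : ℝ)
    (x : E n) : ‖rotFun a b t x‖ = ‖x‖ := by
  have haa : ⟪a, a⟫ = 1 := by rw [real_inner_self_eq_norm_sq, ha]; norm_num
  have hbb : ⟪b, b⟫ = 1 := by rw [real_inner_self_eq_norm_sq, hb]; norm_num
  have hba : ⟪b, a⟫ = 0 := by rw [real_inner_comm]; exact hab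
  have key : ‖rotFun a b t x‖ ^ 2 = ‖x‖ ^ 2 := by
    rw [← real_inner_self_eq_norm_sq, ← real_inner_self_eq_norm_sq]
    simp only [rotFun, genA, inner_add_left, inner_add_right, inner_sub_left, inner_sub_right,
      inner_smul_left, inner_smul_right, haa, hbb, hab, hba, RCLike.conj_to_real]
    rw [real_inner_comm a x, real_inner_comm b x]
    have hcs := Real.sin_sq_add_cos_sq t
    linear_combination (⟪a, x⟫ ^ 2 + ⟪b, x⟫ ^ 2) * hcs
  have h1 : 0 ≤ ‖rotFun a b t x‖ := norm_nonneg _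
  have h2 : 0 ≤ ‖x‖ := norm_nonneg _
  exact (sq_eq_sq₀ h1 h2).1 key

/-- rotation as a linear isometry equivalence -/
noncomputable def rotIso (a b : E n) (ha : ‖a‖ = 1) (hb : ‖b‖ = 1) (hab : ⟪a, b⟫ = 0) (t : ℝ) :
    E n ≃ₗᵢ[ℝ] E n :=
  LinearIsometry.toLinearIsometryEquiv
    ⟨rotLin a b t, fun x => rotFun_norm ha hb hab t x⟩ rfl

lemma rotFun_zero (a b x : E n) : rotFun a b 0 x = x := by simp [rotFun]

lemma hasDerivAt_rotFun {a b : E n} (ha : ‖a‖ = 1) (hb : ‖b‖ = 1) (hab : ⟪a, b⟫ = 0)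
    (x : E n) (t : ℝ) :
    HasDerivAt (fun t => rotFun a b t x) (genA a b (rotFun a b t x)) t := by
  have haa : ⟪a, a⟫ = 1 := by rw [real_inner_self_eq_norm_sq, ha]; norm_num
  have hbb : ⟪b, b⟫ = 1 := by rw [real_inner_self_eq_norm_sq, hb]; norm_num
  have hba : ⟪b, a⟫ = 0 := by rw [real_inner_comm]; exact hab
  have h1 : HasDerivAt (fun t => rotFun a b t x)
      (0 + (-Real.sin t - 0) • (⟪a, x⟫ • a + ⟪b, x⟫ • b) + Real.cos t • genA a b x) t := by
    unfold rotFun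
    refine ((hasDerivAt_const t x).add ?_).add ?_
    · exact ((Real.hasDerivAt_cos t).sub (hasDerivAt_const t 1)).smul_const _
    · exact (Real.hasDerivAt_sin t).smul_const _
  convert h1 using 1
  simp only [rotFun, genA, inner_add_right, inner_sub_right, inner_smul_right, haa, hbb, hab, hba]
  module

lemma continuous_rotFun (a b : E n) : Continuous fun p : ℝ × E n => rotFun a b p.1 p.2 := by
  unfold rotFun genA; fun_prop

/-! ### The rotation identity -/

lemma integral_genA [NeZero n] {a b : E n} (ha : ‖a‖ = 1) (hb : ‖b‖ = 1) (hab : ⟪a, b⟫ = 0)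
    {F : E n → ℝ} (hF : ContDiff ℝ 1 F) :
    ∫ s, fderiv ℝ F s (genA a b s) ∂(om n) = 0 := by
  have hconst : ∀ t, ∫ s, F (rotFun a b t s) ∂(om n) = ∫ s, F s ∂(om n) := fun t => by
    have h := om_mp_iso (rotIso a b ha hb hab t)
    exact MeasurePreserving.integral_comp
      (f := (rotIso a b ha hb hab t).toHomeomorph.toMeasurableEquiv) h
      ((rotIso a b ha hb hab t).toHomeomorph.toMeasurableEquiv.measurableEmbedding) F
  have hFd : ∀ s, HasFDerivAt F (fderiv ℝ F s) s := fun s =>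
    (hF.differentiable one_ne_zero s).hasFDerivAt
  have hFc : Continuous (fderiv ℝ F) := hF.continuous_fderiv one_ne_zero
  have hg : Continuous fun p : ℝ × E n =>
      fderiv ℝ F (rotFun a b p.1 p.2) (genA a b (rotFun a b p.1 p.2)) := by
    have h1 := continuous_rotFun a b
    have h2 : Continuous (genA a b) := by unfold genA; fun_prop
    exact (hFc.comp h1).clm_apply (h2.comp h1)
  obtain ⟨C, hC⟩ := ((isCompact_Icc (a := (-1 : ℝ)) (b := 1)).prod
    (isCompact_closedBall (0 : E n) 1)).exists_bound_of_continuousOn hg.continuousOn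
  have hder := hasDerivAt_integral_of_dominated_loc_of_deriv_le (μ := om n)
    (F := fun t s => F (rotFun a b t s))
    (F' := fun t s => fderiv ℝ F (rotFun a b t s) (genA a b (rotFun a b t s)))
    (x₀ := (0 : ℝ)) (bound := fun _ => C) (s := Set.Icc (-1) 1)
    (Icc_mem_nhds (by norm_num) (by norm_num))
    (Filter.Eventually.of_forall fun t =>
      (hF.continuous.comp ((continuous_rotFun a b).comp
        (continuous_const.prodMk continuous_id))).aestronglyMeasurable)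
    (integrable_om (hF.continuous.comp ((continuous_rotFun a b).comp
        (continuous_const.prodMk continuous_id))))
    ((hg.comp (continuous_const.prodMk continuous_id)).aestronglyMeasurable)
    (by
      filter_upwards [om_ae_norm] with s hs t ht
      exact hC (t, s) ⟨ht, by simp [hs]⟩)
    (integrable_const _)
    (by
      filter_upwards with s t ht
      exact (hFd _).comp_hasDerivAt t (hasDerivAt_rotFun ha hb hab s t))
  have h0 : (fun t => ∫ s, F (rotFun a b t s) ∂(om n)) = fun _ => ∫ s, F s ∂(om n) := by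
    funext t; exact hconst t
  have h1 := hder.2
  rw [h0] at h1
  have h2 := h1.unique (hasDerivAt_const (0 : ℝ) _)
  simpa [rotFun_zero] using h2

/-! ### Integration by parts on the sphere -/

/-- the standard orthonormal basis -/
noncomputable abbrev Bs (n : ℕ) : OrthonormalBasis (Fin n) ℝ (E n) :=
  EuclideanSpace.basisFun (Fin n) ℝ

lemma fderiv_inner_mul {F : E n → ℝ} (hF : ContDiff ℝ 1 F) (a s w : E n) :
    fderiv ℝ (fun s => ⟪a, s⟫ * F s) s w = ⟪a, w⟫ * F s + ⟪a, s⟫ * fderiv ℝ F s w := by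
  have h1 : HasFDerivAt (fun s : E n => ⟪a, s⟫) (innerSL ℝ a) s := (innerSL ℝ a).hasFDerivAt
  have h2 : HasFDerivAt F (fderiv ℝ F s) s := (hF.differentiable one_ne_zero s).hasFDerivAt
  have h3 : HasFDerivAt (fun s : E n => ⟪a, s⟫ * F s)
      (⟪a, s⟫ • fderiv ℝ F s + F s • innerSL ℝ a) s := h1.mul h2
  rw [h3.fderiv]
  simp only [add_apply, smul_apply, smul_eq_mul, innerSL_apply_apply]
  ring

lemma sphere_ibp_basis [NeZero n] {F : E n → ℝ} (hF : ContDiff ℝ 1 F) (i : Fin n) :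
    ((n : ℝ) - 1) * ∫ s, ⟪Bs n i, s⟫ * F s ∂(om n) =
      ∫ s, (fderiv ℝ F s (Bs n i) - ⟪Bs n i, s⟫ * fderiv ℝ F s s) ∂(om n) := by
  have hFc : Continuous (fderiv ℝ F) := hF.continuous_fderiv one_ne_zero
  have hFc1 : Continuous F := hF.continuous
  -- each term
  let T : Fin n → E n → ℝ := fun j s =>
    -(⟪Bs n i, s⟫ * F s) + ⟪Bs n j, s⟫ * (⟪Bs n j, s⟫ * fderiv ℝ F s (Bs n i)
      - ⟪Bs n i, s⟫ * fderiv ℝ F s (Bs n j))
  have hT : ∀ j, j ≠ i → ∫ s, T j s ∂(om n) = 0 := by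
    intro j hj
    have hon := (Bs n).orthonormal
    have hji : ⟪Bs n j, Bs n i⟫ = 0 := hon.2 hj
    have hjj : ⟪Bs n j, Bs n j⟫ = 1 := by
      rw [real_inner_self_eq_norm_sq, hon.1 j]; norm_num
    have hG : ContDiff ℝ 1 (fun s => ⟪Bs n j, s⟫ * F s) :=
      (contDiff_const.inner ℝ contDiff_id).mul hF
    have h := integral_genA (hon.1 j) (hon.1 i) hji hG
    rw [← h]
    refine integral_congr_ae (Filter.Eventually.of_forall fun s => ?_)
    simp only [T]
    rw [fderiv_inner_mul hF]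
    simp only [genA, inner_sub_right, inner_smul_right, hji, hjj, map_sub, map_smul, smul_eq_mul]
    ring
  have hTi : ∫ s, T i s ∂(om n) = -∫ s, ⟪Bs n i, s⟫ * F s ∂(om n) := by
    rw [← integral_neg]
    refine integral_congr_ae (Filter.Eventually.of_forall fun s => ?_)
    simp only [T]; ring
  have hTint : ∀ j, Integrable (T j) (om n) := fun j => by
    refine integrable_om ?_
    simp only [T]
    (clear * - hFc1 hF; fun_prop)
  have hsum : ∫ s, ∑ j, T j s ∂(om n) = -∫ s, ⟪Bs n i, s⟫ * F s ∂(om n) := by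
    rw [integral_finsetSum _ fun j _ => hTint j, ← hTi]
    exact Finset.sum_eq_single i (fun j _ hj => hT j hj) (by simp)
  have hsum2 : ∫ s, ∑ j, T j s ∂(om n) =
      ∫ s, (-((n : ℝ) * (⟪Bs n i, s⟫ * F s)) + (fderiv ℝ F s (Bs n i)
        - ⟪Bs n i, s⟫ * fderiv ℝ F s s)) ∂(om n) := by
    refine integral_congr_ae ?_
    filter_upwards [om_ae_norm] with s hs
    simp only [T]
    have e1 : ∑ j, ⟪Bs n j, s⟫ * ⟪Bs n j, s⟫ = 1 := by
      have := (Bs n).sum_sq_inner_right s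
      rw [hs] at this
      simpa [sq] using this
    have e2 : ∑ j, ⟪Bs n j, s⟫ * fderiv ℝ F s (Bs n j) = fderiv ℝ F s s := by
      have hlin : fderiv ℝ F s (∑ j, ⟪Bs n j, s⟫ • Bs n j) = fderiv ℝ F s s := by
        rw [(Bs n).sum_repr' s]
      rw [← hlin, map_sum]
      simp only [map_smul, smul_eq_mul]
    calc ∑ j, (-(⟪Bs n i, s⟫ * F s) + ⟪Bs n j, s⟫ * (⟪Bs n j, s⟫ * fderiv ℝ F s (Bs n i)
          - ⟪Bs n i, s⟫ * fderiv ℝ F s (Bs n j)))
        = -(n * (⟪Bs n i, s⟫ * F s)) + ((∑ j, ⟪Bs n j, s⟫ * ⟪Bs n j, s⟫) *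
            fderiv ℝ F s (Bs n i) - ⟪Bs n i, s⟫ * ∑ j, ⟪Bs n j, s⟫ * fderiv ℝ F s (Bs n j)) := by
          rw [Finset.sum_add_distrib, Finset.sum_mul, Finset.mul_sum, ← Finset.sum_sub_distrib]
          congr 1
          · simp only [EuclideanSpace.basisFun_apply, Finset.sum_neg_distrib, Finset.sum_const, Finset.card_univ, Fintype.card_fin, nsmul_eq_mul]
          · refine Finset.sum_congr rfl fun j _ => ?_
            ring
      _ = _ := by rw [e1, e2, one_mul]
  have hi1 : Integrable (fun s => ⟪Bs n i, s⟫ * F s) (om n) := integrable_om (by fun_prop)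
  have hi2 : Integrable (fun s => fderiv ℝ F s (Bs n i) - ⟪Bs n i, s⟫ * fderiv ℝ F s s) (om n) :=
    integrable_om (by fun_prop)
  rw [hsum2, integral_add (by simpa only [EuclideanSpace.basisFun_apply, integrable_fun_neg_iff, integrable_neg_iff] using     (hi1.const_mul (n : ℝ)).neg) hi2, integral_neg,
    integral_const_mul] at hsum
  linarith only [hsum]

/-- Integration by parts on the sphere. -/
theorem sphere_ibp [NeZero n] {F : E n → ℝ} (hF : ContDiff ℝ 1 F) (v : E n) :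
    ((n : ℝ) - 1) * ∫ s, ⟪v, s⟫ * F s ∂(om n) =
      ∫ s, (fderiv ℝ F s v - ⟪v, s⟫ * fderiv ℝ F s s) ∂(om n) := by
  have hFc : Continuous (fderiv ℝ F) := hF.continuous_fderiv one_ne_zero
  have hFc1 : Continuous F := hF.continuous
  have hv : v = ∑ i, ⟪Bs n i, v⟫ • Bs n i := ((Bs n).sum_repr' v).symm
  have h1 : ∫ s, ⟪v, s⟫ * F s ∂(om n) =
      ∑ i, ⟪Bs n i, v⟫ * ∫ s, ⟪Bs n i, s⟫ * F s ∂(om n) := by
    simp_rw [← integral_const_mul]
    rw [← integral_finsetSum _ fun i _ => integrable_om (by fun_prop)]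
    refine integral_congr_ae (Filter.Eventually.of_forall fun s => ?_)
    simp only
    conv_lhs => rw [hv]
    rw [sum_inner, Finset.sum_mul]
    refine Finset.sum_congr rfl fun i _ => ?_
    rw [inner_smul_left]; simp only [EuclideanSpace.basisFun_apply, Real.ringHom_apply]; ring
  have h2 : ∫ s, (fderiv ℝ F s v - ⟪v, s⟫ * fderiv ℝ F s s) ∂(om n) =
      ∑ i, ⟪Bs n i, v⟫ * ∫ s, (fderiv ℝ F s (Bs n i) - ⟪Bs n i, s⟫ * fderiv ℝ F s s) ∂(om n) := by
    simp_rw [← integral_const_mul]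
    rw [← integral_finsetSum _ fun i _ => integrable_om (by (clear * - hF; fun_prop))]
    refine integral_congr_ae (Filter.Eventually.of_forall fun s => ?_)
    simp only
    conv_lhs => rw [hv]
    rw [map_sum, sum_inner, Finset.sum_mul, ← Finset.sum_sub_distrib]
    refine Finset.sum_congr rfl fun i _ => ?_
    rw [inner_smul_left]; simp; ring
  rw [h1, h2, Finset.mul_sum]
  refine Finset.sum_congr rfl fun i _ => ?_
  rw [← sphere_ibp_basis hF i]; ring

end Vale.Agent.P163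
end
end

section

section

open MeasureTheory Filter Topology
open scoped RealInnerProductSpace

set_option linter.unusedSectionVars false

namespace Vale.Agent.P163

/-! ### Plaquette sums on the square lattice -/

/-- the square lattice -/
abbrev Z2 := ℤ × ℤ

/-- half the sum of the bond function `b` over the four bonds of the unit square `q` -/
noncomputable def pq (b : Z2 → Z2 → ℝ) (q : Z2) : ℝ :=
  (b q (q.1 + 1, q.2) + b (q.1, q.2 + 1) (q.1 + 1, q.2 + 1) +
    b q (q.1, q.2 + 1) + b (q.1 + 1, q.2) (q.1 + 1, q.2 + 1)) / 2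

/-- unit squares of the box with corner `p` and side `l` -/
noncomputable def plaq (p : Z2) (l : ℤ) : Finset Z2 :=
  Finset.Ico p.1 (p.1 + l) ×ˢ Finset.Ico p.2 (p.2 + l)

/-- interior sites of the box -/
noncomputable def inn (p : Z2) (l : ℤ) : Finset Z2 :=
  Finset.Ioo p.1 (p.1 + l) ×ˢ Finset.Ioo p.2 (p.2 + l)

/-- sites of the closed box -/
noncomputable def clo (p : Z2) (l : ℤ) : Finset Z2 :=
  Finset.Icc p.1 (p.1 + l) ×ˢ Finset.Icc p.2 (p.2 + l)

/-- sum of the bond function `b` over the bonds of the box (weight 1/2 on the sides) -/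
noncomputable def PS (p : Z2) (l : ℤ) (b : Z2 → Z2 → ℝ) : ℝ := ∑ q ∈ plaq p l, pq b q

lemma mem_plaq {p q : Z2} {l : ℤ} : q ∈ plaq p l ↔
    (p.1 ≤ q.1 ∧ q.1 < p.1 + l) ∧ (p.2 ≤ q.2 ∧ q.2 < p.2 + l) := by
  simp only [plaq, Finset.mem_product, Finset.mem_Ico]

lemma mem_inn {p q : Z2} {l : ℤ} : q ∈ inn p l ↔
    (p.1 < q.1 ∧ q.1 < p.1 + l) ∧ (p.2 < q.2 ∧ q.2 < p.2 + l) := by
  simp only [inn, Finset.mem_product, Finset.mem_Ioo]

lemma mem_clo {p q : Z2} {l : ℤ} : q ∈ clo p l ↔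
    (p.1 ≤ q.1 ∧ q.1 ≤ p.1 + l) ∧ (p.2 ≤ q.2 ∧ q.2 ≤ p.2 + l) := by
  simp only [clo, Finset.mem_product, Finset.mem_Icc]

/-- the bonds that occur in the plaquette sum of the square `q` -/
def IsBond (q u v : Z2) : Prop :=
  (u = q ∧ v = (q.1 + 1, q.2)) ∨ (u = (q.1, q.2 + 1) ∧ v = (q.1 + 1, q.2 + 1)) ∨
    (u = q ∧ v = (q.1, q.2 + 1)) ∨ (u = (q.1 + 1, q.2) ∧ v = (q.1 + 1, q.2 + 1))

lemma pq_congr {b b' : Z2 → Z2 → ℝ} {q : Z2} (h : ∀ u v, IsBond q u v → b u v = b' u v) :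
    pq b q = pq b' q := by
  unfold pq
  rw [h _ _ (Or.inl ⟨rfl, rfl⟩), h _ _ (Or.inr (Or.inl ⟨rfl, rfl⟩)),
    h _ _ (Or.inr (Or.inr (Or.inl ⟨rfl, rfl⟩))), h _ _ (Or.inr (Or.inr (Or.inr ⟨rfl, rfl⟩)))]

lemma pq_mono {b b' : Z2 → Z2 → ℝ} {q : Z2} (h : ∀ u v, IsBond q u v → b u v ≤ b' u v) :
    pq b q ≤ pq b' q := by
  unfold pq
  have h1 := h _ _ (Or.inl ⟨rfl, rfl⟩)
  have h2 := h _ _ (Or.inr (Or.inl ⟨rfl, rfl⟩))
  have h3 := h _ _ (Or.inr (Or.inr (Or.inl ⟨rfl, rfl⟩)))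
  have h4 := h _ _ (Or.inr (Or.inr (Or.inr ⟨rfl, rfl⟩)))
  linarith

lemma IsBond.mem_clo {p q u v : Z2} {l : ℤ} (hq : q ∈ plaq p l) (h : IsBond q u v) :
    u ∈ clo p l ∧ v ∈ clo p l := by
  rw [mem_plaq] at hq
  rw [Vale.Agent.P163.mem_clo, Vale.Agent.P163.mem_clo]
  rcases h with ⟨rfl, rfl⟩ | ⟨rfl, rfl⟩ | ⟨rfl, rfl⟩ | ⟨rfl, rfl⟩ <;>
    refine ⟨⟨⟨?_, ?_⟩, ?_, ?_⟩, ⟨?_, ?_⟩, ?_, ?_⟩ <;> first | omega | (dsimp only; omega)

/-- `u`, `v` are nearest neighbours, `v` is above or to the right of `u`. -/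
def Nb (u v : Z2) : Prop := v = (u.1 + 1, u.2) ∨ v = (u.1, u.2 + 1)

lemma IsBond.nb {q u v : Z2} (h : IsBond q u v) : Nb u v := by
  rcases h with ⟨rfl, rfl⟩ | ⟨rfl, rfl⟩ | ⟨rfl, rfl⟩ | ⟨rfl, rfl⟩ <;> simp [Nb]

section PS
variable {p : Z2} {l : ℤ}

lemma PS_congr {b b' : Z2 → Z2 → ℝ}
    (h : ∀ u v, Nb u v → u ∈ clo p l → v ∈ clo p l → b u v = b' u v) :
    PS p l b = PS p l b' :=
  Finset.sum_congr rfl fun _ hq => pq_congr fun u v huv =>
    h u v huv.nb (huv.mem_clo hq).1 (huv.mem_clo hq).2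

lemma PS_mono {b b' : Z2 → Z2 → ℝ}
    (h : ∀ u v, Nb u v → u ∈ clo p l → v ∈ clo p l → b u v ≤ b' u v) :
    PS p l b ≤ PS p l b' :=
  Finset.sum_le_sum fun _ hq => pq_mono fun u v huv =>
    h u v huv.nb (huv.mem_clo hq).1 (huv.mem_clo hq).2

lemma PS_add (b b' : Z2 → Z2 → ℝ) :
    PS p l (fun u v => b u v + b' u v) = PS p l b + PS p l b' := by
  unfold PS
  rw [← Finset.sum_add_distrib]
  exact Finset.sum_congr rfl fun q _ => by unfold pq; ring

lemma PS_sub (b b' : Z2 → Z2 → ℝ) :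
    PS p l (fun u v => b u v - b' u v) = PS p l b - PS p l b' := by
  unfold PS
  rw [← Finset.sum_sub_distrib]
  exact Finset.sum_congr rfl fun q _ => by unfold pq; ring

lemma PS_const_mul (c : ℝ) (b : Z2 → Z2 → ℝ) :
    PS p l (fun u v => c * b u v) = c * PS p l b := by
  unfold PS
  rw [Finset.mul_sum]
  exact Finset.sum_congr rfl fun q _ => by unfold pq; ring

lemma PS_neg (b : Z2 → Z2 → ℝ) : PS p l (fun u v => -b u v) = -PS p l b := by
  have := PS_const_mul (p := p) (l := l) (-1) b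
  simpa using this

lemma PS_zero : PS p l (fun _ _ => 0) = 0 := by
  simp [PS, pq]

lemma card_plaq (hl : 0 ≤ l) : ((plaq p l).card : ℝ) = (l : ℝ) ^ 2 := by
  unfold plaq
  rw [Finset.card_product, Int.card_Ico, Int.card_Ico]
  have h1 : ((p.1 + l - p.1).toNat : ℝ) = l := by
    rw [add_sub_cancel_left]
    exact_mod_cast Int.toNat_of_nonneg hl
  have h2 : ((p.2 + l - p.2).toNat : ℝ) = l := by
    rw [add_sub_cancel_left]
    exact_mod_cast Int.toNat_of_nonneg hl
  push_cast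
  rw [h1, h2]; ring

lemma PS_const (hl : 0 ≤ l) (c : ℝ) : PS p l (fun _ _ => c) = 2 * (l : ℝ) ^ 2 * c := by
  unfold PS pq
  rw [Finset.sum_const, nsmul_eq_mul, card_plaq hl]; ring

lemma PS_nonneg {b : Z2 → Z2 → ℝ}
    (h : ∀ u v, Nb u v → u ∈ clo p l → v ∈ clo p l → 0 ≤ b u v) : 0 ≤ PS p l b := by
  have := PS_mono (p := p) (l := l) (b := fun _ _ => 0) (b' := b) h
  rwa [PS_zero] at this

lemma PS_le (hl : 0 ≤ l) {b : Z2 → Z2 → ℝ} {c : ℝ}
    (h : ∀ u v, Nb u v → u ∈ clo p l → v ∈ clo p l → b u v ≤ c) :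
    PS p l b ≤ 2 * (l : ℝ) ^ 2 * c := by
  rw [← PS_const (p := p) hl]
  exact PS_mono h

lemma PS_abs_le {b : Z2 → Z2 → ℝ} : |PS p l b| ≤ PS p l (fun u v => |b u v|) := by
  rw [abs_le]
  constructor
  · rw [← PS_neg]
    exact PS_mono fun u v _ _ _ => neg_abs_le _
  · exact PS_mono fun u v _ _ _ => le_abs_self _

lemma PS_abs_le_of_le (hl : 0 ≤ l) {b : Z2 → Z2 → ℝ} {c : ℝ}
    (h : ∀ u v, Nb u v → u ∈ clo p l → v ∈ clo p l → |b u v| ≤ c) :
    |PS p l b| ≤ 2 * (l : ℝ) ^ 2 * c :=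
  PS_abs_le.trans (PS_le hl h)

lemma PS_abs_le_PS {b b' : Z2 → Z2 → ℝ}
    (h : ∀ u v, Nb u v → u ∈ clo p l → v ∈ clo p l → |b u v| ≤ b' u v) :
    |PS p l b| ≤ PS p l b' :=
  PS_abs_le.trans (PS_mono h)

lemma continuous_PS {X : Type} [TopologicalSpace X] {b : Z2 → Z2 → X → ℝ}
    (h : ∀ u v, Continuous (b u v)) : Continuous fun x => PS p l (fun u v => b u v x) := by
  unfold PS pq
  refine continuous_finsetSum _ fun q _ => ?_
  exact ((((h _ _).add (h _ _)).add (h _ _)).add (h _ _)).div_const _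

end PS

/-! ### Decomposition of a box in cells -/

/-- indices of the cells -/
noncomputable def cells (N : ℤ) : Finset Z2 := Finset.Ico 0 N ×ˢ Finset.Ico 0 N

/-- corner of the cell with index `k` -/
def corner (p : Z2) (l : ℤ) (k : Z2) : Z2 := (p.1 + l * k.1, p.2 + l * k.2)

lemma mem_cells {N : ℤ} {k : Z2} : k ∈ cells N ↔ (0 ≤ k.1 ∧ k.1 < N) ∧ (0 ≤ k.2 ∧ k.2 < N) := by
  simp only [cells, Finset.mem_product, Finset.mem_Ico]

lemma card_cells {N : ℤ} (hN : 0 ≤ N) : ((cells N).card : ℝ) = (N : ℝ) ^ 2 := by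
  have := card_plaq (p := (0, 0)) hN
  simpa only [cells, Finset.card_product, Int.card_Ico, sub_zero, Nat.cast_mul, plaq, zero_add] using this

lemma plaq_eq_biUnion (p : Z2) {l N : ℤ} (hl : 0 < l) (hN : 0 ≤ N) :
    plaq p (N * l) = (cells N).biUnion fun k => plaq (corner p l k) l := by
  ext q
  rw [Finset.mem_biUnion, mem_plaq]
  constructor
  · rintro ⟨⟨h1, h2⟩, h3, h4⟩
    refine ⟨((q.1 - p.1) / l, (q.2 - p.2) / l), ?_, ?_⟩
    · rw [mem_cells]
      refine ⟨⟨Int.ediv_nonneg (by omega) hl.le, ?_⟩, ⟨Int.ediv_nonneg (by omega) hl.le, ?_⟩⟩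
      · exact Int.ediv_lt_of_lt_mul hl (by omega)
      · exact Int.ediv_lt_of_lt_mul hl (by omega)
    · rw [mem_plaq]
      have e1 := Int.mul_ediv_add_emod (q.1 - p.1) l
      have e2 := Int.mul_ediv_add_emod (q.2 - p.2) l
      have e3 := Int.emod_nonneg (q.1 - p.1) hl.ne'
      have e4 := Int.emod_nonneg (q.2 - p.2) hl.ne'
      have e5 := Int.emod_lt_of_pos (q.1 - p.1) hl
      have e6 := Int.emod_lt_of_pos (q.2 - p.2) hl
      simp only [corner]
      refine ⟨⟨?_, ?_⟩, ?_, ?_⟩ <;> omega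
  · rintro ⟨k, hk, hq⟩
    rw [mem_cells] at hk
    rw [mem_plaq] at hq
    simp only [corner] at hq
    obtain ⟨⟨hk1, hk2⟩, hk3, hk4⟩ := hk
    obtain ⟨⟨hq1, hq2⟩, hq3, hq4⟩ := hq
    have a1 : 0 ≤ l * k.1 := mul_nonneg hl.le hk1
    have a2 : 0 ≤ l * k.2 := mul_nonneg hl.le hk3
    have a3 : l * (k.1 + 1) ≤ l * N := mul_le_mul_of_nonneg_left (by omega) hl.le
    have a4 : l * (k.2 + 1) ≤ l * N := mul_le_mul_of_nonneg_left (by omega) hl.le
    have a5 : l * N = N * l := mul_comm _ _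
    have a6 : l * (k.1 + 1) = l * k.1 + l := by ring
    have a7 : l * (k.2 + 1) = l * k.2 + l := by ring
    refine ⟨⟨?_, ?_⟩, ?_, ?_⟩ <;> omega

lemma block_unique {l a i j : ℤ} (hl : 0 < l) (h1 : l * i ≤ a) (h2 : a < l * i + l)
    (h3 : l * j ≤ a) (h4 : a < l * j + l) : i = j := by
  rcases lt_trichotomy i j with h | h | h
  · have : l * (i + 1) ≤ l * j := mul_le_mul_of_nonneg_left (by omega) hl.le
    have h6 : l * (i + 1) = l * i + l := by ring
    omega
  · exact h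
  · have : l * (j + 1) ≤ l * i := mul_le_mul_of_nonneg_left (by omega) hl.le
    have h6 : l * (j + 1) = l * j + l := by ring
    omega

lemma plaq_disj (p : Z2) {l : ℤ} (hl : 0 < l) {k k' : Z2} (hne : k ≠ k') :
    Disjoint (plaq (corner p l k) l) (plaq (corner p l k') l) := by
  rw [Finset.disjoint_left]
  intro q h h'
  rw [mem_plaq] at h h'
  simp only [corner] at h h'
  apply hne
  refine Prod.ext ?_ ?_
  · exact block_unique (a := q.1 - p.1) hl (by omega) (by omega) (by omega) (by omega)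
  · exact block_unique (a := q.2 - p.2) hl (by omega) (by omega) (by omega) (by omega)

lemma PS_cells (p : Z2) {l N : ℤ} (hl : 0 < l) (hN : 0 ≤ N) (b : Z2 → Z2 → ℝ) :
    PS p (N * l) b = ∑ k ∈ cells N, PS (corner p l k) l b := by
  unfold PS
  rw [plaq_eq_biUnion p hl hN, Finset.sum_biUnion]
  intro k _ k' _ hne
  exact plaq_disj p hl hne

/-- `c = (p', l')` is a sub-box of `(p, l)` -/
def SubBox (p' : Z2) (l' : ℤ) (p : Z2) (l : ℤ) : Prop :=
  (p.1 ≤ p'.1 ∧ p'.1 + l' ≤ p.1 + l) ∧ (p.2 ≤ p'.2 ∧ p'.2 + l' ≤ p.2 + l)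

lemma SubBox.inn_sub {p' p : Z2} {l' l : ℤ} (h : SubBox p' l' p l) : inn p' l' ⊆ inn p l := by
  intro q hq
  rw [mem_inn] at hq ⊢
  obtain ⟨⟨h1, h2⟩, h3, h4⟩ := h
  omega

lemma SubBox.plaq_sub {p' p : Z2} {l' l : ℤ} (h : SubBox p' l' p l) : plaq p' l' ⊆ plaq p l := by
  intro q hq
  rw [mem_plaq] at hq ⊢
  obtain ⟨⟨h1, h2⟩, h3, h4⟩ := h
  omega

lemma subBox_corner (p : Z2) {l N : ℤ} (hl : 0 < l) {k : Z2} (hk : k ∈ cells N) :
    SubBox (corner p l k) l p (N * l) := by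
  rw [mem_cells] at hk
  obtain ⟨⟨hk1, hk2⟩, hk3, hk4⟩ := hk
  have a1 : 0 ≤ l * k.1 := mul_nonneg hl.le hk1
  have a2 : 0 ≤ l * k.2 := mul_nonneg hl.le hk3
  have a3 : l * (k.1 + 1) ≤ l * N := mul_le_mul_of_nonneg_left (by omega) hl.le
  have a4 : l * (k.2 + 1) ≤ l * N := mul_le_mul_of_nonneg_left (by omega) hl.le
  have a5 : l * N = N * l := mul_comm _ _
  have a6 : l * (k.1 + 1) = l * k.1 + l := by ring
  have a7 : l * (k.2 + 1) = l * k.2 + l := by ring
  simp only [SubBox, corner]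
  refine ⟨⟨?_, ?_⟩, ?_, ?_⟩ <;> omega

lemma inn_disj_clo (p : Z2) {l : ℤ} (hl : 0 < l) {k k' : Z2} (hne : k ≠ k') :
    Disjoint (inn (corner p l k') l) (clo (corner p l k) l) := by
  rw [Finset.disjoint_left]
  intro q h h'
  rw [mem_inn] at h
  rw [mem_clo] at h'
  simp only [corner] at h h'
  apply hne
  have key : ∀ a i j : ℤ, l * i < a → a < l * i + l → l * j ≤ a → a ≤ l * j + l → i = j := by
    intro a i j h1 h2 h3 h4
    rcases lt_trichotomy i j with h | h | h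
    · have : l * (i + 1) ≤ l * j := mul_le_mul_of_nonneg_left (by omega) hl.le
      have h6 : l * (i + 1) = l * i + l := by ring
      omega
    · exact h
    · have : l * (j + 1) ≤ l * i := mul_le_mul_of_nonneg_left (by omega) hl.le
      have h6 : l * (j + 1) = l * j + l := by ring
      omega
  refine Prod.ext ?_ ?_
  · exact (key (q.1 - p.1) k'.1 k.1 (by omega) (by omega) (by omega) (by omega)).symm
  · exact (key (q.2 - p.2) k'.2 k.2 (by omega) (by omega) (by omega) (by omega)).symm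

/-! ### Local functions -/

variable {n : ℕ}

/-- `f` depends only on the spins in `S` -/
def LocIn (S : Finset Z2) (f : (Z2 → Spin n) → ℝ) : Prop :=
  ∀ σ σ' : Z2 → Spin n, (∀ x ∈ S, σ x = σ' x) → f σ = f σ'

lemma LocIn.noDep {S D : Finset Z2} {f : (Z2 → Spin n) → ℝ} (hf : LocIn S f)
    (h : Disjoint D S) : NoDep D f := by
  intro ξ σ
  refine hf _ _ fun x hx => ?_
  exact Finset.piecewise_eq_of_notMem _ _ _ (Finset.disjoint_right.1 h hx)

/-- a bond energy -/
abbrev Bond (n : ℕ) := Z2 → Z2 → E n → E n → ℝ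

/-- plaquette sum of a bond energy -/
noncomputable def PSb (p : Z2) (l : ℤ) (b : Bond n) (σ : Z2 → Spin n) : ℝ :=
  PS p l fun u v => b u v (σ u) (σ v)

lemma locIn_PSb (p : Z2) (l : ℤ) (b : Bond n) : LocIn (clo p l) (PSb p l b) := by
  intro σ σ' h
  exact PS_congr fun u v _ hu hv => by rw [h u hu, h v hv]

lemma noDep_sub_PSb {p' p : Z2} {l' l : ℤ} (h : SubBox p' l' p l) (b : Bond n) :
    NoDep (inn p' l') (fun σ => PSb p l b σ - PSb p' l' b σ) := by
  intro ξ σ
  show PSb p l b ((inn p' l').piecewise ξ σ) - PSb p' l' b ((inn p' l').piecewise ξ σ) =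
    PSb p l b σ - PSb p' l' b σ
  unfold PSb PS
  rw [← Finset.sum_sdiff_eq_sub h.plaq_sub, ← Finset.sum_sdiff_eq_sub h.plaq_sub]
  refine Finset.sum_congr rfl fun q hq => ?_
  rw [Finset.mem_sdiff, mem_plaq, mem_plaq] at hq
  have key : ∀ x : Z2, (x.1 = q.1 ∨ x.1 = q.1 + 1) → (x.2 = q.2 ∨ x.2 = q.2 + 1) →
      (inn p' l').piecewise ξ σ x = σ x := by
    intro x h1 h2
    refine Finset.piecewise_eq_of_notMem _ _ _ fun hx => hq.2 ?_
    rw [mem_inn] at hx
    omega
  refine pq_congr fun u v huv => ?_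
  have hu : (inn p' l').piecewise ξ σ u = σ u := by
    rcases huv with ⟨rfl, rfl⟩ | ⟨rfl, rfl⟩ | ⟨rfl, rfl⟩ | ⟨rfl, rfl⟩ <;> exact key _ (by simp) (by simp)
  have hv : (inn p' l').piecewise ξ σ v = σ v := by
    rcases huv with ⟨rfl, rfl⟩ | ⟨rfl, rfl⟩ | ⟨rfl, rfl⟩ | ⟨rfl, rfl⟩ <;> exact key _ (by simp) (by simp)
  rw [hu, hv]

lemma continuous_PSb {p : Z2} {l : ℤ} {b : Bond n}
    (hb : ∀ u v, Continuous fun s : E n × E n => b u v s.1 s.2) :
    Continuous (PSb p l b) := by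
  unfold PSb
  refine continuous_PS fun u v => ?_
  exact (hb u v).comp ((continuous_subtype_val.comp (continuous_apply u)).prodMk
    (continuous_subtype_val.comp (continuous_apply v)))

end Vale.Agent.P163
end
end

section

section

open MeasureTheory Filter Topology
open scoped RealInnerProductSpace

set_option linter.unusedSectionVars false

namespace Vale.Agent.P163

variable {n : ℕ}

/-! ### Planes, triples, rotations -/

/-- infinitesimal rotation in the plane of `a`, `b`, as a continuous linear map -/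
noncomputable def gX (a b : E n) : E n →L[ℝ] E n :=
  (innerSL ℝ a).smulRight b - (innerSL ℝ b).smulRight a

lemma gX_apply (a b x : E n) : gX a b x = ⟪a, x⟫ • b - ⟪b, x⟫ • a := by
  simp only [gX, sub_apply, ContinuousLinearMap.smulRight_apply, coe_innerSL_apply]

/-- an oriented plane -/
structure Pl (n : ℕ) where
  a : E n
  b : E n
  ha : ‖a‖ = 1
  hb : ‖b‖ = 1
  hab : ⟪a, b⟫ = 0

/-- the generator of the rotations of the plane -/
noncomputable def Pl.X (P : Pl n) : E n →L[ℝ] E n := gX P.a P.b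

/-- rotation of the plane -/
noncomputable def Pl.rot (P : Pl n) (t : ℝ) : E n ≃ₗᵢ[ℝ] E n :=
  rotIso P.a P.b P.ha P.hb P.hab t

/-- site-dependent rotation -/
noncomputable def Pl.rg (P : Pl n) (f : Z2 → ℝ) : Gau Z2 n := fun x => P.rot (f x)

/-- orthonormal triples -/
structure Tri (n : ℕ) where
  a : E n
  b : E n
  c : E n
  ha : ‖a‖ = 1
  hb : ‖b‖ = 1
  hc : ‖c‖ = 1
  hab : ⟪a, b⟫ = 0
  hbc : ⟪b, c⟫ = 0
  hca : ⟪c, a⟫ = 0

/-- the plane of `a`, `b` -/
def Tri.pA (T : Tri n) : Pl n := ⟨T.a, T.b, T.ha, T.hb, T.hab⟩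

/-- the plane of `b`, `c` -/
def Tri.pB (T : Tri n) : Pl n := ⟨T.b, T.c, T.hb, T.hc, T.hbc⟩

/-- the plane of `c`, `a` -/
def Tri.pC (T : Tri n) : Pl n := ⟨T.c, T.a, T.hc, T.ha, T.hca⟩

/-- cyclic permutation -/
def Tri.cyc (T : Tri n) : Tri n := ⟨T.b, T.c, T.a, T.hb, T.hc, T.ha, T.hbc, T.hca, T.hab⟩

lemma Tri.cyc_pA (T : Tri n) : T.cyc.pA = T.pB := rfl
lemma Tri.cyc_pB (T : Tri n) : T.cyc.pB = T.pC := rfl
lemma Tri.cyc_pC (T : Tri n) : T.cyc.pC = T.pA := rfl

/-! ### The model -/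

/-- energy of the closed box -/
noncomputable def W (β : ℝ) (p : Z2) (l : ℤ) : (Z2 → Spin n) → ℝ :=
  PSb p l fun _ _ s t => β * ⟪s, t⟫

/-- current of the box, for the test function `φ` and the generator `X` -/
noncomputable def Jc (β : ℝ) (p : Z2) (l : ℤ) (φ : Z2 → ℝ) (X : E n →L[ℝ] E n) :
    (Z2 → Spin n) → ℝ :=
  PSb p l fun u v s t => β * ((φ u - φ v) * ⟪X s, t⟫)

/-- diamagnetic term of the box -/
noncomputable def Dc (β : ℝ) (p : Z2) (l : ℤ) (φ : Z2 → ℝ) (X : E n →L[ℝ] E n) :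
    (Z2 → Spin n) → ℝ :=
  PSb p l fun u v s t => β * ((φ u - φ v) ^ 2 * ⟪X s, X t⟫)

lemma continuous_W (β : ℝ) (p : Z2) (l : ℤ) : Continuous (W (n := n) β p l) :=
  continuous_PSb fun u v => by fun_prop

lemma continuous_Jc (β : ℝ) (p : Z2) (l : ℤ) (φ : Z2 → ℝ) (X : E n →L[ℝ] E n) :
    Continuous (Jc β p l φ X) :=
  continuous_PSb fun u v => by fun_prop

lemma continuous_Dc (β : ℝ) (p : Z2) (l : ℤ) (φ : Z2 → ℝ) (X : E n →L[ℝ] E n) :
    Continuous (Dc β p l φ X) :=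
  continuous_PSb fun u v => by fun_prop

/-- Gibbs expectation over the interior spins of a box -/
noncomputable abbrev Gc (β : ℝ) (p : Z2) (l : ℤ) (f : (Z2 → Spin n) → ℝ) :
    (Z2 → Spin n) → ℝ := Gb (inn p l) (W β p l) f

/-- variance -/
noncomputable abbrev Vc (β : ℝ) (p : Z2) (l : ℤ) (f : (Z2 → Spin n) → ℝ) :
    (Z2 → Spin n) → ℝ := Vr (inn p l) (W β p l) f

/-- stiffness of a box for one generator -/
noncomputable def St (β : ℝ) (p : Z2) (l : ℤ) (φ : Z2 → ℝ) (X : E n →L[ℝ] E n)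
    (σ : Z2 → Spin n) : ℝ :=
  Gc β p l (Dc β p l φ X) σ - Vc β p l (Jc β p l φ X) σ

/-- stiffness of a box for a triple of generators -/
noncomputable def Tf (β : ℝ) (p : Z2) (l : ℤ) (φ : Z2 → ℝ) (T : Tri n)
    (σ : Z2 → Spin n) : ℝ :=
  St β p l φ T.pA.X σ + St β p l φ T.pB.X σ + St β p l φ T.pC.X σ

lemma continuous_Vr [NeZero n] {I : Type} [DecidableEq I] [Countable I] {D : Finset I}
    {H f : (I → Spin n) → ℝ} (hH : Continuous H) (hf : Continuous f) :
    Continuous (Vr D H f) := by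
  have hc : Continuous (Gb D H f) := continuous_Gb hH hf
  have hc2 : Continuous (Gb D H (fun σ => f σ ^ 2)) := continuous_Gb hH (by fun_prop)
  unfold Vr; exact hc2.sub (hc.pow 2)

lemma continuous_Gc [NeZero n] (β : ℝ) (p : Z2) (l : ℤ) {f : (Z2 → Spin n) → ℝ}
    (hf : Continuous f) : Continuous (Gc β p l f) := continuous_Gb (continuous_W β p l) hf

lemma continuous_St [NeZero n] (β : ℝ) (p : Z2) (l : ℤ) (φ : Z2 → ℝ) (X : E n →L[ℝ] E n) :
    Continuous (St β p l φ X) :=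
  (continuous_Gc β p l (continuous_Dc β p l φ X)).sub
    (continuous_Vr (continuous_W β p l) (continuous_Jc β p l φ X))

lemma continuous_Tf [NeZero n] (β : ℝ) (p : Z2) (l : ℤ) (φ : Z2 → ℝ) (T : Tri n) :
    Continuous (Tf β p l φ T) :=
  ((continuous_St β p l φ _).add (continuous_St β p l φ _)).add (continuous_St β p l φ _)

/-! ### Decomposition in cells -/

lemma PSb_cells (p : Z2) {l N : ℤ} (hl : 0 < l) (hN : 0 ≤ N) (b : Bond n) (σ : Z2 → Spin n) :
    PSb p (N * l) b σ = ∑ k ∈ cells N, PSb (corner p l k) l b σ :=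
  PS_cells p hl hN _

/-- the cells of a box form a cell system -/
noncomputable def cellSys (n : ℕ) (β : ℝ) (p : Z2) (l N : ℤ) (hl : 0 < l) :
    CellSys n Z2 Z2 where
  s := cells N
  D := inn p (N * l)
  H := W β p (N * l)
  Dk k := inn (corner p l k) l
  Hk k := W β (corner p l k) l
  hH := continuous_W _ _ _
  hHk _ := continuous_W _ _ _
  sub _ hk := (subBox_corner p hl hk).inn_sub
  loc _ hk := noDep_sub_PSb (subBox_corner p hl hk) _
  indep _ _ _ _ hne := (locIn_PSb _ _ _).noDep (inn_disj_clo p hl hne)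

/-- sum of the conditional expectations of the cell currents -/
noncomputable def jj (β : ℝ) (p : Z2) (l N : ℤ) (φ : Z2 → ℝ) (X : E n →L[ℝ] E n)
    (σ : Z2 → Spin n) : ℝ :=
  ∑ k ∈ cells N, Gc β (corner p l k) l (Jc β (corner p l k) l φ X) σ

lemma continuous_jj [NeZero n] (β : ℝ) (p : Z2) (l N : ℤ) (φ : Z2 → ℝ) (X : E n →L[ℝ] E n) :
    Continuous (jj β p l N φ X) := by
  unfold jj
  exact continuous_finsetSum _ fun k _ => continuous_Gc β _ l (continuous_Jc β _ l φ X)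

theorem St_decomp [NeZero n] (β : ℝ) (p : Z2) {l N : ℤ} (hl : 0 < l) (hN : 0 ≤ N) (φ : Z2 → ℝ)
    (X : E n →L[ℝ] E n) (σ : Z2 → Spin n) :
    St β p (N * l) φ X σ = ∑ k ∈ cells N, Gc β p (N * l) (St β (corner p l k) l φ X) σ -
      Vc β p (N * l) (jj β p l N φ X) σ := by
  have hcD : ∀ k, Continuous (Gc β (corner p l k) l (Dc β (corner p l k) l φ X)) :=
    fun k => continuous_Gc β _ l (continuous_Dc β _ l φ X)
  have hcV : ∀ k, Continuous (Vc β (corner p l k) l (Jc β (corner p l k) l φ X)) :=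
    fun k => continuous_Vr (continuous_W β _ l) (continuous_Jc β _ l φ X)
  have h1 := (cellSys n β p l N hl).total_var
    (Φ := fun k => Jc β (corner p l k) l φ X) (fun k => continuous_Jc β _ l φ X)
    (fun k _ k' _ hne => (locIn_PSb _ _ _).noDep (inn_disj_clo p hl hne)) σ
  have h2 := (cellSys n β p l N hl).total_mean
    (Φ := fun k => Dc β (corner p l k) l φ X) (fun k => continuous_Dc β _ l φ X) σ
  simp only [cellSys] at h1 h2
  have e1 : Jc β p (N * l) φ X = fun σ => ∑ k ∈ cells N, Jc β (corner p l k) l φ X σ := by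
    funext σ; exact PSb_cells p hl hN _ σ
  have e2 : Dc β p (N * l) φ X = fun σ => ∑ k ∈ cells N, Dc β (corner p l k) l φ X σ := by
    funext σ; exact PSb_cells p hl hN _ σ
  rw [← e1] at h1
  rw [← e2] at h2
  have h3 : ∀ k ∈ cells N, Gc β p (N * l) (St β (corner p l k) l φ X) σ =
      Gc β p (N * l) (Gc β (corner p l k) l (Dc β (corner p l k) l φ X)) σ -
      Gc β p (N * l) (Vc β (corner p l k) l (Jc β (corner p l k) l φ X)) σ := fun k _ =>
    Gb_sub (continuous_W _ _ _) (hcD k) (hcV k) σ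
  rw [Finset.sum_congr rfl h3, Finset.sum_sub_distrib]
  unfold St
  unfold Gc Vc at *
  rw [h1, h2, Gb_sum _ (continuous_W _ _ _) (fun k _ => hcD k)]
  unfold jj
  ring

/-! ### Further definitions -/

/-- `x ↦ rot_P (f x) ∘ rot_Q (g x)` -/
noncomputable def hg (P Q : Pl n) (f g : Z2 → ℝ) : Gau Z2 n :=
  fun x => (Q.rot (g x)).trans (P.rot (f x))

/-- first order term of the local expansion -/
noncomputable def Bc (β : ℝ) (p : Z2) (l : ℤ) (φ : Z2 → ℝ) (f : Z2 → ℝ) (Y X : E n →L[ℝ] E n)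
    (σ : Z2 → Spin n) : ℝ :=
  Gc β p l (PSb p l fun u v s t =>
      β * ((φ u - φ v) * (f u * ⟪X (Y s), t⟫ + f v * ⟪X s, Y t⟫))) σ +
    Cv (inn p l) (W β p l) (Jc β p l φ X)
      (PSb p l fun u v s t => β * (f u * ⟪Y s, t⟫ + f v * ⟪s, Y t⟫)) σ

/-- linear coordinate -/
noncomputable def lin (v : ℝ × ℝ) (x : Z2) : ℝ := v.1 * x.1 + v.2 * x.2

/-- conditional expectation of the `A`-current, for the boundary spins transformed by
`rot_B (s1 ψ) ∘ rot_C (s2 χ)` -/
noncomputable def mm (β : ℝ) (p : Z2) (l : ℤ) (φ : Z2 → ℝ) (T : Tri n) (ψ χ : Z2 → ℝ)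
    (s1 s2 : ℝ) (σ : Z2 → Spin n) : ℝ :=
  Gc β p l (Jc β p l φ T.pA.X)
    (act (hg T.pB T.pC (fun x => s1 * ψ x) (fun x => s2 * χ x)) σ)

/-- alternating sum over the signs -/
noncomputable def Aε (β : ℝ) (p : Z2) (l : ℤ) (φ : Z2 → ℝ) (T : Tri n) (ψ χ : Z2 → ℝ)
    (σ : Z2 → Spin n) : ℝ :=
  mm β p l φ T ψ χ 1 1 σ - mm β p l φ T ψ χ 1 (-1) σ - mm β p l φ T ψ χ (-1) 1 σ +
    mm β p l φ T ψ χ (-1) (-1) σ

/-- worst case stiffness at scale `l` -/
noncomputable def tt (n : ℕ) (β : ℝ) (l : ℤ) : ℝ :=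
  sSup {r : ℝ | ∃ (p : Z2) (v : ℝ × ℝ) (T : Tri n) (σ : Z2 → Spin n),
    |v.1| ≤ 1 ∧ |v.2| ≤ 1 ∧ r = Tf β p l (lin v) T σ / (l : ℝ) ^ 2}

/-- bound of the magnetization at the center of the box `[-R,R]^2` -/
def MB (n : ℕ) (β : ℝ) (R : ℤ) (M : ℝ) : Prop :=
  ∀ (σ : Z2 → Spin n) (w : E n), ‖w‖ = 1 →
    Gc β (-R, -R) (2 * R) (fun σ => ⟪w, (σ (0, 0) : E n)⟫) σ ≤ M

end Vale.Agent.P163
end
end

section

section

open MeasureTheory Filter Topology
open scoped RealInnerProductSpace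

set_option linter.unusedSectionVars false

namespace Vale.Agent.P163

variable {n : ℕ}

lemma inner_self_one {a : E n} (h : ‖a‖ = 1) : ⟪a, a⟫ = 1 := by
  rw [real_inner_self_eq_norm_sq, h]; norm_num

lemma Pl.haa (P : Pl n) : ⟪P.a, P.a⟫ = 1 := inner_self_one P.ha
lemma Pl.hbb (P : Pl n) : ⟪P.b, P.b⟫ = 1 := inner_self_one P.hb
lemma Pl.hba (P : Pl n) : ⟪P.b, P.a⟫ = 0 := by rw [real_inner_comm]; exact P.hab

lemma Pl.X_apply (P : Pl n) (x : E n) : P.X x = ⟪P.a, x⟫ • P.b - ⟪P.b, x⟫ • P.a :=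
  gX_apply _ _ _

lemma Pl.rot_apply (P : Pl n) (t : ℝ) (x : E n) :
    P.rot t x = x + (Real.cos t - 1) • (⟪P.a, x⟫ • P.a + ⟪P.b, x⟫ • P.b) +
      Real.sin t • P.X x := by
  rw [Pl.X_apply]
  rfl

lemma Pl.X_anti (P : Pl n) (x y : E n) : ⟪P.X x, y⟫ = -⟪x, P.X y⟫ := by
  rw [P.X_apply, P.X_apply]
  simp only [inner_sub_left, inner_sub_right, inner_smul_left, inner_smul_right,
    RCLike.conj_to_real]
  rw [real_inner_comm P.a x, real_inner_comm P.b x]
  ring

/-- Bessel inequality -/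
lemma Pl.bessel (P : Pl n) (x : E n) : ⟪P.a, x⟫ ^ 2 + ⟪P.b, x⟫ ^ 2 ≤ ‖x‖ ^ 2 := by
  have h := real_inner_self_nonneg (x := x - ⟪P.a, x⟫ • P.a - ⟪P.b, x⟫ • P.b)
  simp only [inner_sub_left, inner_sub_right, inner_smul_left, inner_smul_right,
    RCLike.conj_to_real, P.haa, P.hbb, P.hab, P.hba] at h
  rw [real_inner_comm P.a x, real_inner_comm P.b x, real_inner_self_eq_norm_sq] at h
  linarith

lemma Pl.norm_comb_sq (P : Pl n) (p q : ℝ) : ‖p • P.a + q • P.b‖ ^ 2 = p ^ 2 + q ^ 2 := by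
  rw [← real_inner_self_eq_norm_sq]
  simp only [inner_add_left, inner_add_right, inner_smul_left, inner_smul_right,
    RCLike.conj_to_real, P.haa, P.hbb, P.hab, P.hba]
  ring

/-- norm of `u (⟪a,x⟫ a + ⟪b,x⟫ b) + v X x` -/
lemma Pl.norm_comb_le (P : Pl n) (u v : ℝ) (x : E n) :
    ‖u • (⟪P.a, x⟫ • P.a + ⟪P.b, x⟫ • P.b) + v • P.X x‖ ^ 2 ≤ (u ^ 2 + v ^ 2) * ‖x‖ ^ 2 := by
  have h1 : u • (⟪P.a, x⟫ • P.a + ⟪P.b, x⟫ • P.b) + v • P.X x =
      (u * ⟪P.a, x⟫ - v * ⟪P.b, x⟫) • P.a + (u * ⟪P.b, x⟫ + v * ⟪P.a, x⟫) • P.b := by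
    rw [P.X_apply]
    module
  rw [h1, P.norm_comb_sq]
  have h2 := P.bessel x
  have h3 : (u * ⟪P.a, x⟫ - v * ⟪P.b, x⟫) ^ 2 + (u * ⟪P.b, x⟫ + v * ⟪P.a, x⟫) ^ 2 =
      (u ^ 2 + v ^ 2) * (⟪P.a, x⟫ ^ 2 + ⟪P.b, x⟫ ^ 2) := by ring
  rw [h3]
  exact mul_le_mul_of_nonneg_left h2 (by (clear * -; positivity))

lemma Pl.X_norm_le (P : Pl n) (x : E n) : ‖P.X x‖ ≤ ‖x‖ := by
  have h := P.norm_comb_le 0 1 x
  rw [zero_smul, zero_add, one_smul] at h
  exact abs_le_of_sq_le_sq' (by linarith) (norm_nonneg _) |>.2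

lemma Pl.rot_zero (P : Pl n) : P.rot 0 = LinearIsometryEquiv.refl ℝ _ := by
  ext1 x
  rw [P.rot_apply]
  simp

lemma Pl.inner_a_rot (P : Pl n) (t : ℝ) (x : E n) :
    ⟪P.a, P.rot t x⟫ = Real.cos t * ⟪P.a, x⟫ - Real.sin t * ⟪P.b, x⟫ := by
  rw [P.rot_apply, P.X_apply]
  simp only [inner_add_right, inner_sub_right, inner_smul_right, P.haa, P.hab]
  ring

lemma Pl.inner_b_rot (P : Pl n) (t : ℝ) (x : E n) :
    ⟪P.b, P.rot t x⟫ = Real.cos t * ⟪P.b, x⟫ + Real.sin t * ⟪P.a, x⟫ := by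
  rw [P.rot_apply, P.X_apply]
  simp only [inner_add_right, inner_sub_right, inner_smul_right, P.hbb, P.hba]
  ring

lemma Pl.rot_add (P : Pl n) (s t : ℝ) (x : E n) : P.rot (s + t) x = P.rot s (P.rot t x) := by
  rw [P.rot_apply s, P.X_apply, P.inner_a_rot, P.inner_b_rot, P.rot_apply (s + t), P.X_apply,
    P.rot_apply t, P.X_apply, Real.cos_add, Real.sin_add]
  module

lemma Pl.rot_symm (P : Pl n) (t : ℝ) : (P.rot t).symm = P.rot (-t) := by
  ext1 x
  apply (P.rot t).injective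
  rw [LinearIsometryEquiv.apply_symm_apply, ← P.rot_add, add_neg_cancel, P.rot_zero]
  rfl

lemma Pl.rot_sub_le (P : Pl n) (t : ℝ) (x : E n) : ‖P.rot t x - x‖ ≤ |t| * ‖x‖ := by
  have h1 : P.rot t x - x = (Real.cos t - 1) • (⟪P.a, x⟫ • P.a + ⟪P.b, x⟫ • P.b) +
      Real.sin t • P.X x := by
    rw [P.rot_apply]
    abel
  rw [h1]
  have h2 := P.norm_comb_le (Real.cos t - 1) (Real.sin t) x
  have h3 : (Real.cos t - 1) ^ 2 + Real.sin t ^ 2 ≤ t ^ 2 := by
    have h4 := Real.one_sub_sq_div_two_le_cos (x := t)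
    have h5 := Real.sin_sq_add_cos_sq t
    linarith
  have h4 : ‖(Real.cos t - 1) • (⟪P.a, x⟫ • P.a + ⟪P.b, x⟫ • P.b) + Real.sin t • P.X x‖ ^ 2 ≤
      (|t| * ‖x‖) ^ 2 := by
    rw [mul_pow, sq_abs]
    exact le_trans h2 (mul_le_mul_of_nonneg_right h3 (by positivity))
  exact abs_le_of_sq_le_sq' h4 (by positivity) |>.2

lemma one_sub_cos_le_abs (t : ℝ) : 1 - Real.cos t ≤ |t| := by
  have h1 := Real.one_sub_sq_div_two_le_cos (x := t)
  have h2 := Real.neg_one_le_cos t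
  rcases le_total |t| 2 with h | h
  · have h3 : t ^ 2 = |t| ^ 2 := (sq_abs t).symm
    nlinarith [abs_nonneg t]
  · linarith only [h2, h]

lemma sub_sin_le (t : ℝ) (ht : 0 ≤ t) : t - Real.sin t ≤ t ^ 2 / 2 := by
  have hmono : MonotoneOn (fun t : ℝ => t ^ 2 / 2 - t + Real.sin t) (Set.Ici 0) := by
    apply monotoneOn_of_deriv_nonneg (convex_Ici 0)
    · (clear * -; fun_prop)
    · fun_prop
    · intro x hx
      have hx0 : 0 < x := by simpa only [Set.nonempty_Iio, interior_Ici', Set.mem_Ioi] using hx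
      have hd : HasDerivAt (fun t : ℝ => t ^ 2 / 2 - t + Real.sin t)
          ((2 : ℕ) * x ^ (2 - 1) / 2 - 1 + Real.cos x) x :=
        (((hasDerivAt_pow 2 x).div_const 2).sub (hasDerivAt_id' x)).add (Real.hasDerivAt_sin x)
      rw [hd.deriv]
      have h3 := one_sub_cos_le_abs x
      rw [abs_of_pos hx0] at h3
      norm_num
      linarith
  have h := hmono (Set.mem_Ici.2 le_rfl) (Set.mem_Ici.2 ht) ht
  simp only [Real.sin_zero] at h
  linarith

lemma abs_sin_sub_le (t : ℝ) : |Real.sin t - t| ≤ t ^ 2 / 2 := by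
  rcases le_total 0 t with h | h
  · rw [abs_sub_comm, abs_of_nonneg (by linarith [Real.sin_le h])]
    exact sub_sin_le t h
  · have h1 := sub_sin_le (-t) (by linarith)
    have h2 := Real.sin_le (x := -t) (by linarith only [h])
    rw [Real.sin_neg] at h1 h2
    rw [abs_of_nonneg (by linarith only [h2])]
    linarith

lemma Pl.rot_sub_sub_le (P : Pl n) (t : ℝ) (x : E n) :
    ‖P.rot t x - x - t • P.X x‖ ≤ t ^ 2 * ‖x‖ := by
  have h1 : P.rot t x - x - t • P.X x = (Real.cos t - 1) • (⟪P.a, x⟫ • P.a + ⟪P.b, x⟫ • P.b) +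
      (Real.sin t - t) • P.X x := by
    rw [P.rot_apply]
    module
  rw [h1]
  have h2 := P.norm_comb_le (Real.cos t - 1) (Real.sin t - t) x
  have h3 : (Real.cos t - 1) ^ 2 + (Real.sin t - t) ^ 2 ≤ (t ^ 2) ^ 2 := by
    have h4 := Real.one_sub_sq_div_two_le_cos (x := t)
    have h5 := Real.cos_le_one t
    have h6 := abs_sin_sub_le t
    have h7 : (Real.sin t - t) ^ 2 ≤ (t ^ 2 / 2) ^ 2 := by
      rw [← sq_abs]
      exact pow_le_pow_left₀ (abs_nonneg _) h6 2
    have h8 : (Real.cos t - 1) ^ 2 ≤ (t ^ 2 / 2) ^ 2 := by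
      rw [show (Real.cos t - 1) ^ 2 = (1 - Real.cos t) ^ 2 by ring]
      exact pow_le_pow_left₀ (by linarith only [h5]) (by linarith only [h4]) 2
    nlinarith only [h7, h8]
  have h4 : ‖(Real.cos t - 1) • (⟪P.a, x⟫ • P.a + ⟪P.b, x⟫ • P.b) +
      (Real.sin t - t) • P.X x‖ ^ 2 ≤ (t ^ 2 * ‖x‖) ^ 2 := by
    rw [mul_pow]
    exact le_trans h2 (mul_le_mul_of_nonneg_right h3 (by positivity))
  exact abs_le_of_sq_le_sq' h4 (by positivity) |>.2

lemma Tri.haa (T : Tri n) : ⟪T.a, T.a⟫ = 1 := inner_self_one T.ha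
lemma Tri.hbb (T : Tri n) : ⟪T.b, T.b⟫ = 1 := inner_self_one T.hb
lemma Tri.hcc (T : Tri n) : ⟪T.c, T.c⟫ = 1 := inner_self_one T.hc
lemma Tri.hba (T : Tri n) : ⟪T.b, T.a⟫ = 0 := by rw [real_inner_comm]; exact T.hab
lemma Tri.hcb (T : Tri n) : ⟪T.c, T.b⟫ = 0 := by rw [real_inner_comm]; exact T.hbc
lemma Tri.hac (T : Tri n) : ⟪T.a, T.c⟫ = 0 := by rw [real_inner_comm]; exact T.hca

lemma Tri.XA (T : Tri n) (x : E n) : T.pA.X x = ⟪T.a, x⟫ • T.b - ⟪T.b, x⟫ • T.a := gX_apply _ _ _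
lemma Tri.XB (T : Tri n) (x : E n) : T.pB.X x = ⟪T.b, x⟫ • T.c - ⟪T.c, x⟫ • T.b := gX_apply _ _ _
lemma Tri.XC (T : Tri n) (x : E n) : T.pC.X x = ⟪T.c, x⟫ • T.a - ⟪T.a, x⟫ • T.c := gX_apply _ _ _

lemma Tri.rotB_apply (T : Tri n) (t : ℝ) (x : E n) :
    T.pB.rot t x = x + (Real.cos t - 1) • (⟪T.b, x⟫ • T.b + ⟪T.c, x⟫ • T.c) +
      Real.sin t • (⟪T.b, x⟫ • T.c - ⟪T.c, x⟫ • T.b) := rfl

lemma Tri.rotC_apply (T : Tri n) (t : ℝ) (x : E n) :
    T.pC.rot t x = x + (Real.cos t - 1) • (⟪T.c, x⟫ • T.c + ⟪T.a, x⟫ • T.a) +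
      Real.sin t • (⟪T.c, x⟫ • T.a - ⟪T.a, x⟫ • T.c) := rfl

lemma Tri.A_rotB (T : Tri n) (θ : ℝ) (x : E n) :
    T.pA.X (T.pB.rot θ x) = T.pB.rot θ (Real.cos θ • T.pA.X x + Real.sin θ • T.pC.X x) := by
  have hcs := Real.sin_sq_add_cos_sq θ
  simp only [T.XA, T.XC, T.rotB_apply, inner_add_right, inner_sub_right, inner_smul_right,
    T.haa, T.hbb, T.hcc, T.hab, T.hbc, T.hca, T.hba, T.hcb, T.hac]
  linear_combination (norm := module) (-hcs) • (⟪T.a, x⟫ • T.b)

lemma Tri.A_rotC (T : Tri n) (θ : ℝ) (x : E n) :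
    T.pA.X (T.pC.rot θ x) = T.pC.rot θ (Real.cos θ • T.pA.X x - Real.sin θ • T.pB.X x) := by
  have hcs := Real.sin_sq_add_cos_sq θ
  simp only [T.XA, T.XB, T.rotC_apply, inner_add_right, inner_sub_right, inner_smul_right,
    T.haa, T.hbb, T.hcc, T.hab, T.hbc, T.hca, T.hba, T.hcb, T.hac]
  linear_combination (norm := module) hcs • (⟪T.b, x⟫ • T.a)

/-- conjugation of plane rotations -/
lemma Pl.conj (P : Pl n) (U : E n ≃ₗᵢ[ℝ] E n) (P' : Pl n) (ha : U P'.a = P.a) (hb : U P'.b = P.b)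
    (t : ℝ) (x : E n) : U.symm (P.rot t (U x)) = P'.rot t x := by
  apply U.injective
  rw [U.apply_symm_apply, P.rot_apply, P'.rot_apply, P.X_apply, P'.X_apply, ← ha, ← hb,
    U.inner_map_map, U.inner_map_map]
  simp only [map_add, map_sub, map_smul]

/-- there is a plane `P'` with `rot_C(-θ) rot_B(t) rot_C(θ) = rot_P'(t)` -/
lemma Tri.exists_conj (T : Tri n) (θ : ℝ) : ∃ P' : Pl n,
    P'.X = Real.cos θ • T.pB.X + Real.sin θ • T.pA.X ∧
    ∀ t x, T.pC.rot (-θ) (T.pB.rot t (T.pC.rot θ x)) = P'.rot t x := by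
  have hcs := Real.sin_sq_add_cos_sq θ
  have hn : ‖Real.cos θ • T.c - Real.sin θ • T.a‖ = 1 := by
    have h1 : ‖Real.cos θ • T.c - Real.sin θ • T.a‖ ^ 2 = 1 := by
      rw [← real_inner_self_eq_norm_sq]
      simp only [inner_sub_left, inner_sub_right, inner_smul_left, inner_smul_right,
        RCLike.conj_to_real, T.haa, T.hcc, T.hca, T.hac]
      linear_combination hcs
    exact (pow_eq_one_iff_of_nonneg (norm_nonneg _) (by norm_num)).1 h1
  have hi : ⟪T.b, Real.cos θ • T.c - Real.sin θ • T.a⟫ = 0 := by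
    simp only [inner_sub_right, inner_smul_right, T.hbc, T.hba]
    ring
  refine ⟨⟨T.b, Real.cos θ • T.c - Real.sin θ • T.a, T.hb, hn, hi⟩, ?_, ?_⟩
  · ext1 x
    rw [Pl.X_apply]
    simp only [add_apply, smul_apply, T.XA, T.XB,
      inner_sub_left, inner_smul_left, RCLike.conj_to_real]
    module
  · intro t x
    rw [← T.pC.rot_symm]
    apply Pl.conj T.pB (T.pC.rot θ)
    · change T.pC.rot θ T.b = T.b
      simp only [T.rotC_apply, T.hcb, T.hab]
      module
    · change T.pC.rot θ (Real.cos θ • T.c - Real.sin θ • T.a) = T.c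
      simp only [T.rotC_apply, inner_sub_right, inner_smul_right, T.haa, T.hcc, T.hca, T.hac]
      linear_combination (norm := module) hcs • T.c

end Vale.Agent.P163
end
end

section

section

open MeasureTheory Filter Topology
open scoped RealInnerProductSpace

namespace Vale.Agent.P163

lemma model_unif (n : ℕ) : Model.unif n = unif n := by
  unfold Model.unif unif
  rw [ProbabilityTheory.cond, Measure.restrict_univ]

lemma model_gibbs {n : ℕ} [NeZero n] {V : Type} [Fintype V] (J : V → V → ℝ) :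
    Model.gibbs n J = gibbs n J := by
  have hcont : Continuous (weight (n := n) J) := by
    unfold weight; fun_prop
  have hint : Integrable (weight (n := n) J) (Measure.pi fun _ : V => unif n) :=
    hcont.integrable_of_hasCompactSupport (HasCompactSupport.of_compactSpace _)
  have hpos : ∀ σ : V → Spin n, 0 < weight J σ := fun σ => Real.exp_pos _
  have hZ : 0 < ∫ σ, weight (n := n) J σ ∂(Measure.pi fun _ : V => unif n) := by
    rw [integral_pos_iff_support_of_nonneg (fun σ => (hpos σ).le) hint]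
    have : Function.support (weight (n := n) J) = Set.univ := by
      ext σ; simp [(hpos σ).ne']
    rw [this]; simp only [measure_univ, zero_lt_one]
  unfold Model.gibbs gibbs Measure.tilted
  have e1 : (fun _ : V => Model.unif n) = fun _ => unif n := by
    funext _; exact model_unif n
  rw [e1, ← ofReal_integral_eq_lintegral_ofReal hint
    (Filter.Eventually.of_forall fun σ => (hpos σ).le),
    ← withDensity_smul _ (hcont.measurable.ennreal_ofReal)]
  congr 1
  funext σ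
  rw [Pi.smul_apply, smul_eq_mul, mul_comm, ← div_eq_mul_inv, ← ENNReal.ofReal_div_of_pos hZ]
  rfl

lemma model_boxState {n : ℕ} [NeZero n] (β : ℝ) (p : Bool) (a b : ℤ × ℤ) :
    Model.boxState n β p a b = boxState n β p a b := by
  unfold Model.boxState boxState
  rw [model_gibbs]
  rfl

lemma model_state {n : ℕ} [NeZero n] {β : ℝ} {μ : Measure (ℤ × ℤ → Spin n)}
    (h : Model.IsInfiniteVolumeState n β μ) : IsInfiniteVolumeState n β μ := by
  obtain ⟨p, a, b, h1, h2⟩ := h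
  refine ⟨p, a, b, h1, fun A f hf => ?_⟩
  have h3 := h2 A f hf
  simp only [model_boxState] at h3
  exact h3

/-- exponential decay for the print-friendly form of the model -/
theorem model_decay {n : ℕ} [NeZero n] {β : ℝ} (h : ExpDecay n β) :
    ∃ C m : ℝ, 0 < m ∧ ∀ μ : Measure (ℤ × ℤ → Model.Spin n), Model.IsInfiniteVolumeState n β μ →
      ∀ x y : ℤ × ℤ, ∫ σ, ⟪(σ x : Model.E n), (σ y : Model.E n)⟫ ∂μ ≤
        C * Real.exp (-m * Model.dist2 x y) := by
  obtain ⟨C, m, hm, h1⟩ := h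
  exact ⟨C, m, hm, fun μ hμ x y => h1 μ (model_state hμ) x y⟩

end Vale.Agent.P163
end
end

section

section

open MeasureTheory Filter Topology
open scoped RealInnerProductSpace

set_option linter.unusedSectionVars false

namespace Vale.Agent.P163

variable {n : ℕ}

/-! ### Rigidity -/

theorem rigidity [NeZero n] {D : Finset Z2} {H j : (Z2 → Spin n) → ℝ} {h : Gau Z2 n}
    (hh : SuppIn D h) (hH : Continuous H) (hj : Continuous j) (σ : Z2 → Spin n) :
    (Gb D H (fun σ => j (act h σ)) σ - Gb D H j σ) ^ 2 ≤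
      Vr D H j σ *
        Gb D H (fun σ => Real.exp (2 * (H (act (fun x => (h x).symm) σ) - H σ))) σ := by
  have hh' : SuppIn D (fun x => (h x).symm) := fun x hx => by simp only [hh x hx]; rfl
  have hc' := continuous_act (n := n) (fun x => (h x).symm)
  have hr : Continuous fun σ => Real.exp (H (act (fun x => (h x).symm) σ) - H σ) :=
    cexp ((hH.comp hc').sub hH)
  have h1 := Gb_act_supp hh hH hj σ
  have h2 : Gb D H (fun σ => Real.exp (H (act (fun x => (h x).symm) σ) - H σ)) σ = 1 :=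
    Gb_exp_supp hh' hH σ
  have h3 := Cv_sq_le (D := D) hH hj hr σ
  have h4 : Cv D H j (fun σ => Real.exp (H (act (fun x => (h x).symm) σ) - H σ)) σ =
      Gb D H (fun σ => j (act h σ)) σ - Gb D H j σ := by
    unfold Cv
    rw [h2, h1, mul_one]
  rw [h4] at h3
  refine h3.trans (le_of_eq ?_)
  congr 2
  funext τ
  rw [← Real.exp_nat_mul]
  norm_num

/-! ### Elementary inequalities -/

lemma abs_sin_sub_le_mom (y : ℝ) : |Real.sin y - y| ≤ 2 * y ^ 2 := by
  by_cases h : |y| ≤ 1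
  · have h1 := Real.sin_bound h
    have h2 : |y| ^ 4 ≤ |y| ^ 2 := pow_le_pow_of_le_one (abs_nonneg _) h (by norm_num)
    have h3 : |y| ^ 3 ≤ |y| ^ 2 := pow_le_pow_of_le_one (abs_nonneg _) h (by norm_num)
    have h4 : |Real.sin y - y| ≤ |Real.sin y - (y - y ^ 3 / 6)| + |y ^ 3 / 6| := by
      have : Real.sin y - y = (Real.sin y - (y - y ^ 3 / 6)) - y ^ 3 / 6 := by ring
      rw [this]
      exact abs_sub _ _
    have h5 : |y ^ 3 / 6| = |y| ^ 3 / 6 := by rw [abs_div, abs_pow]; norm_num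
    have h6 : |y| ^ 2 = y ^ 2 := sq_abs y
    nlinarith only [h1, h2, h3, h4, h5, h6]
  · push Not at h
    have h1 : |Real.sin y - y| ≤ |Real.sin y| + |y| := abs_sub _ _
    have h2 := Real.abs_sin_le_one y
    have h6 : |y| ^ 2 = y ^ 2 := sq_abs y
    nlinarith only [h, h1, h2, h6]

lemma abs_cos_sub_one_le (y : ℝ) : |Real.cos y - 1| ≤ y ^ 2 / 2 := by
  have h1 := Real.one_sub_sq_div_two_le_cos (x := y)
  have h2 := Real.cos_le_one y
  rw [abs_le]
  constructor <;> linarith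

lemma trig_bound (k x A B : ℝ) (hA : |A| ≤ 1) (hB : |B| ≤ 1) :
    |((Real.cos (k * x) - 1) * A + Real.sin (k * x) * B) -
      k * ((Real.cos x - 1) * A + Real.sin x * B)| ≤ 5 / 2 * (k ^ 2 + |k|) * x ^ 2 := by
  have e : ((Real.cos (k * x) - 1) * A + Real.sin (k * x) * B) -
      k * ((Real.cos x - 1) * A + Real.sin x * B) =
      ((Real.cos (k * x) - 1) - k * (Real.cos x - 1)) * A +
      ((Real.sin (k * x) - k * x) - k * (Real.sin x - x)) * B := by ring
  rw [e]
  have h1 : |(Real.cos (k * x) - 1) - k * (Real.cos x - 1)| ≤ (k ^ 2 + |k|) / 2 * x ^ 2 := by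
    refine (abs_sub _ _).trans ?_
    rw [abs_mul]
    have a1 := abs_cos_sub_one_le (k * x)
    have a2 := abs_cos_sub_one_le x
    have a3 := mul_le_mul_of_nonneg_left a2 (abs_nonneg k)
    linarith
  have h2 : |(Real.sin (k * x) - k * x) - k * (Real.sin x - x)| ≤
      2 * (k ^ 2 + |k|) * x ^ 2 := by
    refine (abs_sub _ _).trans ?_
    rw [abs_mul]
    have a1 := abs_sin_sub_le_mom (k * x)
    have a2 := abs_sin_sub_le_mom x
    have a3 := mul_le_mul_of_nonneg_left a2 (abs_nonneg k)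
    linarith
  calc _ ≤ |((Real.cos (k * x) - 1) - k * (Real.cos x - 1)) * A| +
      |((Real.sin (k * x) - k * x) - k * (Real.sin x - x)) * B| := abs_add_le _ _
    _ ≤ (k ^ 2 + |k|) / 2 * x ^ 2 * 1 + 2 * (k ^ 2 + |k|) * x ^ 2 * 1 := by
        rw [abs_mul, abs_mul]
        exact add_le_add (mul_le_mul h1 hA (abs_nonneg _) ((abs_nonneg _).trans h1))
          (mul_le_mul h2 hB (abs_nonneg _) ((abs_nonneg _).trans h2))
    _ = _ := by ring

/-! ### Rotations: bond energies -/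

/-- the even part of the bond energy -/
noncomputable def bA (P : Pl n) (s t : E n) : ℝ := ⟪P.a, s⟫ * ⟪P.a, t⟫ + ⟪P.b, s⟫ * ⟪P.b, t⟫

/-- the odd part of the bond energy -/
noncomputable def bB (P : Pl n) (s t : E n) : ℝ := ⟪P.a, s⟫ * ⟪P.b, t⟫ - ⟪P.b, s⟫ * ⟪P.a, t⟫

lemma inner_rotFun_rotFun {a b : E n} (ha : ‖a‖ = 1) (hb : ‖b‖ = 1) (hab : ⟪a, b⟫ = 0)
    (s t : ℝ) (x y : E n) :
    ⟪rotFun a b s x, rotFun a b t y⟫ = ⟪x, y⟫ +
      (Real.cos (s - t) - 1) * (⟪a, x⟫ * ⟪a, y⟫ + ⟪b, x⟫ * ⟪b, y⟫) +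
      Real.sin (s - t) * (⟪a, x⟫ * ⟪b, y⟫ - ⟪b, x⟫ * ⟪a, y⟫) := by
  have haa : ⟪a, a⟫ = 1 := by rw [real_inner_self_eq_norm_sq, ha]; norm_num
  have hbb : ⟪b, b⟫ = 1 := by rw [real_inner_self_eq_norm_sq, hb]; norm_num
  have hba : ⟪b, a⟫ = 0 := by rw [real_inner_comm]; exact hab
  simp only [rotFun, genA, inner_add_left, inner_add_right, inner_sub_left, inner_sub_right,
    inner_smul_left, inner_smul_right, haa, hbb, hab, hba, RCLike.conj_to_real]
  rw [real_inner_comm a x, real_inner_comm b x, Real.cos_sub, Real.sin_sub]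
  ring

lemma Pl.inner_rot_rot (P : Pl n) (s t : ℝ) (x y : E n) :
    ⟪P.rot s x, P.rot t y⟫ = ⟪x, y⟫ + (Real.cos (s - t) - 1) * bA P x y +
      Real.sin (s - t) * bB P x y :=
  inner_rotFun_rotFun P.ha P.hb P.hab s t x y

lemma Pl.sq_add_sq_le (P : Pl n) (x : E n) : ⟪P.a, x⟫ ^ 2 + ⟪P.b, x⟫ ^ 2 ≤ ‖x‖ ^ 2 := by
  have haa : ⟪P.a, P.a⟫ = 1 := by rw [real_inner_self_eq_norm_sq, P.ha]; norm_num
  have hbb : ⟪P.b, P.b⟫ = 1 := by rw [real_inner_self_eq_norm_sq, P.hb]; norm_num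
  have hab := P.hab
  have hba : ⟪P.b, P.a⟫ = 0 := by rw [real_inner_comm]; exact hab
  have h : 0 ≤ ⟪x - ⟪P.a, x⟫ • P.a - ⟪P.b, x⟫ • P.b, x - ⟪P.a, x⟫ • P.a - ⟪P.b, x⟫ • P.b⟫ :=
    real_inner_self_nonneg
  simp only [inner_sub_left, inner_sub_right, inner_smul_left, inner_smul_right, haa, hbb, hab,
    hba, RCLike.conj_to_real, real_inner_self_eq_norm_sq] at h
  rw [real_inner_comm P.a x, real_inner_comm P.b x] at h
  linarith

lemma abs_le_one_of_sq {p q r s : ℝ} (h1 : p ^ 2 + q ^ 2 ≤ 1) (h2 : r ^ 2 + s ^ 2 ≤ 1) :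
    |p * r + q * s| ≤ 1 := by
  rw [abs_le]
  constructor <;> nlinarith only [h1, h2, sq_nonneg (q + s), sq_nonneg (q - s)]

lemma abs_bA_le (P : Pl n) {s t : E n} (hs : ‖s‖ = 1) (ht : ‖t‖ = 1) : |bA P s t| ≤ 1 := by
  have h1 := P.sq_add_sq_le s
  have h2 := P.sq_add_sq_le t
  rw [hs, one_pow] at h1
  rw [ht, one_pow] at h2
  exact abs_le_one_of_sq h1 h2

lemma abs_bB_le (P : Pl n) {s t : E n} (hs : ‖s‖ = 1) (ht : ‖t‖ = 1) : |bB P s t| ≤ 1 := by
  have h1 := P.sq_add_sq_le s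
  have h2 := P.sq_add_sq_le t
  rw [hs, one_pow] at h1
  rw [ht, one_pow] at h2
  have h3 : ⟪P.b, t⟫ ^ 2 + (-⟪P.a, t⟫) ^ 2 ≤ 1 := by rw [neg_sq]; linarith
  have := abs_le_one_of_sq h1 h3
  unfold bB
  have e : ⟪P.a, s⟫ * ⟪P.b, t⟫ - ⟪P.b, s⟫ * ⟪P.a, t⟫ =
    ⟪P.a, s⟫ * ⟪P.b, t⟫ + ⟪P.b, s⟫ * -⟪P.a, t⟫ := by ring
  rw [e]
  exact this

/-- energy difference -/
noncomputable def Df (β : ℝ) (p : Z2) (l : ℤ) (P : Pl n) (f : Z2 → ℝ) (σ : Z2 → Spin n) : ℝ :=
  W β p l (act (P.rg f) σ) - W β p l σ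

lemma Df_eq (β : ℝ) (p : Z2) (l : ℤ) (P : Pl n) (f : Z2 → ℝ) (σ : Z2 → Spin n) :
    Df β p l P f σ = PS p l fun u v => β * ((Real.cos (f u - f v) - 1) * bA P (σ u) (σ v) +
      Real.sin (f u - f v) * bB P (σ u) (σ v)) := by
  unfold Df W PSb
  rw [← PS_sub]
  congr 1
  funext u v
  simp only [coe_act, Pl.rg]
  rw [P.inner_rot_rot]
  ring

lemma Df_sub_le {β : ℝ} (hβ : 0 ≤ β) (p : Z2) (l : ℤ) (P : Pl n) (f : Z2 → ℝ) (k : ℝ) {M : ℝ}
    (hM : PS p l (fun u v => (f u - f v) ^ 2) ≤ M) (σ : Z2 → Spin n) :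
    |Df β p l P (fun x => k * f x) σ - k * Df β p l P f σ| ≤
      β * (5 / 2 * (k ^ 2 + |k|)) * M := by
  rw [Df_eq, Df_eq, ← PS_const_mul, ← PS_sub]
  have hk : 0 ≤ 5 / 2 * (k ^ 2 + |k|) := by positivity
  calc _ ≤ PS p l (fun u v => β * (5 / 2 * (k ^ 2 + |k|)) * (f u - f v) ^ 2) := by
        refine PS_abs_le_PS fun u v _ _ _ => ?_
        have h := trig_bound k (f u - f v) (bA P (σ u) (σ v)) (bB P (σ u) (σ v))
          (abs_bA_le P (by simp) (by simp)) (abs_bB_le P (by simp) (by simp))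
        have e : k * f u - k * f v = k * (f u - f v) := by ring
        rw [e]
        have e2 : β * ((Real.cos (k * (f u - f v)) - 1) * bA P (σ u) (σ v) +
            Real.sin (k * (f u - f v)) * bB P (σ u) (σ v)) -
            k * (β * ((Real.cos (f u - f v) - 1) * bA P (σ u) (σ v) +
            Real.sin (f u - f v) * bB P (σ u) (σ v))) =
            β * (((Real.cos (k * (f u - f v)) - 1) * bA P (σ u) (σ v) +
            Real.sin (k * (f u - f v)) * bB P (σ u) (σ v)) -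
            k * ((Real.cos (f u - f v) - 1) * bA P (σ u) (σ v) +
            Real.sin (f u - f v) * bB P (σ u) (σ v))) := by ring
        rw [e2, abs_mul, abs_of_nonneg hβ]
        calc _ ≤ β * (5 / 2 * (k ^ 2 + |k|) * (f u - f v) ^ 2) :=
              mul_le_mul_of_nonneg_left h hβ
          _ = _ := by ring
    _ = β * (5 / 2 * (k ^ 2 + |k|)) * PS p l (fun u v => (f u - f v) ^ 2) := PS_const_mul _ _
    _ ≤ _ := mul_le_mul_of_nonneg_left hM (mul_nonneg hβ hk)

lemma rotFun_rotFun {a b : E n} (ha : ‖a‖ = 1) (hb : ‖b‖ = 1) (hab : ⟪a, b⟫ = 0)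
    (s t : ℝ) (x : E n) : rotFun a b s (rotFun a b t x) = rotFun a b (s + t) x := by
  have haa : ⟪a, a⟫ = 1 := by rw [real_inner_self_eq_norm_sq, ha]; norm_num
  have hbb : ⟪b, b⟫ = 1 := by rw [real_inner_self_eq_norm_sq, hb]; norm_num
  have hba : ⟪b, a⟫ = 0 := by rw [real_inner_comm]; exact hab
  simp only [rotFun, genA, inner_add_right, inner_sub_right, inner_smul_right, haa, hbb, hab,
    hba]
  rw [Real.cos_add, Real.sin_add]
  module

lemma Pl.rot_rot' (P : Pl n) (s t : ℝ) (x : E n) : P.rot s (P.rot t x) = P.rot (s + t) x :=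
  rotFun_rotFun P.ha P.hb P.hab s t x

lemma Pl.rot_zero' (P : Pl n) : P.rot 0 = LinearIsometryEquiv.refl ℝ _ := by
  ext1 x
  exact rotFun_zero P.a P.b x

lemma Pl.rot_symm' (P : Pl n) (t : ℝ) : (P.rot t).symm = P.rot (-t) := by
  ext1 x
  rw [LinearIsometryEquiv.symm_apply_eq, P.rot_rot', add_neg_cancel, P.rot_zero']
  rfl

lemma suppIn_rg (P : Pl n) {D : Finset Z2} {f : Z2 → ℝ} (hf : ∀ x ∉ D, f x = 0) :
    SuppIn D (P.rg f) := by
  intro x hx
  simp only [Pl.rg, hf x hx, P.rot_zero']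

lemma continuous_Df (β : ℝ) (p : Z2) (l : ℤ) (P : Pl n) (f : Z2 → ℝ) :
    Continuous (Df β p l P f) :=
  ((continuous_W β p l).comp (continuous_act _)).sub (continuous_W β p l)

lemma exp_moment [NeZero n] {β : ℝ} (hβ : 0 ≤ β) (p : Z2) (l : ℤ) (P : Pl n) {f : Z2 → ℝ}
    (hf : ∀ x ∉ inn p l, f x = 0) (k : ℝ) {M : ℝ}
    (hM : PS p l (fun u v => (f u - f v) ^ 2) ≤ M) (σ : Z2 → Spin n) :
    Gc β p l (fun σ => Real.exp (k * Df β p l P f σ)) σ ≤
      Real.exp (β * (5 / 2 * (k ^ 2 + |k|)) * M) := by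
  have hc := continuous_Df β p l P f
  have hc' := continuous_Df β p l P (fun x => k * f x)
  have hW := continuous_W (n := n) β p l
  have h1 : Gc β p l (fun σ => Real.exp (Df β p l P (fun x => k * f x) σ)) σ = 1 :=
    Gb_exp_supp (suppIn_rg P fun x hx => by rw [hf x hx, mul_zero]) hW σ
  have h2 : Gc β p l (fun σ => Real.exp (k * Df β p l P f σ)) σ ≤
      Gc β p l (fun σ => Real.exp (β * (5 / 2 * (k ^ 2 + |k|)) * M) *
        Real.exp (Df β p l P (fun x => k * f x) σ)) σ := by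
    refine Gb_mono hW (cexp (hc.const_mul k)) ((cexp hc').const_mul _) (fun τ => ?_) σ
    rw [← Real.exp_add]
    refine Real.exp_le_exp.2 ?_
    have := (abs_le.1 (Df_sub_le hβ p l P f k hM τ)).1
    linarith
  refine h2.trans (le_of_eq ?_)
  unfold Gc at h1 ⊢
  rw [Gb_const_mul, h1, mul_one]

theorem moment_bound [NeZero n] {β : ℝ} (hβ : 0 ≤ β) (p : Z2) (l : ℤ) (P Q : Pl n)
    {ψ χ : Z2 → ℝ} (hψ : ∀ x ∉ inn p l, ψ x = 0) (hχ : ∀ x ∉ inn p l, χ x = 0) {M : ℝ}
    (h1 : PS p l (fun u v => (ψ u - ψ v) ^ 2) ≤ M)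
    (h2 : PS p l (fun u v => (χ u - χ v) ^ 2) ≤ M) (σ : Z2 → Spin n) :
    Gc β p l (fun σ => Real.exp (2 * (W β p l (act (fun x => (hg P Q ψ χ x).symm) σ) -
      W β p l σ))) σ ≤ Real.exp (40 * β * M) := by
  have hM : 0 ≤ M := le_trans (PS_nonneg fun u v _ _ _ => sq_nonneg _) h1
  have hW := continuous_W (n := n) β p l
  set R : Gau Z2 n := P.rg (fun x => -ψ x) with hR
  have hRs : SuppIn (inn p l) R := suppIn_rg P fun x hx => by rw [hψ x hx, neg_zero]
  have hsymm : (fun x => (R x).symm) = P.rg ψ := by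
    funext x
    simp only [hR, Pl.rg, P.rot_symm', neg_neg]
  have hact : ∀ τ : Z2 → Spin n, act (fun x => (hg P Q ψ χ x).symm) τ =
      act (Q.rg (fun x => -χ x)) (act R τ) := by
    intro τ
    funext x
    apply Subtype.ext
    simp only [coe_act, hR, Pl.rg, hg, ← P.rot_symm', ← Q.rot_symm']
    rfl
  have hback : ∀ τ : Z2 → Spin n, act (P.rg ψ) (act R τ) = τ := by
    intro τ
    rw [← hsymm]
    exact act_symm_act R τ
  set F : (Z2 → Spin n) → ℝ := fun τ =>
    Real.exp (2 * Df β p l Q (fun x => -χ x) τ - 2 * Df β p l P ψ τ) with hF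
  have hcQ := continuous_Df β p l Q (fun x => -χ x)
  have hcP := continuous_Df β p l P ψ
  have hFc : Continuous F := cexp ((hcQ.const_mul 2).sub (hcP.const_mul 2))
  have e1 : (fun σ => Real.exp (2 * (W β p l (act (fun x => (hg P Q ψ χ x).symm) σ) -
      W β p l σ))) = fun σ => F (act R σ) := by
    funext τ
    simp only [hF, Df]
    rw [hact, hback]
    congr 1
    ring
  rw [e1]
  have h3 := Gb_act_supp hRs hW hFc σ
  rw [hsymm] at h3
  unfold Gc at *
  rw [h3]
  have e2 : (fun σ => F σ * Real.exp (W β p l (act (P.rg ψ) σ) - W β p l σ)) =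
      fun σ => Real.exp (2 * Df β p l Q (fun x => -χ x) σ) *
        Real.exp (-1 * Df β p l P ψ σ) := by
    funext τ
    simp only [hF]
    rw [← Real.exp_add, ← Real.exp_add]
    congr 1
    unfold Df
    ring
  rw [e2]
  have h4 := Gb_cs (D := inn p l) hW (cexp (hcQ.const_mul 2)) (cexp (hcP.const_mul (-1))) σ
  have e3 : (fun σ => Real.exp (2 * Df β p l Q (fun x => -χ x) σ) ^ 2) =
      fun σ => Real.exp (4 * Df β p l Q (fun x => -χ x) σ) := by
    funext τ
    rw [← Real.exp_nat_mul]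
    congr 1
    push_cast
    ring
  have e4 : (fun σ => Real.exp (-1 * Df β p l P ψ σ) ^ 2) =
      fun σ => Real.exp (-2 * Df β p l P ψ σ) := by
    funext τ
    rw [← Real.exp_nat_mul]
    congr 1
    push_cast
    ring
  rw [e3, e4] at h4
  have h5 := exp_moment hβ p l Q (f := fun x => -χ x) (fun x hx => by rw [hχ x hx, neg_zero]) 4
    (M := M) (by
      refine le_trans (le_of_eq ?_) h2
      congr 1
      funext u v
      ring) σ
  have h6 := exp_moment hβ p l P hψ (-2) h1 σ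
  unfold Gc at h5 h6
  have n5 : 0 ≤ Gb (inn p l) (W β p l) (fun σ => Real.exp (4 * Df β p l Q (fun x => -χ x) σ)) σ :=
    Gb_nonneg hW (cexp (hcQ.const_mul 4)) (fun _ => (Real.exp_pos _).le) σ
  have n6 : 0 ≤ Gb (inn p l) (W β p l) (fun σ => Real.exp (-2 * Df β p l P ψ σ)) σ :=
    Gb_nonneg hW (cexp (hcP.const_mul (-2))) (fun _ => (Real.exp_pos _).le) σ
  have h7 := h4.trans (mul_le_mul h5 h6 n6 (Real.exp_pos _).le)
  rw [← Real.exp_add] at h7
  have h8 : β * (5 / 2 * ((4 : ℝ) ^ 2 + |(4 : ℝ)|)) * M +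
      β * (5 / 2 * ((-2 : ℝ) ^ 2 + |(-2 : ℝ)|)) * M ≤ 2 * (40 * β * M) := by
    have hb : 0 ≤ β * M := mul_nonneg hβ hM
    have a4 : |(4 : ℝ)| = 4 := abs_of_pos (by norm_num)
    have a2 : |(-2 : ℝ)| = 2 := by rw [abs_neg]; exact abs_of_pos (by norm_num)
    rw [a4, a2]
    nlinarith only [hb]
  have h9 := h7.trans (Real.exp_le_exp.2 h8)
  rw [two_mul, Real.exp_add, ← sq] at h9
  exact le_of_sq_le_sq h9 (Real.exp_pos _).le

end Vale.Agent.P163
end
end

section

section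

open MeasureTheory Filter Topology
open scoped RealInnerProductSpace

set_option linter.unusedSectionVars false

namespace Vale.Agent.P163

/-! ### Elementary expansion of the exponential -/

lemma exp_sub_one_sub_le (x : ℝ) : |Real.exp x - 1 - x| ≤ x ^ 2 * Real.exp |x| := by
  have h1 : 1 + x ≤ Real.exp x := by linarith [Real.add_one_le_exp x]
  have h2 : Real.exp x - 1 ≤ x * Real.exp x := by
    have h3 : 1 - x ≤ Real.exp (-x) := by linarith [Real.add_one_le_exp (-x)]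
    have h4 : (1 - x) * Real.exp x ≤ Real.exp (-x) * Real.exp x :=
      mul_le_mul_of_nonneg_right h3 (Real.exp_pos x).le
    rw [← Real.exp_add, neg_add_cancel, Real.exp_zero] at h4
    linarith
  rw [abs_of_nonneg (by linarith)]
  rcases le_total 0 x with hx | hx
  · rw [abs_of_nonneg hx]
    have h5 : x * (Real.exp x - 1) ≤ x * (x * Real.exp x) := mul_le_mul_of_nonneg_left h2 hx
    linarith
  · have h6 : 1 ≤ Real.exp |x| := Real.one_le_exp (abs_nonneg x)
    have h7 : x * (Real.exp x - 1) ≤ x ^ 2 := by nlinarith only [h1, hx]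
    have h8 : x ^ 2 * 1 ≤ x ^ 2 * Real.exp |x| := mul_le_mul_of_nonneg_left h6 (sq_nonneg x)
    linarith

theorem abs_expansion (n : ℕ) [NeZero n] (M : ℝ) (hM : 1 ≤ M) : ∃ C : ℝ, 0 ≤ C ∧
    ∀ (D : Finset Z2) (H f f' f1 Δ L1 : (Z2 → Spin n) → ℝ), Continuous H → Continuous f →
    Continuous f' → Continuous f1 → Continuous Δ → Continuous L1 →
    ∀ κ : ℝ, 0 ≤ κ → κ ≤ 1 → (∀ σ, |f σ| ≤ M) → (∀ σ, |f' σ - f σ - f1 σ| ≤ M * κ ^ 2) →
    (∀ σ, |f1 σ| ≤ M * κ) → (∀ σ, |Δ σ - L1 σ| ≤ M * κ ^ 2) → (∀ σ, |L1 σ| ≤ M * κ) →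
    ∀ σ, |Gb D H (fun σ => f' σ * Real.exp (Δ σ)) σ / Gb D H (fun σ => Real.exp (Δ σ)) σ -
      (Gb D H f σ + Gb D H f1 σ + Cv D H f L1 σ)| ≤ C * κ ^ 2 := by
  set K1 : ℝ := 4 * M ^ 2 * Real.exp (2 * M) + M with hK1
  set K2 : ℝ := M + 2 * M ^ 2 + 3 * M * K1 with hK2
  set K3 : ℝ := 2 * M + 2 * M ^ 2 with hK3
  set K4 : ℝ := K2 + (M ^ 2 + 2 * M ^ 3) + K1 * K3 with hK4
  have hM0 : 0 ≤ M := by linarith
  have hK1n : 0 ≤ K1 := by positivity
  have hK2n : 0 ≤ K2 := by positivity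
  have hK3n : 0 ≤ K3 := by positivity
  have hK4n : 0 ≤ K4 := by positivity
  refine ⟨K4 * Real.exp (2 * M), by positivity, ?_⟩
  intro D H f f' f1 Δ L1 hH hf hf' hf1 hΔ hL1 κ hκ0 hκ1 bf bf' bf1 bΔ bL1 σ
  have hκ2 : κ ^ 2 ≤ κ := by nlinarith only [hκ0, hκ1]
  have hκ2' : 0 ≤ κ ^ 2 := sq_nonneg κ
  have hMκ : M * κ ^ 2 ≤ M * κ := mul_le_mul_of_nonneg_left hκ2 hM0
  have hMκ1 : M * κ ≤ M := by nlinarith only [hκ1, hM]
  have hMκ0 : 0 ≤ M * κ := by (clear * - hM hκ0; positivity)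
  -- pointwise bounds
  have bΔ' : ∀ τ, |Δ τ| ≤ 2 * M * κ := fun τ => by
    have h1 := bΔ τ
    have h2 := bL1 τ
    have h3 : |Δ τ| ≤ |Δ τ - L1 τ| + |L1 τ| := by
      have := abs_add_le (Δ τ - L1 τ) (L1 τ)
      simpa only [ge_iff_le, sub_add_cancel] using this
    linarith only [hMκ, h1, h2, h3]
  have bexp : ∀ τ, |Real.exp (Δ τ) - 1 - L1 τ| ≤ K1 * κ ^ 2 := fun τ => by
    have h1 := exp_sub_one_sub_le (Δ τ)
    have h2 : Real.exp |Δ τ| ≤ Real.exp (2 * M) := by
      refine Real.exp_le_exp.2 ((bΔ' τ).trans ?_)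
      nlinarith only [hMκ1]
    have h3 : Δ τ ^ 2 ≤ (2 * M * κ) ^ 2 := sq_le_sq' (by linarith only [(abs_le.1 (bΔ' τ)).1])
      (abs_le.1 (bΔ' τ)).2
    have h4 : Δ τ ^ 2 * Real.exp |Δ τ| ≤ (2 * M * κ) ^ 2 * Real.exp (2 * M) :=
      mul_le_mul h3 h2 (Real.exp_pos _).le (by (clear * -; positivity))
    have h5 : |Real.exp (Δ τ) - 1 - L1 τ| ≤ |Real.exp (Δ τ) - 1 - Δ τ| + |Δ τ - L1 τ| := by
      have := abs_add_le (Real.exp (Δ τ) - 1 - Δ τ) (Δ τ - L1 τ)
      have e : Real.exp (Δ τ) - 1 - Δ τ + (Δ τ - L1 τ) = Real.exp (Δ τ) - 1 - L1 τ := by ring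
      rwa [e] at this
    have h6 := bΔ τ
    calc |Real.exp (Δ τ) - 1 - L1 τ| ≤ (2 * M * κ) ^ 2 * Real.exp (2 * M) + M * κ ^ 2 := by
          linarith only [h1, h4, h5, h6]
      _ = K1 * κ ^ 2 := by rw [hK1]; ring
  have bff : ∀ τ, |f' τ - f τ| ≤ 2 * (M * κ) := fun τ => by
    have h1 := bf' τ
    have h2 := bf1 τ
    have h3 : |f' τ - f τ| ≤ |f' τ - f τ - f1 τ| + |f1 τ| := by
      have := abs_add_le (f' τ - f τ - f1 τ) (f1 τ)
      simpa only [ge_iff_le, sub_add_cancel] using this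
    linarith only [hMκ, h1, h2, h3]
  have bf'' : ∀ τ, |f' τ| ≤ 3 * M := fun τ => by
    have h1 := bff τ
    have h2 := bf τ
    have h3 : |f' τ| ≤ |f' τ - f τ| + |f τ| := by
      have := abs_add_le (f' τ - f τ) (f τ)
      simpa only [ge_iff_le, sub_add_cancel] using this
    linarith only [hMκ1, h1, h2, h3]
  have bN : ∀ τ, |f' τ * Real.exp (Δ τ) - f τ - f1 τ - f τ * L1 τ| ≤ K2 * κ ^ 2 := fun τ => by
    have e : f' τ * Real.exp (Δ τ) - f τ - f1 τ - f τ * L1 τ = (f' τ - f τ - f1 τ) +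
        ((f' τ - f τ) * L1 τ + f' τ * (Real.exp (Δ τ) - 1 - L1 τ)) := by ring
    rw [e]
    refine (abs_add_le _ _).trans ?_
    have h1 := bf' τ
    have h2 : |(f' τ - f τ) * L1 τ| ≤ 2 * (M * κ) * (M * κ) := by
      rw [abs_mul]
      exact mul_le_mul (bff τ) (bL1 τ) (abs_nonneg _) (by (clear * - hM hκ0; positivity))
    have h3 : |f' τ * (Real.exp (Δ τ) - 1 - L1 τ)| ≤ 3 * M * (K1 * κ ^ 2) := by
      rw [abs_mul]
      exact mul_le_mul (bf'' τ) (bexp τ) (abs_nonneg _) (by positivity)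
    have h4 := abs_add_le ((f' τ - f τ) * L1 τ) (f' τ * (Real.exp (Δ τ) - 1 - L1 τ))
    calc _ ≤ M * κ ^ 2 + (2 * (M * κ) * (M * κ) + 3 * M * (K1 * κ ^ 2)) := by linarith only [h1, h2, h3, h4]
      _ = K2 * κ ^ 2 := by rw [hK2]; ring
  -- expectations
  have cfL : Continuous fun τ => f τ * L1 τ := hf.mul hL1
  have cN : Continuous fun τ => f' τ * Real.exp (Δ τ) := hf'.mul (cexp hΔ)
  have cZ : Continuous fun τ => Real.exp (Δ τ) := cexp hΔ
  set a0 := Gb D H f σ with ha0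
  set a1 := Gb D H f1 σ with ha1
  set a2 := Gb D H (fun τ => f τ * L1 τ) σ with ha2
  set m := Gb D H L1 σ with hm
  set N := Gb D H (fun τ => f' τ * Real.exp (Δ τ)) σ with hN
  set Z := Gb D H (fun τ => Real.exp (Δ τ)) σ with hZ
  have b0 : |a0| ≤ M := Gb_abs_le hH hf bf σ
  have b1 : |a1| ≤ M * κ := Gb_abs_le hH hf1 bf1 σ
  have b2 : |a2| ≤ M * (M * κ) := Gb_abs_le hH cfL (fun τ => by
    rw [abs_mul]; exact mul_le_mul (bf τ) (bL1 τ) (abs_nonneg _) hM0) σ
  have bm : |m| ≤ M * κ := Gb_abs_le hH hL1 bL1 σ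
  have eN : |N - a0 - a1 - a2| ≤ K2 * κ ^ 2 := by
    have h1 := Gb_abs_le (D := D) hH (f := fun τ => f' τ * Real.exp (Δ τ) - f τ - f1 τ - f τ * L1 τ)
      (by fun_prop) bN σ
    rw [Gb_sub hH (by fun_prop) cfL, Gb_sub hH (by fun_prop) hf1, Gb_sub hH cN hf] at h1
    exact h1
  have eZ : |Z - 1 - m| ≤ K1 * κ ^ 2 := by
    have h1 := Gb_abs_le (D := D) hH (f := fun τ => Real.exp (Δ τ) - 1 - L1 τ)
      (by fun_prop) bexp σ
    rw [Gb_sub hH (by fun_prop) hL1, Gb_sub hH cZ continuous_const, Gb_const hH] at h1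
    exact h1
  have lZ : Real.exp (-(2 * M)) ≤ Z := by
    have h1 := Gb_mono (D := D) hH (continuous_const (y := Real.exp (-(2 * M)))) cZ
      (fun τ => Real.exp_le_exp.2 (by
        have := (abs_le.1 (bΔ' τ)).1
        nlinarith only [hMκ1, this])) σ
    rwa [Gb_const hH] at h1
  have pZ : 0 < Z := (Real.exp_pos _).trans_le lZ
  set c := a2 - a0 * m with hc
  have bc : |c| ≤ 2 * (M * (M * κ)) := by
    have h1 : |a0 * m| ≤ M * (M * κ) := by
      rw [abs_mul]; exact mul_le_mul b0 bm (abs_nonneg _) hM0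
    have h2 := abs_sub a2 (a0 * m)
    linarith only [b2, h1, h2]
  have e1 : N / Z - (a0 + a1 + c) =
      ((N - a0 - a1 - a2) - (m * (a1 + c) + (Z - 1 - m) * (a0 + a1 + c))) / Z := by
    field_simp
    rw [hc]
    ring
  have hCv : Cv D H f L1 σ = c := rfl
  rw [hCv, e1, abs_div, abs_of_pos pZ, div_le_iff₀ pZ]
  have t1 : |m * (a1 + c)| ≤ (M ^ 2 + 2 * M ^ 3) * κ ^ 2 := by
    rw [abs_mul]
    have h1 : |a1 + c| ≤ M * κ + 2 * (M * (M * κ)) := (abs_add_le _ _).trans (add_le_add b1 bc)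
    have h2 : |m| * |a1 + c| ≤ (M * κ) * (M * κ + 2 * (M * (M * κ))) :=
      mul_le_mul bm h1 (abs_nonneg _) hMκ0
    calc |m| * |a1 + c| ≤ (M * κ) * (M * κ + 2 * (M * (M * κ))) := h2
      _ = (M ^ 2 + 2 * M ^ 3) * κ ^ 2 := by ring
  have t2 : |(Z - 1 - m) * (a0 + a1 + c)| ≤ K1 * κ ^ 2 * K3 := by
    rw [abs_mul]
    refine mul_le_mul eZ ?_ (abs_nonneg _) (by (clear * - hM; positivity))
    have h1 : |a0 + a1 + c| ≤ |a0| + |a1| + |c| := abs_add_three _ _ _
    have h2 : M * (M * κ) ≤ M * M := mul_le_mul_of_nonneg_left hMκ1 hM0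
    have h3 : K3 = M + M + 2 * (M * M) := by rw [hK3]; ring
    rw [h3]
    linarith only [hMκ1, b0, b1, bc, h1, h2]
  have t3 : |(N - a0 - a1 - a2) - (m * (a1 + c) + (Z - 1 - m) * (a0 + a1 + c))| ≤
      K4 * κ ^ 2 := by
    have h1 := abs_sub (N - a0 - a1 - a2) (m * (a1 + c) + (Z - 1 - m) * (a0 + a1 + c))
    have h2 := abs_add_le (m * (a1 + c)) ((Z - 1 - m) * (a0 + a1 + c))
    have h3 : K4 * κ ^ 2 = K2 * κ ^ 2 + ((M ^ 2 + 2 * M ^ 3) * κ ^ 2 + K1 * κ ^ 2 * K3) := by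
      rw [hK4]; ring
    rw [h3]
    linarith only [eN, t1, t2, h1, h2]
  have t4 : 1 ≤ Real.exp (2 * M) * Z := by
    have h1 : Real.exp (2 * M) * Real.exp (-(2 * M)) ≤ Real.exp (2 * M) * Z :=
      mul_le_mul_of_nonneg_left lZ (Real.exp_pos _).le
    rwa [← Real.exp_add, add_neg_cancel, Real.exp_zero] at h1
  have t5 : K4 * κ ^ 2 * 1 ≤ K4 * κ ^ 2 * (Real.exp (2 * M) * Z) :=
    mul_le_mul_of_nonneg_left t4 (by (clear * - hM; positivity))
  calc _ ≤ K4 * κ ^ 2 := t3
    _ ≤ K4 * κ ^ 2 * (Real.exp (2 * M) * Z) := by linarith only [t5]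
    _ = K4 * Real.exp (2 * M) * κ ^ 2 * Z := by ring

variable {n : ℕ}

/-- composition of two small rotations, first order -/
lemma rot_rot_expand (P Q : Pl n) {f g κ : ℝ} (hκ : 0 ≤ κ) (hf : |f| ≤ κ) (hg : |g| ≤ κ)
    (s : Spin n) :
    ‖P.rot f (Q.rot g (s : E n)) - s - (f • P.X s + g • Q.X s)‖ ≤ 3 * κ ^ 2 := by
  have hs : ‖(s : E n)‖ = 1 := by simp
  have h1 := P.rot_sub_sub_le f (Q.rot g (s : E n))
  have h2 := Q.rot_sub_sub_le g (s : E n)
  have h3 := P.X_norm_le (Q.rot g (s : E n) - s)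
  have h4 := Q.rot_sub_le g (s : E n)
  rw [LinearIsometryEquiv.norm_map, hs, mul_one] at h1
  rw [hs, mul_one] at h2 h4
  have hf2 : f ^ 2 ≤ κ ^ 2 := sq_le_sq' (by linarith [(abs_le.1 hf).1]) (abs_le.1 hf).2
  have hg2 : g ^ 2 ≤ κ ^ 2 := sq_le_sq' (by linarith [(abs_le.1 hg).1]) (abs_le.1 hg).2
  have e : P.rot f (Q.rot g (s : E n)) - s - (f • P.X s + g • Q.X s) =
      (P.rot f (Q.rot g (s : E n)) - Q.rot g (s : E n) - f • P.X (Q.rot g (s : E n))) +
      (Q.rot g (s : E n) - s - g • Q.X s) + f • P.X (Q.rot g (s : E n) - s) := by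
    rw [map_sub]; module
  rw [e]
  have h5 : ‖f • P.X (Q.rot g (s : E n) - s)‖ ≤ κ ^ 2 := by
    rw [norm_smul, Real.norm_eq_abs]
    calc |f| * ‖P.X (Q.rot g (s : E n) - s)‖ ≤ κ * κ :=
          mul_le_mul hf (h3.trans (h4.trans hg)) (norm_nonneg _) hκ
      _ = κ ^ 2 := by ring
  refine (norm_add₃_le).trans ?_
  linarith only [h1, h2, hf2, hg2, h5]

/-- bilinear bookkeeping -/
lemma bilin_expand (X : E n →L[ℝ] E n) {c κ : ℝ} (hc : ‖X‖ ≤ c) (hκ0 : 0 ≤ κ)
    (hκ1 : κ ≤ 1) {s t a b a1 b1 : E n} (hs : ‖s‖ = 1) (hb : ‖b‖ = 1)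
    (ha1 : ‖a1‖ ≤ 2 * κ) (hb1 : ‖b1‖ ≤ 2 * κ) (hae : ‖a - s - a1‖ ≤ 3 * κ ^ 2)
    (hbe : ‖b - t - b1‖ ≤ 3 * κ ^ 2) :
    |⟪X a, b⟫ - ⟪X s, t⟫ - (⟪X a1, t⟫ + ⟪X s, b1⟫)| ≤ 16 * c * κ ^ 2 := by
  have hc0 : 0 ≤ c := (norm_nonneg _).trans hc
  have hX : ∀ x y : E n, |⟪X x, y⟫| ≤ c * (‖x‖ * ‖y‖) := fun x y => by
    refine (abs_real_inner_le_norm _ _).trans ?_
    calc ‖X x‖ * ‖y‖ ≤ (‖X‖ * ‖x‖) * ‖y‖ :=
          mul_le_mul_of_nonneg_right (X.le_opNorm x) (norm_nonneg _)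
      _ ≤ (c * ‖x‖) * ‖y‖ := by (clear * - hc; gcongr)
      _ = _ := by ring
  have e : ⟪X a, b⟫ - ⟪X s, t⟫ - (⟪X a1, t⟫ + ⟪X s, b1⟫) =
      ⟪X (a - s - a1), b⟫ + ⟪X (s + a1), b - t - b1⟫ + ⟪X a1, b1⟫ := by
    simp only [map_sub, map_add, inner_sub_left, inner_sub_right, inner_add_left]
    ring
  rw [e]
  have h1 : |⟪X (a - s - a1), b⟫| ≤ c * (3 * κ ^ 2) := by
    refine (hX _ _).trans ?_
    rw [hb, mul_one]; (clear * - hae hc0; gcongr)
  have h2 : |⟪X (s + a1), b - t - b1⟫| ≤ c * (3 * (3 * κ ^ 2)) := by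
    refine (hX _ _).trans ?_
    have : ‖s + a1‖ ≤ 3 := (norm_add_le _ _).trans (by linarith only [hκ1, hs, ha1])
    (clear * - this hbe hc0; gcongr)
  have h3 : |⟪X a1, b1⟫| ≤ c * ((2 * κ) * (2 * κ)) := by
    refine (hX _ _).trans ?_
    (clear * - ha1 hb1 hκ0 hc0; gcongr)
  have h4 := abs_add_three ⟪X (a - s - a1), b⟫ ⟪X (s + a1), b - t - b1⟫ ⟪X a1, b1⟫
  calc _ ≤ c * (3 * κ ^ 2) + c * (3 * (3 * κ ^ 2)) + c * ((2 * κ) * (2 * κ)) := by linarith only [h1, h2, h3, h4]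
    _ = 16 * c * κ ^ 2 := by ring

lemma Cv_add_right [NeZero n] {D : Finset Z2} {H f g g' : (Z2 → Spin n) → ℝ}
    (hH : Continuous H) (hf : Continuous f) (hg : Continuous g) (hg' : Continuous g')
    (σ : Z2 → Spin n) :
    Cv D H f (fun σ => g σ + g' σ) σ = Cv D H f g σ + Cv D H f g' σ := by
  have h1 : Continuous fun σ => f σ * g σ := hf.mul hg
  have h2 : Continuous fun σ => f σ * g' σ := hf.mul hg'
  unfold Cv
  simp only [mul_add]
  rw [Gb_add hH h1 h2, Gb_add hH hg hg']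
  ring

lemma PSb_add (p : Z2) (l : ℤ) (b b' : Bond n) (σ : Z2 → Spin n) :
    PSb p l (fun u v s t => b u v s t + b' u v s t) σ = PSb p l b σ + PSb p l b' σ :=
  PS_add _ _

/-- first order variation of a spin -/
noncomputable def dsp (P Q : Pl n) (f g : Z2 → ℝ) (x : Z2) (s : E n) : E n :=
  f x • P.X s + g x • Q.X s

lemma dsp_norm_le (P Q : Pl n) {f g : Z2 → ℝ} {x : Z2} {κ : ℝ} (hf : |f x| ≤ κ)
    (hg : |g x| ≤ κ) {s : E n} (hs : ‖s‖ = 1) : ‖dsp P Q f g x s‖ ≤ 2 * κ := by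
  unfold dsp
  refine (norm_add_le _ _).trans ?_
  rw [norm_smul, norm_smul, Real.norm_eq_abs, Real.norm_eq_abs]
  have h1 := P.X_norm_le s
  have h2 := Q.X_norm_le s
  rw [hs] at h1 h2
  have h3 : |f x| * ‖P.X s‖ ≤ κ * 1 := mul_le_mul hf h1 (norm_nonneg _) ((abs_nonneg _).trans hf)
  have h4 : |g x| * ‖Q.X s‖ ≤ κ * 1 := mul_le_mul hg h2 (norm_nonneg _) ((abs_nonneg _).trans hg)
  linarith

theorem local_expansion (n : ℕ) [NeZero n] (β : ℝ) {l : ℤ} (hl : 0 < l) : ∃ C : ℝ, 0 ≤ C ∧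
    ∀ (p : Z2) (φ : Z2 → ℝ), (∀ u v, Nb u v → |φ u - φ v| ≤ 1) →
    ∀ (P Q : Pl n) (X : E n →L[ℝ] E n), ‖X‖ ≤ 3 → ∀ (f g : Z2 → ℝ) (κ : ℝ), 0 ≤ κ → κ ≤ 1 →
    (∀ x ∈ clo p l, |f x| ≤ κ) → (∀ x ∈ clo p l, |g x| ≤ κ) → ∀ σ : Z2 → Spin n,
    |Gc β p l (Jc β p l φ X) (act (hg P Q f g) σ) -
      (Gc β p l (Jc β p l φ X) σ + Bc β p l φ f P.X X σ + Bc β p l φ g Q.X X σ)| ≤ C * κ ^ 2 := by
  set M : ℝ := 1 + 2 * (l : ℝ) ^ 2 * (48 * |β|) with hM
  have hlR : (0 : ℝ) ≤ (l : ℝ) ^ 2 := sq_nonneg _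
  have hl0 : 0 ≤ l := hl.le
  have hβ0 : 0 ≤ |β| := abs_nonneg β
  obtain ⟨C, hC0, hC⟩ := abs_expansion n M (by rw [hM]; nlinarith only [hβ0])
  refine ⟨C, hC0, ?_⟩
  intro p φ hφ P Q X hX f g κ hκ0 hκ1 hf hg' σ
  have hMb : ∀ c : ℝ, 0 ≤ c → c ≤ 48 → ∀ x : ℝ, 0 ≤ x →
      2 * (l : ℝ) ^ 2 * (c * |β| * x) ≤ M * x := fun c hc0 hc x hx => by
    have h1 : 2 * (l : ℝ) ^ 2 * (c * |β| * x) = (2 * (l : ℝ) ^ 2 * (c * |β|)) * x := by ring
    rw [h1, hM]
    refine mul_le_mul_of_nonneg_right ?_ hx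
    have h2 : 2 * (l : ℝ) ^ 2 * (c * |β|) ≤ 2 * (l : ℝ) ^ 2 * (48 * |β|) := by (clear * - hc hl; gcongr)
    linarith only [h2]
  -- the functions
  set H : (Z2 → Spin n) → ℝ := W β p l with hH
  have cH : Continuous H := continuous_W β p l
  set h : Gau Z2 n := hg P Q f g with hh
  have chh : Continuous (act h) := continuous_act h
  set F : (Z2 → Spin n) → ℝ := Jc β p l φ X with hF
  have cF : Continuous F := continuous_Jc β p l φ X
  set F1 : (Z2 → Spin n) → ℝ := PSb p l fun u v s t =>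
    β * ((φ u - φ v) * (⟪X (dsp P Q f g u s), t⟫ + ⟪X s, dsp P Q f g v t⟫)) with hF1
  set L1 : (Z2 → Spin n) → ℝ := PSb p l fun u v s t =>
    β * (⟪dsp P Q f g u s, t⟫ + ⟪s, dsp P Q f g v t⟫) with hL1
  have cF1 : Continuous F1 := by
    rw [hF1]; exact continuous_PSb fun u v => by unfold dsp; (clear * -; fun_prop)
  have cL1 : Continuous L1 := by
    rw [hL1]; exact continuous_PSb fun u v => by unfold dsp; fun_prop
  -- spins
  have nsp : ∀ (τ : Z2 → Spin n) x, ‖(τ x : E n)‖ = 1 := fun τ x => by simp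
  have nac : ∀ (τ : Z2 → Spin n) x, ‖(act h τ x : E n)‖ = 1 := fun τ x => by simp
  have aex : ∀ (τ : Z2 → Spin n) x, x ∈ clo p l →
      ‖(act h τ x : E n) - τ x - dsp P Q f g x (τ x)‖ ≤ 3 * κ ^ 2 := fun τ x hx => by
    have := rot_rot_expand P Q hκ0 (hf x hx) (hg' x hx) (τ x)
    rw [coe_act]
    exact this
  have adn : ∀ (τ : Z2 → Spin n) x, x ∈ clo p l → ‖dsp P Q f g x (τ x)‖ ≤ 2 * κ :=
    fun τ x hx => dsp_norm_le P Q (hf x hx) (hg' x hx) (nsp τ x)
  have hXb : ∀ x y : E n, |⟪X x, y⟫| ≤ 3 * (‖x‖ * ‖y‖) := fun x y => by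
    refine (abs_real_inner_le_norm _ _).trans ?_
    calc ‖X x‖ * ‖y‖ ≤ (‖X‖ * ‖x‖) * ‖y‖ :=
          mul_le_mul_of_nonneg_right (X.le_opNorm x) (norm_nonneg _)
      _ ≤ (3 * ‖x‖) * ‖y‖ := by (clear * - hX; gcongr)
      _ = _ := by ring
  -- bounds
  have B1 : ∀ τ, |F τ| ≤ M := fun τ => by
    have h1 : |F τ| ≤ 2 * (l : ℝ) ^ 2 * (3 * |β| * 1) := by
      refine PS_abs_le_of_le hl0 fun u v huv hu hv => ?_
      rw [abs_mul, abs_mul]
      have h2 := hXb (τ u) (τ v)
      rw [nsp, nsp, mul_one] at h2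
      have h3 := hφ u v huv
      calc |β| * (|φ u - φ v| * |⟪X (τ u), (τ v : E n)⟫|) ≤ |β| * (1 * (3 * 1)) := by (clear * - h3 h2; gcongr)
        _ = 3 * |β| * 1 := by ring
    have h2 := hMb 3 (by norm_num) (by norm_num) 1 zero_le_one
    linarith only [h1, h2]
  have B2 : ∀ τ, |F (act h τ) - F τ - F1 τ| ≤ M * κ ^ 2 := fun τ => by
    have e : F (act h τ) - F τ - F1 τ = PS p l (fun u v =>
        β * ((φ u - φ v) * (⟪X (act h τ u : E n), (act h τ v : E n)⟫ - ⟪X (τ u), (τ v : E n)⟫ -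
          (⟪X (dsp P Q f g u (τ u)), (τ v : E n)⟫ + ⟪X (τ u), dsp P Q f g v (τ v)⟫)))) := by
      rw [hF, hF1]
      unfold Jc PSb
      rw [← PS_sub, ← PS_sub]
      congr 1
      funext u v
      ring
    rw [e]
    refine le_trans ?_ (hMb 48 (by norm_num) le_rfl (κ ^ 2) (sq_nonneg _))
    refine PS_abs_le_of_le hl0 fun u v huv hu hv => ?_
    rw [abs_mul, abs_mul]
    have h2 := bilin_expand X hX hκ0 hκ1 (nsp τ u) (nac τ v) (adn τ u hu) (adn τ v hv)
      (aex τ u hu) (aex τ v hv)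
    have h3 := hφ u v huv
    calc |β| * (|φ u - φ v| * _) ≤ |β| * (1 * (16 * 3 * κ ^ 2)) := by (clear * - h3 h2; gcongr)
      _ = 48 * |β| * κ ^ 2 := by ring
  have B3 : ∀ τ, |F1 τ| ≤ M * κ := fun τ => by
    refine le_trans ?_ (hMb 12 (by norm_num) (by norm_num) κ hκ0)
    refine PS_abs_le_of_le hl0 fun u v huv hu hv => ?_
    rw [abs_mul, abs_mul]
    have h2 := hXb (dsp P Q f g u (τ u)) (τ v)
    have h3 := hXb (τ u) (dsp P Q f g v (τ v))
    rw [nsp, mul_one] at h2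
    rw [nsp, one_mul] at h3
    have h4 := adn τ u hu
    have h5 := adn τ v hv
    have h6 := abs_add_le ⟪X (dsp P Q f g u (τ u)), (τ v : E n)⟫
      ⟪X (τ u : E n), dsp P Q f g v (τ v)⟫
    have h7 : |⟪X (dsp P Q f g u (τ u)), (τ v : E n)⟫ + ⟪X (τ u : E n), dsp P Q f g v (τ v)⟫| ≤
        12 * κ := by linarith only [h2, h3, h4, h5, h6]
    have h8 := hφ u v huv
    calc |β| * (|φ u - φ v| * _) ≤ |β| * (1 * (12 * κ)) := by (clear * - h8 h7; gcongr)
      _ = 12 * |β| * κ := by ring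
  have B4 : ∀ τ, |(H (act h τ) - H τ) - L1 τ| ≤ M * κ ^ 2 := fun τ => by
    have e : (H (act h τ) - H τ) - L1 τ = PS p l (fun u v =>
        β * (⟪(act h τ u : E n), (act h τ v : E n)⟫ - ⟪(τ u : E n), (τ v : E n)⟫ -
          (⟪dsp P Q f g u (τ u), (τ v : E n)⟫ + ⟪(τ u : E n), dsp P Q f g v (τ v)⟫))) := by
      rw [hH, hL1]
      unfold W PSb
      rw [← PS_sub, ← PS_sub]
      congr 1
      funext u v
      ring
    rw [e]
    refine le_trans ?_ (hMb 16 (by norm_num) (by norm_num) (κ ^ 2) (sq_nonneg _))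
    refine PS_abs_le_of_le hl0 fun u v huv hu hv => ?_
    rw [abs_mul]
    have h2 := bilin_expand (ContinuousLinearMap.id ℝ (E n)) ContinuousLinearMap.norm_id_le hκ0 hκ1
      (nsp τ u) (nac τ v) (adn τ u hu) (adn τ v hv) (aex τ u hu) (aex τ v hv)
    simp only [ContinuousLinearMap.id_apply] at h2
    calc |β| * _ ≤ |β| * (16 * 1 * κ ^ 2) := by (clear * - h2; gcongr)
      _ = 16 * |β| * κ ^ 2 := by ring
  have B5 : ∀ τ, |L1 τ| ≤ M * κ := fun τ => by
    refine le_trans ?_ (hMb 4 (by norm_num) (by norm_num) κ hκ0)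
    refine PS_abs_le_of_le hl0 fun u v huv hu hv => ?_
    rw [abs_mul]
    have h2 := abs_real_inner_le_norm (dsp P Q f g u (τ u)) (τ v : E n)
    have h3 := abs_real_inner_le_norm (τ u : E n) (dsp P Q f g v (τ v))
    rw [nsp, mul_one] at h2
    rw [nsp, one_mul] at h3
    have h4 := adn τ u hu
    have h5 := adn τ v hv
    have h6 := abs_add_le ⟪dsp P Q f g u (τ u), (τ v : E n)⟫
      ⟪(τ u : E n), dsp P Q f g v (τ v)⟫
    have h7 : |⟪dsp P Q f g u (τ u), (τ v : E n)⟫ + ⟪(τ u : E n), dsp P Q f g v (τ v)⟫| ≤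
        4 * κ := by linarith only [h2, h3, h4, h5, h6]
    calc |β| * _ ≤ |β| * (4 * κ) := by (clear * - h7; gcongr)
      _ = 4 * |β| * κ := by ring
  have key := hC (inn p l) H F (fun τ => F (act h τ)) F1 (fun τ => H (act h τ) - H τ) L1
    cH cF (cF.comp chh) cF1 ((cH.comp chh).sub cH) cL1 κ hκ0 hκ1 B1 B2 B3 B4 B5 σ
  have e1 : Gc β p l F (act h σ) =
      Gb (inn p l) H (fun σ => F (act h σ) * Real.exp (H (act h σ) - H σ)) σ /
      Gb (inn p l) H (fun σ => Real.exp (H (act h σ) - H σ)) σ := Gb_act h cH cF σ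
  rw [e1]
  -- splitting of the first order terms
  have e2 : F1 = fun τ => PSb p l (fun u v s t =>
      β * ((φ u - φ v) * (f u * ⟪X (P.X s), t⟫ + f v * ⟪X s, P.X t⟫))) τ +
      PSb p l (fun u v s t =>
      β * ((φ u - φ v) * (g u * ⟪X (Q.X s), t⟫ + g v * ⟪X s, Q.X t⟫))) τ := by
    funext τ
    rw [← PSb_add, hF1]
    unfold PSb
    congr 1
    funext u v
    simp only [dsp, map_add, map_smul, inner_add_left, inner_add_right, real_inner_smul_left,
      real_inner_smul_right]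
    ring
  have e3 : L1 = fun τ => PSb p l (fun u v s t =>
      β * (f u * ⟪P.X s, t⟫ + f v * ⟪s, P.X t⟫)) τ +
      PSb p l (fun u v s t => β * (g u * ⟪Q.X s, t⟫ + g v * ⟪s, Q.X t⟫)) τ := by
    funext τ
    rw [← PSb_add, hL1]
    unfold PSb
    congr 1
    funext u v
    simp only [dsp, inner_add_left, inner_add_right, real_inner_smul_left,
      real_inner_smul_right]
    ring
  have c1 : Continuous (PSb (n := n) p l (fun u v s t =>
      β * ((φ u - φ v) * (f u * ⟪X (P.X s), t⟫ + f v * ⟪X s, P.X t⟫)))) :=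
    continuous_PSb fun u v => by fun_prop
  have c2 : Continuous (PSb (n := n) p l (fun u v s t =>
      β * ((φ u - φ v) * (g u * ⟪X (Q.X s), t⟫ + g v * ⟪X s, Q.X t⟫)))) :=
    continuous_PSb fun u v => by fun_prop
  have c3 : Continuous (PSb (n := n) p l (fun u v s t =>
      β * (f u * ⟪P.X s, t⟫ + f v * ⟪s, P.X t⟫))) :=
    continuous_PSb fun u v => by fun_prop
  have c4 : Continuous (PSb (n := n) p l (fun u v s t =>
      β * (g u * ⟪Q.X s, t⟫ + g v * ⟪s, Q.X t⟫))) :=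
    continuous_PSb fun u v => by fun_prop
  have e4 : Gb (inn p l) H F σ + Gb (inn p l) H F1 σ + Cv (inn p l) H F L1 σ =
      Gc β p l F σ + Bc β p l φ f P.X X σ + Bc β p l φ g Q.X X σ := by
    rw [e2, e3, Gb_add cH c1 c2, Cv_add_right cH cF c3 c4]
    unfold Bc
    rw [← hH, ← hF]
    ring
  rw [← e4]
  exact key

end Vale.Agent.P163
end
end

section

section

open MeasureTheory Filter Topology
open scoped RealInnerProductSpace

set_option linter.unusedSectionVars false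

namespace Vale.Agent.P163

variable {n : ℕ}

lemma Pl.inner_aa (P : Pl n) : ⟪P.a, P.a⟫ = 1 := by
  rw [real_inner_self_eq_norm_sq, P.ha]; norm_num

lemma Pl.inner_bb (P : Pl n) : ⟪P.b, P.b⟫ = 1 := by
  rw [real_inner_self_eq_norm_sq, P.hb]; norm_num

lemma Pl.inner_ba (P : Pl n) : ⟪P.b, P.a⟫ = 0 := by
  rw [real_inner_comm]; exact P.hab

lemma Pl.X_X (P : Pl n) (x : E n) : P.X (P.X x) = -(⟪P.a, x⟫ • P.a + ⟪P.b, x⟫ • P.b) := by
  simp only [Pl.X, gX_apply, inner_sub_right, inner_smul_right, P.inner_aa, P.inner_bb,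
    P.inner_ba, P.hab]
  module

lemma Pl.X_rot (P : Pl n) (t : ℝ) (x : E n) : P.X (P.rot t x) = P.rot t (P.X x) := by
  have h : ∀ y, P.rot t y = y - (Real.cos t - 1) • P.X (P.X y) + Real.sin t • P.X y := by
    intro y; rw [P.rot_apply, P.X_X]; module
  rw [h x, h (P.X x)]
  simp only [map_add, map_sub, map_smul]

/-! ### Linearity -/

section lin
variable [NeZero n] (β : ℝ) (p : Z2) (l : ℤ) (φ : Z2 → ℝ)

omit [NeZero n] in
lemma PSb_addK (b b' : Bond n) (σ : Z2 → Spin n) :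
    PSb p l (fun u v s t => b u v s t + b' u v s t) σ = PSb p l b σ + PSb p l b' σ :=
  PS_add _ _

omit [NeZero n] in
lemma PSb_const_mul (c : ℝ) (b : Bond n) (σ : Z2 → Spin n) :
    PSb p l (fun u v s t => c * b u v s t) σ = c * PSb p l b σ :=
  PS_const_mul _ _

omit [NeZero n] in
lemma Jc_add (X X' : E n →L[ℝ] E n) (σ : Z2 → Spin n) :
    Jc β p l φ (X + X') σ = Jc β p l φ X σ + Jc β p l φ X' σ := by
  unfold Jc
  rw [← PSb_addK]
  congr 1; funext u v s t
  simp only [add_apply, inner_add_left]; ring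

omit [NeZero n] in
lemma Jc_smul (c : ℝ) (X : E n →L[ℝ] E n) (σ : Z2 → Spin n) :
    Jc β p l φ (c • X) σ = c * Jc β p l φ X σ := by
  unfold Jc
  rw [← PSb_const_mul]
  congr 1; funext u v s t
  simp only [smul_apply, real_inner_smul_left]; ring

lemma GJ_add (X X' : E n →L[ℝ] E n) (σ : Z2 → Spin n) :
    Gc β p l (Jc β p l φ (X + X')) σ = Gc β p l (Jc β p l φ X) σ + Gc β p l (Jc β p l φ X') σ := by
  have : Jc β p l φ (X + X') = fun σ => Jc β p l φ X σ + Jc β p l φ X' σ := by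
    funext σ; exact Jc_add β p l φ X X' σ
  rw [this]
  exact Gb_add (continuous_W β p l) (continuous_Jc β p l φ X) (continuous_Jc β p l φ X') σ

lemma GJ_smul (c : ℝ) (X : E n →L[ℝ] E n) (σ : Z2 → Spin n) :
    Gc β p l (Jc β p l φ (c • X)) σ = c * Gc β p l (Jc β p l φ X) σ := by
  have : Jc β p l φ (c • X) = fun σ => c * Jc β p l φ X σ := by
    funext σ; exact Jc_smul β p l φ c X σ
  rw [this]
  exact Gb_const_mul c _ σ

end lin

section Cvl
variable {I : Type} [DecidableEq I] [Countable I] [NeZero n] {D : Finset I}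
  {H : (I → Spin n) → ℝ}

lemma Cv_add_leftK (hH : Continuous H) {f f' g : (I → Spin n) → ℝ} (hf : Continuous f)
    (hf' : Continuous f') (hg : Continuous g) (σ : I → Spin n) :
    Cv D H (fun σ => f σ + f' σ) g σ = Cv D H f g σ + Cv D H f' g σ := by
  unfold Cv
  have h1 : (fun σ => (f σ + f' σ) * g σ) = fun σ => f σ * g σ + f' σ * g σ := by
    funext σ; ring
  rw [h1, Gb_add hH (by fun_prop) (by fun_prop), Gb_add hH hf hf']
  ring

lemma Cv_add_rightK (hH : Continuous H) {f g g' : (I → Spin n) → ℝ} (hf : Continuous f)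
    (hg : Continuous g) (hg' : Continuous g') (σ : I → Spin n) :
    Cv D H f (fun σ => g σ + g' σ) σ = Cv D H f g σ + Cv D H f g' σ := by
  unfold Cv
  have h1 : (fun σ => f σ * (g σ + g' σ)) = fun σ => f σ * g σ + f σ * g' σ := by
    funext σ; ring
  rw [h1, Gb_add hH (by fun_prop) (by fun_prop), Gb_add hH hg hg']
  ring

lemma Cv_smul_left (c : ℝ) (f g : (I → Spin n) → ℝ) (σ : I → Spin n) :
    Cv D H (fun σ => c * f σ) g σ = c * Cv D H f g σ := by
  unfold Cv
  have h1 : (fun σ => (c * f σ) * g σ) = fun σ => c * (f σ * g σ) := by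
    funext σ; ring
  rw [h1, Gb_const_mul, Gb_const_mul]
  ring

lemma Cv_smul_right (c : ℝ) (f g : (I → Spin n) → ℝ) (σ : I → Spin n) :
    Cv D H f (fun σ => c * g σ) σ = c * Cv D H f g σ := by
  unfold Cv
  have h1 : (fun σ => f σ * (c * g σ)) = fun σ => c * (f σ * g σ) := by
    funext σ; ring
  rw [h1, Gb_const_mul, Gb_const_mul]
  ring

end Cvl

section Bcl
variable [NeZero n] (β : ℝ) (p : Z2) (l : ℤ) (φ : Z2 → ℝ) (f : Z2 → ℝ)

/-- first bond term of `Bc` -/
noncomputable def b1 (Y X : E n →L[ℝ] E n) : (Z2 → Spin n) → ℝ :=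
  PSb p l fun u v s t => β * ((φ u - φ v) * (f u * ⟪X (Y s), t⟫ + f v * ⟪X s, Y t⟫))

/-- second bond term of `Bc` -/
noncomputable def b2 (Y : E n →L[ℝ] E n) : (Z2 → Spin n) → ℝ :=
  PSb p l fun u v s t => β * (f u * ⟪Y s, t⟫ + f v * ⟪s, Y t⟫)

omit [NeZero n] in
lemma continuous_b1 (Y X : E n →L[ℝ] E n) : Continuous (b1 β p l φ f Y X) :=
  continuous_PSb fun u v => by (clear * -; fun_prop)

omit [NeZero n] in
lemma continuous_b2 (Y : E n →L[ℝ] E n) : Continuous (b2 β p l f Y) :=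
  continuous_PSb fun u v => by (clear * -; fun_prop)

lemma Bc_eq (Y X : E n →L[ℝ] E n) (σ : Z2 → Spin n) : Bc β p l φ f Y X σ =
    Gc β p l (b1 β p l φ f Y X) σ + Cv (inn p l) (W β p l) (Jc β p l φ X) (b2 β p l f Y) σ := rfl

lemma Bc_add_Y (Y Y' X : E n →L[ℝ] E n) (σ : Z2 → Spin n) :
    Bc β p l φ f (Y + Y') X σ = Bc β p l φ f Y X σ + Bc β p l φ f Y' X σ := by
  have e1 : b1 β p l φ f (Y + Y') X = fun σ => b1 β p l φ f Y X σ + b1 β p l φ f Y' X σ := by
    funext σ; unfold b1; rw [← PSb_addK]; congr 1; funext u v s t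
    simp only [add_apply, map_add, inner_add_left, inner_add_right]; ring
  have e2 : b2 β p l f (Y + Y') = fun σ => b2 β p l f Y σ + b2 β p l f Y' σ := by
    funext σ; unfold b2; rw [← PSb_addK]; congr 1; funext u v s t
    simp only [add_apply, inner_add_left, inner_add_right]; ring
  simp only [Bc_eq]
  rw [e1, e2, Cv_add_rightK (continuous_W β p l) (continuous_Jc β p l φ X)
    (continuous_b2 β p l f Y) (continuous_b2 β p l f Y')]
  unfold Gc
  rw [Gb_add (continuous_W β p l) (continuous_b1 β p l φ f Y X) (continuous_b1 β p l φ f Y' X)]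
  ring

lemma Bc_smul_Y (c : ℝ) (Y X : E n →L[ℝ] E n) (σ : Z2 → Spin n) :
    Bc β p l φ f (c • Y) X σ = c * Bc β p l φ f Y X σ := by
  have e1 : b1 β p l φ f (c • Y) X = fun σ => c * b1 β p l φ f Y X σ := by
    funext σ; unfold b1; rw [← PSb_const_mul]; congr 1; funext u v s t
    simp only [smul_apply, map_smul, real_inner_smul_left,
      real_inner_smul_right]; ring
  have e2 : b2 β p l f (c • Y) = fun σ => c * b2 β p l f Y σ := by
    funext σ; unfold b2; rw [← PSb_const_mul]; congr 1; funext u v s t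
    simp only [smul_apply, real_inner_smul_left, real_inner_smul_right]; ring
  simp only [Bc_eq]
  rw [e1, e2, Cv_smul_right]
  unfold Gc
  rw [Gb_const_mul]
  ring

lemma Bc_add_X (Y X X' : E n →L[ℝ] E n) (σ : Z2 → Spin n) :
    Bc β p l φ f Y (X + X') σ = Bc β p l φ f Y X σ + Bc β p l φ f Y X' σ := by
  have e1 : b1 β p l φ f Y (X + X') = fun σ => b1 β p l φ f Y X σ + b1 β p l φ f Y X' σ := by
    funext σ; unfold b1; rw [← PSb_addK]; congr 1; funext u v s t
    simp only [add_apply, inner_add_left]; ring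
  have e2 : Jc β p l φ (X + X') = fun σ => Jc β p l φ X σ + Jc β p l φ X' σ := by
    funext σ; exact Jc_add β p l φ X X' σ
  simp only [Bc_eq]
  rw [e1, e2, Cv_add_leftK (continuous_W β p l) (continuous_Jc β p l φ X)
    (continuous_Jc β p l φ X') (continuous_b2 β p l f Y)]
  unfold Gc
  rw [Gb_add (continuous_W β p l) (continuous_b1 β p l φ f Y X) (continuous_b1 β p l φ f Y X')]
  ring

lemma Bc_smul_X (c : ℝ) (Y X : E n →L[ℝ] E n) (σ : Z2 → Spin n) :
    Bc β p l φ f Y (c • X) σ = c * Bc β p l φ f Y X σ := by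
  have e1 : b1 β p l φ f Y (c • X) = fun σ => c * b1 β p l φ f Y X σ := by
    funext σ; unfold b1; rw [← PSb_const_mul]; congr 1; funext u v s t
    simp only [smul_apply, real_inner_smul_left]; ring
  have e2 : Jc β p l φ (c • X) = fun σ => c * Jc β p l φ X σ := by
    funext σ; exact Jc_smul β p l φ c X σ
  simp only [Bc_eq]
  rw [e1, e2, Cv_smul_left]
  unfold Gc
  rw [Gb_const_mul]
  ring

lemma Bc_smul_f (c : ℝ) (Y X : E n →L[ℝ] E n) (σ : Z2 → Spin n) :
    Bc β p l φ (fun x => c * f x) Y X σ = c * Bc β p l φ f Y X σ := by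
  have e1 : b1 β p l φ (fun x => c * f x) Y X = fun σ => c * b1 β p l φ f Y X σ := by
    funext σ; unfold b1; rw [← PSb_const_mul]; congr 1; funext u v s t; ring
  have e2 : b2 β p l (fun x => c * f x) Y = fun σ => c * b2 β p l f Y σ := by
    funext σ; unfold b2; rw [← PSb_const_mul]; congr 1; funext u v s t; ring
  simp only [Bc_eq]
  rw [e1, e2, Cv_smul_right]
  unfold Gc
  rw [Gb_const_mul]
  ring

variable {f} in
lemma Bc_congr_f {f' : Z2 → ℝ} (h : ∀ x ∈ clo p l, f x = f' x) (Y X : E n →L[ℝ] E n)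
    (σ : Z2 → Spin n) : Bc β p l φ f Y X σ = Bc β p l φ f' Y X σ := by
  have e1 : b1 β p l φ f Y X = b1 β p l φ f' Y X := by
    funext σ; exact PS_congr fun u v _ hu hv => by simp only [h u hu, h v hv]
  have e2 : b2 β p l f Y = b2 β p l f' Y := by
    funext σ; exact PS_congr fun u v _ hu hv => by simp only [h u hu, h v hv]
  simp only [Bc_eq]
  rw [e1, e2]

/-- the diagonal term gives the stiffness -/
lemma Bc_diag (P : Pl n) (c d : ℝ) (σ : Z2 → Spin n) :
    Bc β p l φ (fun x => c * (φ x - d)) P.X P.X σ = -c * St β p l φ P.X σ := by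
  rw [Bc_smul_f]
  have e1 : b1 β p l φ (fun x => φ x - d) P.X P.X = fun σ => -1 * Dc β p l φ P.X σ := by
    funext σ; unfold b1 Dc; rw [← PSb_const_mul]; congr 1; funext u v s t
    have h1 : ⟪P.X (P.X s), t⟫ = -⟪P.X s, P.X t⟫ := P.X_anti _ _
    rw [h1]; ring
  have e2 : b2 (n := n) β p l (fun x => φ x - d) P.X = Jc β p l φ P.X := by
    funext σ; unfold b2 Jc; congr 1; funext u v s t
    have h1 : ⟪P.X s, t⟫ = -⟪s, P.X t⟫ := P.X_anti _ _
    rw [h1]; ring
  rw [Bc_eq, e1, e2]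
  unfold Gc
  rw [Gb_const_mul]
  unfold St Vc Gc Cv Vr
  have e3 : (fun σ => Jc β p l φ P.X σ * Jc β p l φ P.X σ) = fun σ => Jc β p l φ P.X σ ^ 2 := by
    funext σ; ring
  rw [e3]
  ring

end Bcl

/-! ### Constant rotations -/

lemma W_const (β : ℝ) (p : Z2) (l : ℤ) (U : E n ≃ₗᵢ[ℝ] E n) (σ : Z2 → Spin n) :
    W β p l (act (fun _ => U) σ) = W β p l σ := by
  unfold W PSb
  refine PS_congr fun u v _ _ _ => ?_
  simp only [coe_act, LinearIsometryEquiv.inner_map_map]

lemma Gc_const_act [NeZero n] (β : ℝ) (p : Z2) (l : ℤ) (U : E n ≃ₗᵢ[ℝ] E n)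
    {f : (Z2 → Spin n) → ℝ} (hf : Continuous f) (σ : Z2 → Spin n) :
    Gc β p l f (act (fun _ => U) σ) = Gc β p l (fun σ => f (act (fun _ => U) σ)) σ := by
  unfold Gc
  rw [Gb_act _ (continuous_W β p l) hf]
  simp only [W_const, sub_self, Real.exp_zero, mul_one]
  rw [Gb_const (continuous_W β p l)]
  simp

lemma GJ_const [NeZero n] (β : ℝ) (p : Z2) (l : ℤ) (φ : Z2 → ℝ) (U : E n ≃ₗᵢ[ℝ] E n)
    {X X' : E n →L[ℝ] E n} (h : ∀ x, X (U x) = U (X' x)) (σ : Z2 → Spin n) :
    Gc β p l (Jc β p l φ X) (act (fun _ => U) σ) = Gc β p l (Jc β p l φ X') σ := by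
  rw [Gc_const_act β p l U (continuous_Jc β p l φ X)]
  congr 1
  funext σ
  unfold Jc PSb
  refine PS_congr fun u v _ _ _ => ?_
  simp only [coe_act, h, LinearIsometryEquiv.inner_map_map]

/-! ### The cell lemma -/

/-- the generator conjugated by the corner rotation -/
noncomputable def Xp (T : Tri n) (ψ0 χ0 s1 s2 : ℝ) : E n →L[ℝ] E n :=
  (Real.cos ψ0 * Real.cos χ0) • T.pA.X + (-(s2 * (Real.cos ψ0 * Real.sin χ0))) • T.pB.X +
    (s1 * Real.sin ψ0) • T.pC.X

lemma cos_sign {s : ℝ} (hs : s = 1 ∨ s = -1) (x : ℝ) : Real.cos (s * x) = Real.cos x := by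
  rcases hs with rfl | rfl <;> simp

lemma sin_sign {s : ℝ} (hs : s = 1 ∨ s = -1) (x : ℝ) : Real.sin (s * x) = s * Real.sin x := by
  rcases hs with rfl | rfl <;> simp

lemma Xp_conj (T : Tri n) (ψ0 χ0 : ℝ) {s1 s2 : ℝ} (h1 : s1 = 1 ∨ s1 = -1)
    (h2 : s2 = 1 ∨ s2 = -1) (x : E n) :
    T.pA.X (((T.pC.rot (s2 * χ0)).trans (T.pB.rot (s1 * ψ0))) x) =
      ((T.pC.rot (s2 * χ0)).trans (T.pB.rot (s1 * ψ0))) (Xp T ψ0 χ0 s1 s2 x) := by
  simp only [LinearIsometryEquiv.trans_apply]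
  rw [T.A_rotB, T.A_rotC, T.pC.X_rot]
  simp only [Xp, add_apply, smul_apply,
    cos_sign h1, cos_sign h2, sin_sign h1, sin_sign h2, map_add, map_sub, map_smul]
  module

lemma Pl.X_opNorm_le (P : Pl n) : ‖P.X‖ ≤ 1 :=
  ContinuousLinearMap.opNorm_le_bound _ zero_le_one fun x => by
    rw [one_mul]; exact P.X_norm_le x

lemma Xp_norm_le (T : Tri n) (ψ0 χ0 : ℝ) {s1 s2 : ℝ} (h1 : s1 = 1 ∨ s1 = -1)
    (h2 : s2 = 1 ∨ s2 = -1) : ‖Xp T ψ0 χ0 s1 s2‖ ≤ 3 := by
  have key : ∀ (c : ℝ) (P : Pl n), |c| ≤ 1 → ‖c • P.X‖ ≤ 1 := by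
    intro c P hc
    rw [norm_smul, Real.norm_eq_abs]
    have := P.X_opNorm_le
    have h3 := norm_nonneg P.X
    have h4 := abs_nonneg c
    nlinarith
  have hs1 : |s1| = 1 := by rcases h1 with rfl | rfl <;> simp
  have hs2 : |s2| = 1 := by rcases h2 with rfl | rfl <;> simp
  have c1 := Real.abs_cos_le_one ψ0
  have c2 := Real.abs_cos_le_one χ0
  have c3 := Real.abs_sin_le_one ψ0
  have c4 := Real.abs_sin_le_one χ0
  have k1 := key (Real.cos ψ0 * Real.cos χ0) T.pA (by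
    rw [abs_mul]; exact mul_le_one₀ c1 (abs_nonneg _) c2)
  have k2 := key (-(s2 * (Real.cos ψ0 * Real.sin χ0))) T.pB (by
    rw [abs_neg, abs_mul, abs_mul, hs2, one_mul]; exact mul_le_one₀ c1 (abs_nonneg _) c4)
  have k3 := key (s1 * Real.sin ψ0) T.pC (by rw [abs_mul, hs1, one_mul]; exact c3)
  unfold Xp
  calc _ ≤ ‖(Real.cos ψ0 * Real.cos χ0) • T.pA.X +
        (-(s2 * (Real.cos ψ0 * Real.sin χ0))) • T.pB.X‖ + ‖(s1 * Real.sin ψ0) • T.pC.X‖ :=
        norm_add_le _ _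
    _ ≤ (‖(Real.cos ψ0 * Real.cos χ0) • T.pA.X‖ +
        ‖(-(s2 * (Real.cos ψ0 * Real.sin χ0))) • T.pB.X‖) + ‖(s1 * Real.sin ψ0) • T.pC.X‖ := by
        gcongr; exact norm_add_le _ _
    _ ≤ 3 := by linarith only [k1, k2, k3]

lemma hg_split (T : Tri n) (ψ χ : Z2 → ℝ) (p : Z2) (s1 s2 : ℝ) : ∃ P' : Pl n,
    P'.X = Real.cos (s2 * χ p) • T.pB.X + Real.sin (s2 * χ p) • T.pA.X ∧
    ∀ σ : Z2 → Spin n, act (hg T.pB T.pC (fun x => s1 * ψ x) (fun x => s2 * χ x)) σ =
      act (fun _ => (T.pC.rot (s2 * χ p)).trans (T.pB.rot (s1 * ψ p)))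
        (act (hg P' T.pC (fun x => s1 * (ψ x - ψ p)) (fun x => s2 * (χ x - χ p))) σ) := by
  obtain ⟨P', hP', h⟩ := T.exists_conj (s2 * χ p)
  refine ⟨P', hP', fun σ => ?_⟩
  funext x
  apply Subtype.ext
  simp only [coe_act, hg, LinearIsometryEquiv.trans_apply]
  have e1 : s2 * χ p + -(s2 * χ p) = 0 := by ring
  have e2 : s2 * χ p + s2 * (χ x - χ p) = s2 * χ x := by ring
  have e3 : s1 * ψ p + s1 * (ψ x - ψ p) = s1 * ψ x := by ring
  have h0 : ∀ y : E n, T.pC.rot 0 y = y := fun y => by rw [T.pC.rot_zero]; rfl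
  rw [← h, ← T.pC.rot_add, ← T.pC.rot_add, e1, e2, h0, ← T.pB.rot_add, e3]

lemma mm_approx (n : ℕ) [NeZero n] (β : ℝ) {l : ℤ} (hl : 0 < l) : ∃ C : ℝ, 0 ≤ C ∧
    ∀ (p : Z2) (φ : Z2 → ℝ), (∀ u v, Nb u v → |φ u - φ v| ≤ 1) →
    ∀ (T : Tri n) (ψ χ : Z2 → ℝ) (κ : ℝ), 0 ≤ κ → κ ≤ 1 →
    (∀ x ∈ clo p l, |ψ x - ψ p| ≤ κ) → (∀ x ∈ clo p l, |χ x - χ p| ≤ κ) →
    ∀ σ : Z2 → Spin n, ∀ s1 s2 : ℝ, (s1 = 1 ∨ s1 = -1) → (s2 = 1 ∨ s2 = -1) →
    |mm β p l φ T ψ χ s1 s2 σ -
      (Gc β p l (Jc β p l φ (Xp T (ψ p) (χ p) s1 s2)) σ +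
       s1 * (Real.cos (χ p) * Bc β p l φ (fun x => ψ x - ψ p) T.pB.X
          (Xp T (ψ p) (χ p) s1 s2) σ +
        s2 * Real.sin (χ p) * Bc β p l φ (fun x => ψ x - ψ p) T.pA.X
          (Xp T (ψ p) (χ p) s1 s2) σ) +
       s2 * Bc β p l φ (fun x => χ x - χ p) T.pC.X (Xp T (ψ p) (χ p) s1 s2) σ)| ≤ C * κ ^ 2 := by
  obtain ⟨C, hC, h⟩ := local_expansion n β hl
  refine ⟨C, hC, fun p φ hφ T ψ χ κ hκ0 hκ1 hψ hχ σ s1 s2 h1 h2 => ?_⟩
  obtain ⟨P', hP', hs⟩ := hg_split T ψ χ p s1 s2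
  have hs1 : |s1| = 1 := by rcases h1 with rfl | rfl <;> simp
  have hs2 : |s2| = 1 := by rcases h2 with rfl | rfl <;> simp
  have key := h p φ hφ P' T.pC (Xp T (ψ p) (χ p) s1 s2) (Xp_norm_le T _ _ h1 h2)
    (fun x => s1 * (ψ x - ψ p)) (fun x => s2 * (χ x - χ p)) κ hκ0 hκ1
    (fun x hx => by rw [abs_mul, hs1, one_mul]; exact hψ x hx)
    (fun x hx => by rw [abs_mul, hs2, one_mul]; exact hχ x hx) σ
  unfold mm
  rw [hs σ, GJ_const β p l φ _ (Xp_conj T (ψ p) (χ p) h1 h2)]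
  rw [Bc_smul_f, Bc_smul_f, hP', Bc_add_Y, Bc_smul_Y, Bc_smul_Y, cos_sign h2, sin_sign h2] at key
  convert key using 3

theorem cell_lemma (n : ℕ) [NeZero n] (β : ℝ) {l : ℤ} (hl : 0 < l) : ∃ C : ℝ, 0 ≤ C ∧
    ∀ (p : Z2) (v : ℝ × ℝ), |v.1| ≤ 1 → |v.2| ≤ 1 → ∀ (T : Tri n) (ψ χ : Z2 → ℝ) (κ lam : ℝ),
    0 ≤ κ → κ ≤ 1 → (∀ x ∈ clo p l, |ψ x - ψ p| ≤ κ) → (∀ x ∈ clo p l, |χ x - χ p| ≤ κ) →
    (ψ p = 0 ∨ ∀ x ∈ clo p l, χ x - χ p = lam * (lin v x - lin v p)) →
    ∀ σ : Z2 → Spin n,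
    |Aε β p l (lin v) T ψ χ σ + Aε β p l (lin v) T.cyc ψ χ σ +
      Aε β p l (lin v) T.cyc.cyc ψ χ σ +
      4 * lam * Real.sin (ψ p) * Tf β p l (lin v) T σ| ≤ C * κ ^ 2 := by
  obtain ⟨C, hC, h⟩ := mm_approx n β hl
  refine ⟨12 * C, by positivity, fun p v hv1 hv2 T ψ χ κ lam hκ0 hκ1 hψ hχ hlam σ => ?_⟩
  have hφ : ∀ u w, Nb u w → |lin v u - lin v w| ≤ 1 := by
    intro u w huw
    rcases huw with rfl | rfl
    · have : lin v u - lin v (u.1 + 1, u.2) = -v.1 := by unfold lin; push_cast; ring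
      rw [this, abs_neg]; exact hv1
    · have : lin v u - lin v (u.1, u.2 + 1) = -v.2 := by unfold lin; push_cast; ring
      rw [this, abs_neg]; exact hv2
  have one : (1 : ℝ) = 1 ∨ (1 : ℝ) = -1 := Or.inl rfl
  have mone : (-1 : ℝ) = 1 ∨ (-1 : ℝ) = -1 := Or.inr rfl
  -- one triple
  have tri : ∀ T : Tri n, |Aε β p l (lin v) T ψ χ σ -
      4 * (Real.sin (ψ p) * Bc β p l (lin v) (fun x => χ x - χ p) T.pC.X T.pC.X σ +
        Real.cos (ψ p) * Real.sin (χ p) * Real.cos (χ p) *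
          (Bc β p l (lin v) (fun x => ψ x - ψ p) T.pA.X T.pA.X σ -
            Bc β p l (lin v) (fun x => ψ x - ψ p) T.pB.X T.pB.X σ))| ≤ 4 * C * κ ^ 2 := by
    intro T
    have a1 := h p (lin v) hφ T ψ χ κ hκ0 hκ1 hψ hχ σ 1 1 one one
    have a2 := h p (lin v) hφ T ψ χ κ hκ0 hκ1 hψ hχ σ 1 (-1) one mone
    have a3 := h p (lin v) hφ T ψ χ κ hκ0 hκ1 hψ hχ σ (-1) 1 mone one
    have a4 := h p (lin v) hφ T ψ χ κ hκ0 hκ1 hψ hχ σ (-1) (-1) mone mone
    simp only [Xp, GJ_add, GJ_smul, Bc_add_X, Bc_smul_X] at a1 a2 a3 a4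
    rw [abs_le] at a1 a2 a3 a4 ⊢
    unfold Aε
    constructor
    · linarith
    · linarith
  have t1 := tri T
  have t2 := tri T.cyc
  have t3 := tri T.cyc.cyc
  simp only [Tri.cyc_pA, Tri.cyc_pB, Tri.cyc_pC] at t2 t3
  -- the diagonal terms
  have dg : ∀ P : Pl n, Real.sin (ψ p) * Bc β p l (lin v) (fun x => χ x - χ p) P.X P.X σ =
      -(lam * Real.sin (ψ p) * St β p l (lin v) P.X σ) := by
    intro P
    rcases hlam with h0 | h0
    · rw [h0]; simp
    · rw [Bc_congr_f β p l (lin v) h0, Bc_diag]; ring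
  rw [dg] at t1 t2 t3
  unfold Tf
  rw [abs_le] at t1 t2 t3 ⊢
  constructor
  · linarith only [t1, t2, t3]
  · linarith only [t1, t2, t3]

end Vale.Agent.P163
end
end

section

section

open MeasureTheory Filter Topology
open scoped RealInnerProductSpace

set_option linter.unusedSectionVars false

namespace Vale.Agent.P163

variable {n : ℕ}

/-! ### The worst case stiffness -/

/-- a triple exists -/
lemma exists_tri (hn : 3 ≤ n) : Nonempty (Tri n) := by
  have ho := (EuclideanSpace.basisFun (Fin n) ℝ).orthonormal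
  let i : Fin n := ⟨0, by omega⟩
  let j : Fin n := ⟨1, by omega⟩
  let k : Fin n := ⟨2, by omega⟩
  exact ⟨⟨EuclideanSpace.basisFun (Fin n) ℝ i, EuclideanSpace.basisFun (Fin n) ℝ j,
    EuclideanSpace.basisFun (Fin n) ℝ k, ho.1 i, ho.1 j, ho.1 k,
    ho.2 (by simp [i, j]), ho.2 (by simp [j, k]), ho.2 (by simp [i, k])⟩⟩

lemma coe_norm (s : Spin n) : ‖(s : E n)‖ = 1 := by simp

lemma lin_nb {v : ℝ × ℝ} (h1 : |v.1| ≤ 1) (h2 : |v.2| ≤ 1) {u w : Z2} (h : Nb u w) :
    |lin v u - lin v w| ≤ 1 := by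
  rcases h with rfl | rfl
  · have : lin v u - lin v (u.1 + 1, u.2) = -v.1 := by unfold lin; push_cast; ring
    rw [this, abs_neg]; exact h1
  · have : lin v u - lin v (u.1, u.2 + 1) = -v.2 := by unfold lin; push_cast; ring
    rw [this, abs_neg]; exact h2

lemma Dc_le {β : ℝ} (hβ : 0 ≤ β) (p : Z2) {l : ℤ} (hl : 0 ≤ l) {φ : Z2 → ℝ} {g : ℝ}
    (hφ : ∀ u w, Nb u w → u ∈ clo p l → w ∈ clo p l → |φ u - φ w| ≤ g)
    (P : Pl n) (σ : Z2 → Spin n) :
    Dc β p l φ P.X σ ≤ 2 * (l : ℝ) ^ 2 * (β * g ^ 2) := by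
  refine PS_le hl fun u w h hu hw => ?_
  have h1 := hφ u w h hu hw
  have h2 : (φ u - φ w) ^ 2 ≤ g ^ 2 := by
    rw [← sq_abs]
    exact pow_le_pow_left₀ (abs_nonneg _) h1 2
  have h3 : ⟪P.X (σ u : E n), P.X (σ w : E n)⟫ ≤ 1 := by
    have a := real_inner_le_norm (P.X (σ u : E n)) (P.X (σ w : E n))
    have b := P.X_norm_le (σ u : E n)
    have c := P.X_norm_le (σ w : E n)
    rw [coe_norm] at b c
    have d := norm_nonneg (P.X (σ u : E n))
    have e := norm_nonneg (P.X (σ w : E n))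
    nlinarith only [a, c, b, e]
  refine mul_le_mul_of_nonneg_left ?_ hβ
  calc (φ u - φ w) ^ 2 * ⟪P.X (σ u : E n), P.X (σ w : E n)⟫ ≤ (φ u - φ w) ^ 2 * 1 :=
        mul_le_mul_of_nonneg_left h3 (sq_nonneg _)
    _ ≤ g ^ 2 := by rw [mul_one]; exact h2

lemma St_le [NeZero n] {β : ℝ} (hβ : 0 ≤ β) (p : Z2) {l : ℤ} (hl : 0 ≤ l) {φ : Z2 → ℝ} {g : ℝ}
    (hφ : ∀ u w, Nb u w → u ∈ clo p l → w ∈ clo p l → |φ u - φ w| ≤ g)
    (P : Pl n) (σ : Z2 → Spin n) :
    St β p l φ P.X σ ≤ 2 * (l : ℝ) ^ 2 * (β * g ^ 2) := by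
  have h1 : Gc β p l (Dc β p l φ P.X) σ ≤ 2 * (l : ℝ) ^ 2 * (β * g ^ 2) := by
    have := Gb_mono (D := inn p l) (continuous_W β p l) (continuous_Dc β p l φ P.X)
      (continuous_const (y := 2 * (l : ℝ) ^ 2 * (β * g ^ 2))) (fun σ => Dc_le hβ p hl hφ P σ) σ
    rwa [Gb_const (continuous_W β p l)] at this
  have h2 : 0 ≤ Vc β p l (Jc β p l φ P.X) σ :=
    Vr_nonneg (continuous_W β p l) (continuous_Jc β p l φ P.X) σ
  unfold St
  linarith only [h1, h2]

lemma Tf_le [NeZero n] {β : ℝ} (hβ : 0 ≤ β) (p : Z2) {l : ℤ} (hl : 0 ≤ l) {φ : Z2 → ℝ} {g : ℝ}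
    (hφ : ∀ u w, Nb u w → u ∈ clo p l → w ∈ clo p l → |φ u - φ w| ≤ g)
    (T : Tri n) (σ : Z2 → Spin n) :
    Tf β p l φ T σ ≤ 6 * (l : ℝ) ^ 2 * (β * g ^ 2) := by
  have h1 := St_le hβ p hl hφ T.pA σ
  have h2 := St_le hβ p hl hφ T.pB σ
  have h3 := St_le hβ p hl hφ T.pC σ
  unfold Tf
  linarith

lemma tt_bdd [NeZero n] {β : ℝ} (hβ : 0 ≤ β) {l : ℤ} (hl : 0 < l) :
    BddAbove {r : ℝ | ∃ (p : Z2) (v : ℝ × ℝ) (T : Tri n) (σ : Z2 → Spin n),
    |v.1| ≤ 1 ∧ |v.2| ≤ 1 ∧ r = Tf β p l (lin v) T σ / (l : ℝ) ^ 2} := by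
  refine ⟨6 * β, ?_⟩
  rintro r ⟨p, v, T, σ, h1, h2, rfl⟩
  have hl' : (0 : ℝ) < l := by exact_mod_cast hl
  rw [div_le_iff₀ (by positivity)]
  have := Tf_le hβ p hl.le (g := 1) (fun u w h _ _ => lin_nb h1 h2 h) T σ
  linarith

theorem Tf_le_tt (hn : 3 ≤ n) {β : ℝ} (hβ : 0 ≤ β) {l : ℤ} (hl : 0 < l) (p : Z2) {v : ℝ × ℝ}
    (h1 : |v.1| ≤ 1) (h2 : |v.2| ≤ 1) (T : Tri n) (σ : Z2 → Spin n) :
    Tf β p l (lin v) T σ ≤ tt n β l * (l : ℝ) ^ 2 := by
  have : NeZero n := ⟨by omega⟩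
  have hl' : (0 : ℝ) < l := by exact_mod_cast hl
  rw [← div_le_iff₀ (by positivity)]
  exact le_csSup (tt_bdd hβ hl) ⟨p, v, T, σ, h1, h2, rfl⟩

lemma exists_near (hn : 3 ≤ n) {β : ℝ} {l : ℤ} (hl : 0 < l) {η : ℝ} (hη : 0 < η) :
    ∃ (p : Z2) (v : ℝ × ℝ) (T : Tri n) (σ : Z2 → Spin n), |v.1| ≤ 1 ∧ |v.2| ≤ 1 ∧
      (tt n β l - η) * (l : ℝ) ^ 2 < Tf β p l (lin v) T σ := by
  have : NeZero n := ⟨by omega⟩
  obtain ⟨T0⟩ := exists_tri hn
  obtain ⟨s0⟩ : Nonempty (Spin n) := spin_nonempty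
  have hne : {r : ℝ | ∃ (p : Z2) (v : ℝ × ℝ) (T : Tri n) (σ : Z2 → Spin n),
      |v.1| ≤ 1 ∧ |v.2| ≤ 1 ∧ r = Tf β p l (lin v) T σ / (l : ℝ) ^ 2}.Nonempty :=
    ⟨_, (0, 0), (0, 0), T0, fun _ => s0, by simp, by simp, rfl⟩
  obtain ⟨r, ⟨p, v, T, σ, h1, h2, rfl⟩, hr⟩ :=
    exists_lt_of_lt_csSup hne (show tt n β l - η < tt n β l by linarith only [hη])
  refine ⟨p, v, T, σ, h1, h2, ?_⟩
  have hl' : (0 : ℝ) < l := by exact_mod_cast hl
  rwa [lt_div_iff₀ (by positivity)] at hr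

/-! ### Decomposition -/

lemma Tf_decomp [NeZero n] (β : ℝ) (p : Z2) {l N : ℤ} (hl : 0 < l) (hN : 0 ≤ N) (φ : Z2 → ℝ)
    (T : Tri n) (σ : Z2 → Spin n) :
    Tf β p (N * l) φ T σ = ∑ k ∈ cells N, Gc β p (N * l) (Tf β (corner p l k) l φ T) σ -
      (Vc β p (N * l) (jj β p l N φ T.pA.X) σ + Vc β p (N * l) (jj β p l N φ T.pB.X) σ +
        Vc β p (N * l) (jj β p l N φ T.pC.X) σ) := by
  have e : ∀ k, Gc β p (N * l) (Tf β (corner p l k) l φ T) σ =
      Gc β p (N * l) (St β (corner p l k) l φ T.pA.X) σ +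
      Gc β p (N * l) (St β (corner p l k) l φ T.pB.X) σ +
      Gc β p (N * l) (St β (corner p l k) l φ T.pC.X) σ := by
    intro k
    have c1 := continuous_St (n := n) β (corner p l k) l φ T.pA.X
    have c2 := continuous_St (n := n) β (corner p l k) l φ T.pB.X
    have c3 := continuous_St (n := n) β (corner p l k) l φ T.pC.X
    have c12 : Continuous fun σ => St β (corner p l k) l φ T.pA.X σ +
      St β (corner p l k) l φ T.pB.X σ := c1.add c2
    have h1 := Gb_add (D := inn p (N * l)) (continuous_W β p (N * l)) c12 c3 σ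
    have h2 := Gb_add (D := inn p (N * l)) (continuous_W β p (N * l)) c1 c2 σ
    unfold Gc
    rw [← h2, ← h1]
    rfl
  rw [Finset.sum_congr rfl fun k _ => e k, Finset.sum_add_distrib, Finset.sum_add_distrib]
  unfold Tf
  rw [St_decomp β p hl hN, St_decomp β p hl hN, St_decomp β p hl hN]
  ring

lemma Gc_Tf_le (hn : 3 ≤ n) {β : ℝ} (hβ : 0 ≤ β) (p p' : Z2) {l : ℤ} (hl : 0 < l) (L : ℤ)
    {v : ℝ × ℝ} (h1 : |v.1| ≤ 1) (h2 : |v.2| ≤ 1) (T : Tri n) (σ : Z2 → Spin n) :
    Gc β p L (Tf β p' l (lin v) T) σ ≤ tt n β l * (l : ℝ) ^ 2 := by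
  have : NeZero n := ⟨by omega⟩
  have := Gb_mono (D := inn p L) (continuous_W β p L) (continuous_Tf β p' l (lin v) T)
    (continuous_const (y := tt n β l * (l : ℝ) ^ 2)) (fun σ => Tf_le_tt hn hβ hl p' h1 h2 T σ) σ
  rwa [Gb_const (continuous_W β p L)] at this

theorem tt_mono (hn : 3 ≤ n) {β : ℝ} (hβ : 0 ≤ β) {l N : ℤ} (hl : 0 < l) (hN : 0 < N) :
    tt n β (N * l) ≤ tt n β l := by
  have : NeZero n := ⟨by omega⟩
  have hNl : 0 < N * l := mul_pos hN hl
  have hl' : (0 : ℝ) < l := by exact_mod_cast hl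
  have hN' : (0 : ℝ) < N := by exact_mod_cast hN
  refine le_of_forall_pos_le_add fun η hη => ?_
  obtain ⟨p, v, T, σ, h1, h2, h⟩ := exists_near (β := β) hn hNl hη
  have hd := Tf_decomp β p hl hN.le (lin v) T σ
  have v1 := Vr_nonneg (D := inn p (N * l)) (continuous_W β p (N * l))
    (continuous_jj β p l N (lin v) T.pA.X) σ
  have v2 := Vr_nonneg (D := inn p (N * l)) (continuous_W β p (N * l))
    (continuous_jj β p l N (lin v) T.pB.X) σ
  have v3 := Vr_nonneg (D := inn p (N * l)) (continuous_W β p (N * l))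
    (continuous_jj β p l N (lin v) T.pC.X) σ
  have hs : ∑ k ∈ cells N, Gc β p (N * l) (Tf β (corner p l k) l (lin v) T) σ ≤
      ∑ _k ∈ cells N, tt n β l * (l : ℝ) ^ 2 :=
    Finset.sum_le_sum fun k _ => Gc_Tf_le hn hβ p _ hl _ h1 h2 T σ
  rw [Finset.sum_const, nsmul_eq_mul, card_cells hN.le] at hs
  have h3 : (tt n β (N * l) - η) * ((N * l : ℤ) : ℝ) ^ 2 ≤ tt n β l * ((N * l : ℤ) : ℝ) ^ 2 := by
    push_cast
    unfold Vc at hd
    push_cast at h
    linarith
  have h4 : (0 : ℝ) < ((N * l : ℤ) : ℝ) ^ 2 := by push_cast; positivity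
  have := le_of_mul_le_mul_right h3 h4
  linarith only [this]

/-! ### Test functions -/

/-- distance to the boundary of the box with corner `p` and side `L` -/
noncomputable def db (p : Z2) (L : ℤ) (x : Z2) : ℝ :=
  min (min ((x.1 : ℝ) - p.1) (p.1 + L - x.1)) (min ((x.2 : ℝ) - p.2) (p.2 + L - x.2))

lemma db_lip (p : Z2) (L : ℤ) {u w : Z2} {r : ℝ} (h1 : |(u.1 : ℝ) - w.1| ≤ r)
    (h2 : |(u.2 : ℝ) - w.2| ≤ r) : |db p L u - db p L w| ≤ r := by
  unfold db
  refine (abs_min_sub_min_le_max _ _ _ _).trans (max_le ?_ ?_)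
  · refine (abs_min_sub_min_le_max _ _ _ _).trans (max_le ?_ ?_)
    · have : ((u.1 : ℝ) - p.1) - (w.1 - p.1) = u.1 - w.1 := by ring
      rw [this]; exact h1
    · have : ((p.1 : ℝ) + L - u.1) - (p.1 + L - w.1) = -(u.1 - w.1) := by ring
      rw [this, abs_neg]; exact h1
  · refine (abs_min_sub_min_le_max _ _ _ _).trans (max_le ?_ ?_)
    · have : ((u.2 : ℝ) - p.2) - (w.2 - p.2) = u.2 - w.2 := by ring
      rw [this]; exact h2
    · have : ((p.2 : ℝ) + L - u.2) - (p.2 + L - w.2) = -(u.2 - w.2) := by ring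
      rw [this, abs_neg]; exact h2

lemma db_le_half (p : Z2) (L : ℤ) (x : Z2) : db p L x ≤ L / 2 := by
  unfold db
  refine (min_le_left _ _).trans ?_
  rcases le_total ((x.1 : ℝ) - p.1) (p.1 + L - x.1) with h | h
  · refine (min_le_left _ _).trans ?_; linarith
  · refine (min_le_right _ _).trans ?_; linarith

lemma db_nonpos {p : Z2} {L : ℤ} {x : Z2} (h : x ∉ inn p L) : db p L x ≤ 0 := by
  by_contra hc
  push Not at hc
  apply h
  unfold db at hc
  rw [lt_min_iff, lt_min_iff, lt_min_iff] at hc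
  obtain ⟨⟨h1, h2⟩, h3, h4⟩ := hc
  rw [mem_inn]
  have a1 : (p.1 : ℝ) < x.1 := by linarith
  have a2 : (x.1 : ℝ) < p.1 + L := by linarith
  have a3 : (p.2 : ℝ) < x.2 := by linarith
  have a4 : (x.2 : ℝ) < p.2 + L := by linarith
  refine ⟨⟨?_, ?_⟩, ?_, ?_⟩
  · exact_mod_cast a1
  · exact_mod_cast a2
  · exact_mod_cast a3
  · exact_mod_cast a4

/-- the angle of the first rotation -/
noncomputable def psiF (p : Z2) (l L : ℤ) (x : Z2) : ℝ := max 0 (4 * (db p L x - l) / L - 1)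

/-- cutoff -/
noncomputable def kapF (p : Z2) (L : ℤ) (x : Z2) : ℝ := max 0 (min 1 (4 * db p L x / L))

/-- the angle of the second rotation -/
noncomputable def chiF (p : Z2) (L : ℤ) (v : ℝ × ℝ) (x : Z2) : ℝ :=
  (lin v x - lin v p) / L * kapF p L x

section test
variable {p : Z2} {l L : ℤ} {v : ℝ × ℝ} {u w : Z2} {r : ℝ}

lemma psiF_lip (hL : 0 < L) (h : |db p L u - db p L w| ≤ r) :
    |psiF p l L u - psiF p l L w| ≤ 4 * r / L := by
  have hL' : (0 : ℝ) < L := by exact_mod_cast hL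
  unfold psiF
  refine (abs_max_sub_max_le_max _ _ _ _).trans (max_le ?_ ?_)
  · rw [sub_self, abs_zero]
    have : 0 ≤ r := (abs_nonneg _).trans h
    positivity
  · have : (4 * (db p L u - l) / L - 1) - (4 * (db p L w - l) / L - 1) =
        4 * (db p L u - db p L w) / L := by ring
    rw [this, abs_div, abs_mul, abs_of_pos hL', abs_of_pos (show (0 : ℝ) < 4 by norm_num)]
    gcongr

lemma psiF_nonneg : 0 ≤ psiF p l L u := le_max_left _ _

lemma psiF_le_one (hl : 0 < l) (hL : 0 < L) : psiF p l L u ≤ 1 := by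
  have hL' : (0 : ℝ) < L := by exact_mod_cast hL
  have hl' : (0 : ℝ) < l := by exact_mod_cast hl
  unfold psiF
  refine max_le zero_le_one ?_
  have h := db_le_half p L u
  have : 4 * (db p L u - l) / L ≤ 2 := by
    rw [div_le_iff₀ hL']; linarith only [hl', h]
  linarith only [this]

lemma psiF_zero (hl : 0 < l) (hL : 0 < L) (h : u ∉ inn p L) : psiF p l L u = 0 := by
  have hL' : (0 : ℝ) < L := by exact_mod_cast hL
  have hl' : (0 : ℝ) < l := by exact_mod_cast hl
  unfold psiF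
  apply max_eq_left
  have h := db_nonpos h
  have : 4 * (db p L u - l) / L ≤ 0 := by
    rw [div_le_iff₀ hL']; linarith
  linarith only [this]

lemma kapF_lip (hL : 0 < L) (h : |db p L u - db p L w| ≤ r) :
    |kapF p L u - kapF p L w| ≤ 4 * r / L := by
  have hL' : (0 : ℝ) < L := by exact_mod_cast hL
  have hr : 0 ≤ r := (abs_nonneg _).trans h
  unfold kapF
  refine (abs_max_sub_max_le_max _ _ _ _).trans (max_le ?_ ?_)
  · rw [sub_self, abs_zero]; positivity
  · refine (abs_min_sub_min_le_max _ _ _ _).trans (max_le ?_ ?_)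
    · rw [sub_self, abs_zero]; positivity
    · have : 4 * db p L u / L - 4 * db p L w / L = 4 * (db p L u - db p L w) / L := by ring
      rw [this, abs_div, abs_mul, abs_of_pos hL', abs_of_pos (show (0 : ℝ) < 4 by norm_num)]
      gcongr

lemma kapF_nonneg : 0 ≤ kapF p L u := le_max_left _ _

lemma kapF_le_one : kapF p L u ≤ 1 := max_le zero_le_one (min_le_left _ _)

lemma kapF_zero (hL : 0 < L) (h : u ∉ inn p L) : kapF p L u = 0 := by
  have hL' : (0 : ℝ) < L := by exact_mod_cast hL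
  unfold kapF
  apply max_eq_left
  refine (min_le_right _ _).trans ?_
  have h := db_nonpos h
  rw [div_le_iff₀ hL']; linarith only [h]

lemma kapF_one (hL : 0 < L) (h : (L : ℝ) / 4 ≤ db p L u) : kapF p L u = 1 := by
  have hL' : (0 : ℝ) < L := by exact_mod_cast hL
  unfold kapF
  have : (1 : ℝ) ≤ 4 * db p L u / L := by
    rw [le_div_iff₀ hL']; linarith
  rw [min_eq_left this]
  exact max_eq_right zero_le_one

lemma chiF_zero (hL : 0 < L) (h : u ∉ inn p L) : chiF p L v u = 0 := by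
  unfold chiF; rw [kapF_zero hL h, mul_zero]

lemma lin_sub_le (h1 : |v.1| ≤ 1) (h2 : |v.2| ≤ 1) (hu1 : |(u.1 : ℝ) - w.1| ≤ r)
    (hu2 : |(u.2 : ℝ) - w.2| ≤ r) : |lin v u - lin v w| ≤ 2 * r := by
  have : lin v u - lin v w = v.1 * (u.1 - w.1) + v.2 * (u.2 - w.2) := by unfold lin; ring
  rw [this]
  have a := abs_add_le (v.1 * ((u.1 : ℝ) - w.1)) (v.2 * (u.2 - w.2))
  rw [abs_mul, abs_mul] at a
  have b := abs_nonneg ((u.1 : ℝ) - w.1)
  have c := abs_nonneg ((u.2 : ℝ) - w.2)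
  nlinarith only [hu1, hu2, a, h1, b, h2, c]

lemma chiF_lip (hL : 0 < L) (h1 : |v.1| ≤ 1) (h2 : |v.2| ≤ 1) (hw : w ∈ clo p L)
    (hu1 : |(u.1 : ℝ) - w.1| ≤ r) (hu2 : |(u.2 : ℝ) - w.2| ≤ r) :
    |chiF p L v u - chiF p L v w| ≤ 10 * r / L := by
  have hL' : (0 : ℝ) < L := by exact_mod_cast hL
  have hr : 0 ≤ r := (abs_nonneg _).trans hu1
  have hk := kapF_lip hL (db_lip p L hu1 hu2)
  have hlin := lin_sub_le h1 h2 hu1 hu2
  have hk0 : 0 ≤ kapF p L u := kapF_nonneg
  have hk1 : kapF p L u ≤ 1 := kapF_le_one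
  have hA : |lin v w - lin v p| ≤ 2 * L := by
    rw [mem_clo] at hw
    obtain ⟨⟨a1, a2⟩, a3, a4⟩ := hw
    refine lin_sub_le h1 h2 ?_ ?_
    · rw [abs_of_nonneg (by have : (p.1 : ℝ) ≤ w.1 := by exact_mod_cast a1
                            linarith only [this])]
      have : (w.1 : ℝ) ≤ p.1 + L := by exact_mod_cast a2
      linarith only [this]
    · rw [abs_of_nonneg (by have : (p.2 : ℝ) ≤ w.2 := by exact_mod_cast a3
                            linarith only [this])]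
      have : (w.2 : ℝ) ≤ p.2 + L := by exact_mod_cast a4
      linarith only [this]
  have e : chiF p L v u - chiF p L v w = (lin v u - lin v w) / L * kapF p L u +
      (lin v w - lin v p) / L * (kapF p L u - kapF p L w) := by
    unfold chiF; ring
  rw [e]
  have t1 : |(lin v u - lin v w) / L * kapF p L u| ≤ 2 * r / L := by
    rw [abs_mul, abs_div, abs_of_pos hL', abs_of_nonneg hk0]
    calc |lin v u - lin v w| / L * kapF p L u ≤ |lin v u - lin v w| / L * 1 := by
          (clear * - hk1 hL; gcongr)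
      _ ≤ 2 * r / L := by rw [mul_one]; (clear * - hlin hL; gcongr)
  have t2 : |(lin v w - lin v p) / L * (kapF p L u - kapF p L w)| ≤ 2 * (4 * r / L) := by
    rw [abs_mul, abs_div, abs_of_pos hL']
    have : |lin v w - lin v p| / L ≤ 2 := by rw [div_le_iff₀ hL']; exact hA
    (clear * - this hk; gcongr)
  calc _ ≤ _ := abs_add_le _ _
    _ ≤ 2 * r / L + 2 * (4 * r / L) := add_le_add t1 t2
    _ = 10 * r / L := by ring

lemma chiF_affine (hL : 0 < L) (hpos : 0 < psiF p l L w)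
    (h : |db p L u - db p L w| ≤ l) :
    chiF p L v u - chiF p L v w = 1 / L * (lin v u - lin v w) := by
  have hL' : (0 : ℝ) < L := by exact_mod_cast hL
  have hl' : (0 : ℝ) ≤ l := (abs_nonneg _).trans h
  have hw : (L : ℝ) / 4 < db p L w - l := by
    unfold psiF at hpos
    rcases lt_max_iff.1 hpos with h0 | h0
    · exact absurd h0 (lt_irrefl _)
    · have : 1 < 4 * (db p L w - l) / L := by linarith only [h0]
      rw [lt_div_iff₀ hL'] at this
      linarith only [this]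
  have hu : (L : ℝ) / 4 ≤ db p L u := by
    have := (abs_le.1 h).1
    linarith only [hw, this]
  unfold chiF
  rw [kapF_one hL hu, kapF_one hL (by linarith only [hl', hw])]
  ring

end test

end Vale.Agent.P163
end
end

section

section

open MeasureTheory Filter Topology
open scoped RealInnerProductSpace

set_option linter.unusedSectionVars false

namespace Vale.Agent.P163

variable {n : ℕ}

lemma sum_sin_psi (p : Z2) {l m : ℤ} (hl : 0 < l) (hm : 2 ≤ m) :
    (8 * m : ℝ) ^ 2 / 128 ≤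
      ∑ k ∈ cells (8 * m), Real.sin (psiF p l (8 * m * l) (corner p l k)) := by
  have hm' : (2 : ℝ) ≤ m := by exact_mod_cast hm
  have hl' : (0 : ℝ) < l := by exact_mod_cast hl
  have hL : 0 < 8 * m * l := by positivity
  have hLr : ((8 * m * l : ℤ) : ℝ) = 8 * m * l := by push_cast; ring
  have hL' : (0 : ℝ) < 8 * m * l := by positivity
  have hnn : ∀ k ∈ cells (8 * m), 0 ≤ Real.sin (psiF p l (8 * m * l) (corner p l k)) := by
    intro k _
    have h1 : psiF p l (8 * m * l) (corner p l k) ≤ 1 := psiF_le_one hl hL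
    exact Real.sin_nonneg_of_nonneg_of_le_pi psiF_nonneg (by linarith only [h1, Real.pi_gt_three])
  let S : Finset Z2 := Finset.Ico (3 * m) (5 * m) ×ˢ Finset.Ico (3 * m) (5 * m)
  have hSmem : ∀ k, k ∈ S ↔ (3 * m ≤ k.1 ∧ k.1 < 5 * m) ∧ (3 * m ≤ k.2 ∧ k.2 < 5 * m) := by
    intro k; simp only [Finset.mem_product, Finset.mem_Ico, S]
  have hS : S ⊆ cells (8 * m) := by
    intro k hk
    rw [hSmem] at hk
    rw [mem_cells]
    omega
  have hcard : (S.card : ℝ) = (2 * m : ℝ) ^ 2 := by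
    have h1 : 5 * m = 3 * m + 2 * m := by ring
    have := card_plaq (p := (3 * m, 3 * m)) (l := 2 * m) (by omega)
    unfold plaq at this
    simp only [← h1] at this
    rw [this]; push_cast; ring
  have hlow : ∀ k ∈ S, (1 : ℝ) / 8 ≤ Real.sin (psiF p l (8 * m * l) (corner p l k)) := by
    intro k hk
    rw [hSmem] at hk
    obtain ⟨⟨k1, k2⟩, k3, k4⟩ := hk
    have r1 : (3 * m : ℝ) ≤ k.1 := by exact_mod_cast k1
    have r2 : (k.1 : ℝ) < 5 * m := by exact_mod_cast k2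
    have r3 : (3 * m : ℝ) ≤ k.2 := by exact_mod_cast k3
    have r4 : (k.2 : ℝ) < 5 * m := by exact_mod_cast k4
    have hd : 3 * m * l ≤ db p (8 * m * l) (corner p l k) := by
      unfold db corner
      push_cast
      rw [le_min_iff, le_min_iff, le_min_iff]
      refine ⟨⟨?_, ?_⟩, ?_, ?_⟩ <;> nlinarith only [hl', r1, r2, r3, r4]
    have hpsi : (1 : ℝ) / 4 ≤ psiF p l (8 * m * l) (corner p l k) := by
      unfold psiF
      refine le_max_of_le_right ?_
      rw [hLr]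
      have : (5 : ℝ) / 4 ≤ 4 * (db p (8 * m * l) (corner p l k) - l) / (8 * m * l) := by
        rw [le_div_iff₀ hL']
        nlinarith only [hd, hm', hl']
      linarith only [this]
    have hle : psiF p l (8 * m * l) (corner p l k) ≤ 1 := psiF_le_one hl hL
    have h2 := Real.mul_le_sin (x := psiF p l (8 * m * l) (corner p l k)) (by linarith only [hpsi])
      (by linarith only [hle, Real.pi_gt_three])
    have h3 : (1 : ℝ) / 2 ≤ 2 / Real.pi := by
      rw [div_le_div_iff₀ (by norm_num) Real.pi_pos]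
      linarith only [Real.pi_le_four]
    nlinarith only [hpsi, h2, h3]
  calc (8 * m : ℝ) ^ 2 / 128 = ∑ _k ∈ S, (1 : ℝ) / 8 := by
        rw [Finset.sum_const, nsmul_eq_mul, hcard]; ring
    _ ≤ ∑ k ∈ S, Real.sin (psiF p l (8 * m * l) (corner p l k)) := Finset.sum_le_sum hlow
    _ ≤ _ := Finset.sum_le_sum_of_subset_of_nonneg hS fun k hk _ => hnn k hk

lemma nb_abs {u w : Z2} (h : Nb u w) : |(u.1 : ℝ) - w.1| ≤ 1 ∧ |(u.2 : ℝ) - w.2| ≤ 1 := by
  rcases h with rfl | rfl <;> constructor <;> push_cast <;> simp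

/-- rigidity for the test rotations -/
lemma rigid_test [NeZero n] {β : ℝ} (hβ : 0 ≤ β) (p : Z2) {l L : ℤ} (hl : 0 < l) (hL : 0 < L)
    {v : ℝ × ℝ} (hv1 : |v.1| ≤ 1) (hv2 : |v.2| ≤ 1) (P Q : Pl n) {s1 s2 : ℝ}
    (h1 : s1 = 1 ∨ s1 = -1) (h2 : s2 = 1 ∨ s2 = -1) {j : (Z2 → Spin n) → ℝ}
    (hj : Continuous j) (σ : Z2 → Spin n) :
    |Gc β p L (fun σ => j (act (hg P Q (fun x => s1 * psiF p l L x)
      (fun x => s2 * chiF p L v x)) σ)) σ - Gc β p L j σ| ≤
      √(Vc β p L j σ * Real.exp (8000 * β)) := by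
  have hL' : (0 : ℝ) < L := by exact_mod_cast hL
  have hs1 : s1 ^ 2 = 1 := by rcases h1 with rfl | rfl <;> norm_num
  have hs2 : s2 ^ 2 = 1 := by rcases h2 with rfl | rfl <;> norm_num
  have z1 : ∀ x ∉ inn p L, s1 * psiF p l L x = 0 := fun x hx => by
    rw [psiF_zero hl hL hx, mul_zero]
  have z2 : ∀ x ∉ inn p L, s2 * chiF p L v x = 0 := fun x hx => by
    rw [chiF_zero hL hx, mul_zero]
  have hsupp : SuppIn (inn p L) (hg P Q (fun x => s1 * psiF p l L x)
      (fun x => s2 * chiF p L v x)) := by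
    intro x hx
    unfold hg
    simp only [z1 x hx, z2 x hx, Pl.rot_zero]
    rfl
  have m1 : PS p L (fun u w => (s1 * psiF p l L u - s1 * psiF p l L w) ^ 2) ≤ 200 := by
    have : PS p L (fun u w => (s1 * psiF p l L u - s1 * psiF p l L w) ^ 2) ≤
        2 * (L : ℝ) ^ 2 * (10 / L) ^ 2 := by
      refine PS_le hL.le fun u w huw _ _ => ?_
      have e : (s1 * psiF p l L u - s1 * psiF p l L w) ^ 2 =
          (psiF p l L u - psiF p l L w) ^ 2 := by
        have : (s1 * psiF p l L u - s1 * psiF p l L w) ^ 2 =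
          s1 ^ 2 * (psiF p l L u - psiF p l L w) ^ 2 := by ring
        rw [this, hs1, one_mul]
      rw [e, ← sq_abs]
      have hlip : |psiF p l L u - psiF p l L w| ≤ 4 * 1 / L :=
        psiF_lip hL (db_lip p L (nb_abs huw).1 (nb_abs huw).2)
      have : |psiF p l L u - psiF p l L w| ≤ 10 / L := hlip.trans (by gcongr; norm_num)
      exact pow_le_pow_left₀ (abs_nonneg _) this 2
    refine this.trans (le_of_eq ?_)
    field_simp
    norm_num
  have m2 : PS p L (fun u w => (s2 * chiF p L v u - s2 * chiF p L v w) ^ 2) ≤ 200 := by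
    have : PS p L (fun u w => (s2 * chiF p L v u - s2 * chiF p L v w) ^ 2) ≤
        2 * (L : ℝ) ^ 2 * (10 / L) ^ 2 := by
      refine PS_le hL.le fun u w huw _ hw => ?_
      have e : (s2 * chiF p L v u - s2 * chiF p L v w) ^ 2 =
          (chiF p L v u - chiF p L v w) ^ 2 := by
        have : (s2 * chiF p L v u - s2 * chiF p L v w) ^ 2 =
          s2 ^ 2 * (chiF p L v u - chiF p L v w) ^ 2 := by ring
        rw [this, hs2, one_mul]
      rw [e, ← sq_abs]
      have hlip : |chiF p L v u - chiF p L v w| ≤ 10 * 1 / L :=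
        chiF_lip hL hv1 hv2 hw (nb_abs huw).1 (nb_abs huw).2
      rw [mul_one] at hlip
      exact pow_le_pow_left₀ (abs_nonneg _) hlip 2
    refine this.trans (le_of_eq ?_)
    field_simp
    norm_num
  have hr := rigidity hsupp (continuous_W β p L) hj σ
  have hm := moment_bound hβ p L P Q z1 z2 m1 m2 σ
  have hV : 0 ≤ Vc β p L j σ := Vr_nonneg (continuous_W β p L) hj σ
  apply Real.abs_le_sqrt
  refine hr.trans ?_
  refine mul_le_mul_of_nonneg_left ?_ hV
  have e : 40 * β * 200 = 8000 * β := by ring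
  rw [e] at hm
  exact hm

lemma continuous_mm [NeZero n] (β : ℝ) (p : Z2) (l : ℤ) (φ : Z2 → ℝ) (T : Tri n)
    (ψ χ : Z2 → ℝ) (s1 s2 : ℝ) : Continuous (mm β p l φ T ψ χ s1 s2) := by
  unfold mm
  exact (continuous_Gc β p l (continuous_Jc β p l φ _)).comp (continuous_act _)

lemma continuous_Aε [NeZero n] (β : ℝ) (p : Z2) (l : ℤ) (φ : Z2 → ℝ) (T : Tri n)
    (ψ χ : Z2 → ℝ) : Continuous (Aε β p l φ T ψ χ) := by
  unfold Aε
  exact (((continuous_mm β p l φ T ψ χ 1 1).sub (continuous_mm β p l φ T ψ χ 1 (-1))).sub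
    (continuous_mm β p l φ T ψ χ (-1) 1)).add (continuous_mm β p l φ T ψ χ (-1) (-1))

lemma Gb_alt4 {I : Type} [DecidableEq I] [Countable I] [NeZero n] {D : Finset I}
    {H f1 f2 f3 f4 : (I → Spin n) → ℝ} (hH : Continuous H) (h1 : Continuous f1)
    (h2 : Continuous f2) (h3 : Continuous f3) (h4 : Continuous f4) (σ : I → Spin n) :
    Gb D H (fun σ => f1 σ - f2 σ - f3 σ + f4 σ) σ =
      Gb D H f1 σ - Gb D H f2 σ - Gb D H f3 σ + Gb D H f4 σ := by
  have c12 : Continuous fun σ => f1 σ - f2 σ := h1.sub h2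
  have c123 : Continuous fun σ => f1 σ - f2 σ - f3 σ := c12.sub h3
  rw [Gb_add hH c123 h4, Gb_sub hH c12 h3, Gb_sub hH h1 h2]

/-- the expectation of the alternating sum is small -/
lemma alt_small [NeZero n] {β : ℝ} (hβ : 0 ≤ β) (p : Z2) {l N : ℤ} (hl : 0 < l) (hN : 0 < N)
    {v : ℝ × ℝ} (hv1 : |v.1| ≤ 1) (hv2 : |v.2| ≤ 1) (T : Tri n) (σ : Z2 → Spin n) :
    |Gc β p (N * l) (fun σ => ∑ k ∈ cells N, Aε β (corner p l k) l (lin v) T
      (psiF p l (N * l)) (chiF p (N * l) v) σ) σ| ≤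
      4 * √(Vc β p (N * l) (jj β p l N (lin v) T.pA.X) σ * Real.exp (8000 * β)) := by
  have hL : 0 < N * l := mul_pos hN hl
  have one : (1 : ℝ) = 1 ∨ (1 : ℝ) = -1 := Or.inl rfl
  have mone : (-1 : ℝ) = 1 ∨ (-1 : ℝ) = -1 := Or.inr rfl
  have hc : ∀ s1 s2 : ℝ, Continuous fun σ => ∑ k ∈ cells N, mm β (corner p l k) l (lin v) T
      (psiF p l (N * l)) (chiF p (N * l) v) s1 s2 σ := fun s1 s2 =>
    continuous_finsetSum _ fun k _ => continuous_mm β _ l (lin v) T _ _ s1 s2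
  have hr : ∀ s1 s2 : ℝ, (s1 = 1 ∨ s1 = -1) → (s2 = 1 ∨ s2 = -1) →
      |Gc β p (N * l) (fun σ => ∑ k ∈ cells N, mm β (corner p l k) l (lin v) T
        (psiF p l (N * l)) (chiF p (N * l) v) s1 s2 σ) σ -
        Gc β p (N * l) (jj β p l N (lin v) T.pA.X) σ| ≤
      √(Vc β p (N * l) (jj β p l N (lin v) T.pA.X) σ * Real.exp (8000 * β)) := by
    intro s1 s2 h1 h2
    exact rigid_test hβ p hl hL hv1 hv2 T.pB T.pC h1 h2
      (continuous_jj β p l N (lin v) T.pA.X) σ
  have e : Gc β p (N * l) (fun σ => ∑ k ∈ cells N, Aε β (corner p l k) l (lin v) T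
      (psiF p l (N * l)) (chiF p (N * l) v) σ) σ =
      Gc β p (N * l) (fun σ => ∑ k ∈ cells N, mm β (corner p l k) l (lin v) T
        (psiF p l (N * l)) (chiF p (N * l) v) 1 1 σ) σ -
      Gc β p (N * l) (fun σ => ∑ k ∈ cells N, mm β (corner p l k) l (lin v) T
        (psiF p l (N * l)) (chiF p (N * l) v) 1 (-1) σ) σ -
      Gc β p (N * l) (fun σ => ∑ k ∈ cells N, mm β (corner p l k) l (lin v) T
        (psiF p l (N * l)) (chiF p (N * l) v) (-1) 1 σ) σ +
      Gc β p (N * l) (fun σ => ∑ k ∈ cells N, mm β (corner p l k) l (lin v) T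
        (psiF p l (N * l)) (chiF p (N * l) v) (-1) (-1) σ) σ := by
    unfold Gc
    rw [← Gb_alt4 (continuous_W _ _ _) (hc 1 1) (hc 1 (-1)) (hc (-1) 1) (hc (-1) (-1))]
    congr 1
    funext τ
    simp only [Aε, Finset.sum_add_distrib, Finset.sum_sub_distrib]
  rw [e]
  have a1 := abs_le.1 (hr 1 1 one one)
  have a2 := abs_le.1 (hr 1 (-1) one mone)
  have a3 := abs_le.1 (hr (-1) 1 mone one)
  have a4 := abs_le.1 (hr (-1) (-1) mone mone)
  rw [abs_le]
  constructor
  · linarith only [a1, a2, a3, a4]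
  · linarith only [a1, a2, a3, a4]

lemma clo_abs {c x : Z2} {l : ℤ} (h : x ∈ clo c l) :
    |(x.1 : ℝ) - c.1| ≤ l ∧ |(x.2 : ℝ) - c.2| ≤ l := by
  rw [mem_clo] at h
  obtain ⟨⟨h1, h2⟩, h3, h4⟩ := h
  have a1 : (c.1 : ℝ) ≤ x.1 := by exact_mod_cast h1
  have a2 : (x.1 : ℝ) ≤ c.1 + l := by exact_mod_cast h2
  have a3 : (c.2 : ℝ) ≤ x.2 := by exact_mod_cast h3
  have a4 : (x.2 : ℝ) ≤ c.2 + l := by exact_mod_cast h4
  constructor <;> rw [abs_le] <;> constructor <;> linarith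

lemma Gb_add4 {I : Type} [DecidableEq I] [Countable I] [NeZero n] {D : Finset I}
    {H f1 f2 f3 f4 : (I → Spin n) → ℝ} (hH : Continuous H) (h1 : Continuous f1)
    (h2 : Continuous f2) (h3 : Continuous f3) (h4 : Continuous f4) (σ : I → Spin n) :
    Gb D H (fun σ => f1 σ + f2 σ + f3 σ + f4 σ) σ =
      Gb D H f1 σ + Gb D H f2 σ + Gb D H f3 σ + Gb D H f4 σ := by
  have c12 : Continuous fun σ => f1 σ + f2 σ := h1.add h2
  have c123 : Continuous fun σ => f1 σ + f2 σ + f3 σ := c12.add h3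
  rw [Gb_add hH c123 h4, Gb_add hH c12 h3, Gb_add hH h1 h2]

/-- the final computation -/
lemma key_arith {t tL η δ Lr C E : ℝ} (hδ : δ = t - tL + η) (hδ0 : 0 ≤ δ) (hLr : 0 < Lr)
    {VA VB VC A1 A2 A3 S G Tb : ℝ} (hVA : 0 ≤ VA) (hVB : 0 ≤ VB) (hVC : 0 ≤ VC)
    (hA1 : |A1| ≤ 4 * √(VA * E)) (hA2 : |A2| ≤ 4 * √(VB * E)) (hA3 : |A3| ≤ 4 * √(VC * E))
    (hFb : |A1 + A2 + A3 + 4 * (1 / Lr) * S| ≤ 100 * C) (hdec : Tb = G - (VA + VB + VC))
    (hnear : (tL - η) * Lr ^ 2 < Tb) (hG : G ≤ t * Lr ^ 2)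
    (hlow : t * Lr ^ 2 / 128 - (t * Lr ^ 2 - G) ≤ S) :
    t / 128 ≤ δ + 3 * √E * √δ + 25 * C / Lr := by
  have hVle : VA + VB + VC ≤ δ * Lr ^ 2 := by rw [hδ]; linarith only [hdec, hnear, hG]
  have hsq : ∀ V, 0 ≤ V → V ≤ δ * Lr ^ 2 → √(V * E) ≤ Lr * √δ * √E := by
    intro V hV hP
    rw [Real.sqrt_mul hV]
    refine mul_le_mul_of_nonneg_right ?_ (Real.sqrt_nonneg _)
    calc √V ≤ √(δ * Lr ^ 2) := Real.sqrt_le_sqrt hP
      _ = Lr * √δ := by rw [Real.sqrt_mul hδ0, Real.sqrt_sq hLr.le, mul_comm]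
  have q1 := hsq VA hVA (by linarith only [hVB, hVC, hVle])
  have q2 := hsq VB hVB (by linarith only [hVA, hVC, hVle])
  have q3 := hsq VC hVC (by linarith only [hVA, hVB, hVle])
  have u1 := (abs_le.1 hA1).1
  have u2 := (abs_le.1 hA2).1
  have u3 := (abs_le.1 hA3).1
  have u4 := (abs_le.1 hFb).2
  have hup : 4 * (1 / Lr) * S ≤ 100 * C + 12 * (Lr * √δ * √E) := by linarith only [q1, q2, q3, u1, u2, u3, u4]
  have hup2 : S ≤ 25 * C * Lr + 3 * Lr ^ 2 * √δ * √E := by
    have h1 : S = (Lr / 4) * (4 * (1 / Lr) * S) := by (clear * - hLr; field_simp)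
    rw [h1]
    have h2 := mul_le_mul_of_nonneg_left hup (show 0 ≤ Lr / 4 by positivity)
    refine h2.trans (le_of_eq ?_)
    ring
  have h3 : t * Lr ^ 2 - G ≤ δ * Lr ^ 2 := by rw [hδ]; linarith only [hVA, hVB, hVC, hdec, hnear]
  have hfin : t * Lr ^ 2 / 128 ≤ δ * Lr ^ 2 + 25 * C * Lr + 3 * Lr ^ 2 * √δ * √E := by
    linarith only [hlow, hup2, h3]
  have hLr2 : 0 < Lr ^ 2 := by positivity
  have h1 : t / 128 * Lr ^ 2 ≤ (δ + 3 * √E * √δ + 25 * C / Lr) * Lr ^ 2 := by
    have e : (δ + 3 * √E * √δ + 25 * C / Lr) * Lr ^ 2 =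
        δ * Lr ^ 2 + 25 * C * Lr + 3 * Lr ^ 2 * √δ * √E := by
      field_simp
      ring
    rw [e]
    linarith only [hlow, hup2, h3]
  exact le_of_mul_le_mul_right h1 hLr2

theorem key_ineq (hn : 3 ≤ n) {β : ℝ} (hβ : 0 ≤ β) : ∃ K : ℝ, 0 ≤ K ∧ ∀ l : ℤ, 0 < l →
    ∃ C : ℝ, 0 ≤ C ∧ ∀ m : ℤ, 2 ≤ m → ∀ η : ℝ, 0 < η → 0 ≤ tt n β l →
    tt n β l / 128 ≤ (tt n β l - tt n β (8 * m * l) + η) +
      K * √(tt n β l - tt n β (8 * m * l) + η) + C / (8 * m * l : ℝ) := by
  have : NeZero n := ⟨by omega⟩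
  refine ⟨3 * √(Real.exp (8000 * β)), by positivity, fun l hl => ?_⟩
  obtain ⟨C, hC, hcell⟩ := cell_lemma n β hl
  refine ⟨25 * C, by positivity, fun m hm η hη htt => ?_⟩
  have hN : 0 < 8 * m := by omega
  have hL : 0 < 8 * m * l := mul_pos hN hl
  obtain ⟨p, v, T, σ, hv1, hv2, hnear⟩ := exists_near (β := β) hn hL hη
  have hm' : (2 : ℝ) ≤ m := by exact_mod_cast hm
  have hl' : (0 : ℝ) < l := by exact_mod_cast hl
  have hLr : ((8 * m * l : ℤ) : ℝ) = 8 * m * l := by push_cast; ring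
  have hNr : ((8 * m : ℤ) : ℝ) = 8 * m := by push_cast; ring
  have hL' : (0 : ℝ) < 8 * m * l := by positivity
  set N : ℤ := 8 * m with hNdef
  set Lr : ℝ := 8 * m * l with hLrdef
  set δ := tt n β l - tt n β (N * l) + η with hδ
  have hδ0 : 0 ≤ δ := by
    have := tt_mono (β := β) hn hβ hl hN
    linarith only [hη, this]
  -- the constants of the cell lemma
  let κ : ℝ := 10 * l / Lr
  have hκ0 : 0 ≤ κ := by positivity
  have hκ1 : κ ≤ 1 := by
    simp only [κ]
    rw [div_le_one hL']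
    nlinarith only [hl', hm']
  let ψ := psiF p l (N * l)
  let χ := chiF p (N * l) v
  let cr := fun k => corner p l k
  have hcl : ∀ k ∈ cells N, ∀ τ : Z2 → Spin n,
      |Aε β (cr k) l (lin v) T ψ χ τ + Aε β (cr k) l (lin v) T.cyc ψ χ τ +
      Aε β (cr k) l (lin v) T.cyc.cyc ψ χ τ +
      4 * (1 / Lr) * Real.sin (ψ (cr k)) * Tf β (cr k) l (lin v) T τ| ≤ C * κ ^ 2 := by
    intro k hk τ
    have hsub := subBox_corner p hl hk
    have hck : cr k ∈ clo p (N * l) := by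
      rw [mem_clo]
      obtain ⟨⟨b1, b2⟩, b3, b4⟩ := hsub
      simp only [cr]
      omega
    refine hcell (cr k) v hv1 hv2 T ψ χ κ (1 / Lr) hκ0 hκ1 ?_ ?_ ?_ τ
    · intro x hx
      have := psiF_lip (p := p) (l := l) (L := N * l) hL
        (db_lip p (N * l) (clo_abs hx).1 (clo_abs hx).2)
      refine this.trans ?_
      simp only [κ]
      rw [hLr]
      gcongr
      norm_num
    · intro x hx
      have := chiF_lip (p := p) (L := N * l) hL hv1 hv2 hck (clo_abs hx).1 (clo_abs hx).2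
      rw [hLr] at this
      exact this
    · rcases (psiF_nonneg (p := p) (l := l) (L := N * l) (u := cr k)).eq_or_lt with h0 | h0
      · left; exact h0.symm
      · right
        intro x hx
        have := chiF_affine (p := p) (l := l) (L := N * l) (v := v) (u := x) (w := cr k) hL h0
          (db_lip p (N * l) (clo_abs hx).1 (clo_abs hx).2)
        rw [hLr] at this
        exact this
  -- expectations
  let A : Tri n → ℝ := fun T' => Gc β p (N * l) (fun τ => ∑ k ∈ cells N,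
    Aε β (cr k) l (lin v) T' ψ χ τ) σ
  let g : Z2 → ℝ := fun k => Gc β p (N * l) (Tf β (cr k) l (lin v) T) σ
  let s : Z2 → ℝ := fun k => Real.sin (ψ (cr k))
  let V : Pl n → ℝ := fun P => Vc β p (N * l) (jj β p l N (lin v) P.X) σ
  have hV0 : ∀ P, 0 ≤ V P := fun P =>
    Vr_nonneg (continuous_W β p (N * l)) (continuous_jj β p l N (lin v) P.X) σ
  have hA1 : |A T| ≤ 4 * √(V T.pA * Real.exp (8000 * β)) := alt_small hβ p hl hN hv1 hv2 T σ
  have hA2 : |A T.cyc| ≤ 4 * √(V T.pB * Real.exp (8000 * β)) :=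
    alt_small hβ p hl hN hv1 hv2 T.cyc σ
  have hA3 : |A T.cyc.cyc| ≤ 4 * √(V T.pC * Real.exp (8000 * β)) :=
    alt_small hβ p hl hN hv1 hv2 T.cyc.cyc σ
  have hcA : ∀ T' : Tri n, Continuous fun τ => ∑ k ∈ cells N,
      Aε β (cr k) l (lin v) T' ψ χ τ := fun T' =>
    continuous_finsetSum _ fun k _ => continuous_Aε β _ l (lin v) T' _ _
  let Fk : Z2 → (Z2 → Spin n) → ℝ := fun k τ =>
    4 * (1 / Lr) * Real.sin (ψ (cr k)) * Tf β (cr k) l (lin v) T τ
  have hcF : ∀ k, Continuous (Fk k) := fun k =>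
    continuous_const.mul (continuous_Tf β _ l (lin v) T)
  have hcT : Continuous fun τ => ∑ k ∈ cells N, Fk k τ :=
    continuous_finsetSum _ fun k _ => hcF k
  have hF : Gc β p (N * l) (fun τ => (∑ k ∈ cells N, Aε β (cr k) l (lin v) T ψ χ τ) +
      (∑ k ∈ cells N, Aε β (cr k) l (lin v) T.cyc ψ χ τ) +
      (∑ k ∈ cells N, Aε β (cr k) l (lin v) T.cyc.cyc ψ χ τ) +
      ∑ k ∈ cells N, Fk k τ) σ =
      A T + A T.cyc + A T.cyc.cyc + 4 * (1 / Lr) * ∑ k ∈ cells N, s k * g k := by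
    unfold Gc
    rw [Gb_add4 (continuous_W β p (N * l)) (hcA T) (hcA T.cyc) (hcA T.cyc.cyc) hcT,
      Gb_sum _ (continuous_W β p (N * l)) (fun k _ => hcF k), Finset.mul_sum]
    congr 1
    refine Finset.sum_congr rfl fun k _ => ?_
    simp only [Fk]
    rw [Gb_const_mul]
    simp only [s, g]
    ring
  have hFb : |A T + A T.cyc + A T.cyc.cyc + 4 * (1 / Lr) * ∑ k ∈ cells N, s k * g k| ≤
      100 * C := by
    rw [← hF]
    have hcc : Continuous fun τ => (∑ k ∈ cells N, Aε β (cr k) l (lin v) T ψ χ τ) +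
        (∑ k ∈ cells N, Aε β (cr k) l (lin v) T.cyc ψ χ τ) +
        (∑ k ∈ cells N, Aε β (cr k) l (lin v) T.cyc.cyc ψ χ τ) +
        ∑ k ∈ cells N, Fk k τ :=
      (((hcA T).add (hcA T.cyc)).add (hcA T.cyc.cyc)).add hcT
    refine Gb_abs_le (continuous_W β p (N * l)) hcc (fun τ => ?_) σ
    rw [← Finset.sum_add_distrib, ← Finset.sum_add_distrib, ← Finset.sum_add_distrib]
    refine (Finset.abs_sum_le_sum_abs _ _).trans ?_
    refine (Finset.sum_le_sum fun k hk => hcl k hk τ).trans ?_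
    rw [Finset.sum_const, nsmul_eq_mul, card_cells hN.le, hNr]
    refine le_of_eq ?_
    simp only [κ, hLrdef]
    field_simp
    ring
  -- the sums
  have hg : ∀ k ∈ cells N, g k ≤ tt n β l * (l : ℝ) ^ 2 := fun k _ =>
    Gc_Tf_le hn hβ p _ hl _ hv1 hv2 T σ
  have hs0 : ∀ k ∈ cells N, s k ≤ 1 := fun k _ => Real.sin_le_one _
  have hsum : ∑ k ∈ cells N, s k * (tt n β l * (l : ℝ) ^ 2 - g k) ≤
      ∑ k ∈ cells N, (tt n β l * (l : ℝ) ^ 2 - g k) := by
    refine Finset.sum_le_sum fun k hk => ?_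
    have := hg k hk
    have := hs0 k hk
    (clear C hC hcell hm η hη htt hm' hl' hN hL hnear hNr hNdef Lr hL' hLr hLrdef δ hδ hδ0 κ hκ0 hκ1 χ hcl A V hV0 hA1 hA2 hA3 hcA Fk hcF hcT hF hFb; nlinarith)
  have hsum2 : ∑ k ∈ cells N, s k * (tt n β l * (l : ℝ) ^ 2 - g k) =
      tt n β l * (l : ℝ) ^ 2 * ∑ k ∈ cells N, s k - ∑ k ∈ cells N, s k * g k := by
    rw [Finset.mul_sum, ← Finset.sum_sub_distrib]
    exact Finset.sum_congr rfl fun k _ => by ring
  have hsum3 : ∑ k ∈ cells N, (tt n β l * (l : ℝ) ^ 2 - g k) =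
      tt n β l * Lr ^ 2 - ∑ k ∈ cells N, g k := by
    rw [Finset.sum_sub_distrib, Finset.sum_const, nsmul_eq_mul, card_cells hN.le, hNr]
    simp only [hLrdef]
    ring
  have hsin : (8 * m : ℝ) ^ 2 / 128 ≤ ∑ k ∈ cells N, s k := sum_sin_psi p hl hm
  have hdec := Tf_decomp β p hl hN.le (lin v) T σ
  have hdec' : Tf β p (N * l) (lin v) T σ = ∑ k ∈ cells N, g k - (V T.pA + V T.pB + V T.pC) :=
    hdec
  rw [hLr] at hnear
  have hsum3' : 0 ≤ tt n β l * Lr ^ 2 - ∑ k ∈ cells N, g k := by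
    rw [← hsum3]
    exact Finset.sum_nonneg fun k hk => by linarith only [hg k hk]
  have hlow : tt n β l * Lr ^ 2 / 128 - (tt n β l * Lr ^ 2 - ∑ k ∈ cells N, g k) ≤
      ∑ k ∈ cells N, s k * g k := by
    have h1 : tt n β l * (l : ℝ) ^ 2 * ((8 * m : ℝ) ^ 2 / 128) ≤
        tt n β l * (l : ℝ) ^ 2 * ∑ k ∈ cells N, s k :=
      mul_le_mul_of_nonneg_left hsin (by (clear * - htt hl; positivity))
    have h2 : tt n β l * (l : ℝ) ^ 2 * ((8 * m : ℝ) ^ 2 / 128) = tt n β l * Lr ^ 2 / 128 := by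
      simp only [hLrdef]; ring
    linarith only [hsum, hsum2, hsum3, h1]
  exact key_arith hδ hδ0 hL' (hV0 T.pA) (hV0 T.pB) (hV0 T.pC) hA1 hA2 hA3 hFb hdec' hnear
    (by linarith only [hsum3']) hlow

end Vale.Agent.P163
end
end

section

section

open MeasureTheory Filter Topology
open scoped RealInnerProductSpace

set_option linter.unusedSectionVars false

namespace Vale.Agent.P163

variable {n : ℕ}

/-- the worst case stiffness tends to zero (along a subsequence of scales) -/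
theorem tt_small (hn : 3 ≤ n) {β : ℝ} (hβ : 0 ≤ β) {ε : ℝ} (hε : 0 < ε) :
    ∃ L : ℤ, 0 < L ∧ tt n β L < ε := by
  by_contra h
  push Not at h
  obtain ⟨K, hK, hkey⟩ := key_ineq hn hβ
  -- the infimum
  let S : Set ℝ := {r | ∃ L : ℤ, 0 < L ∧ r = tt n β L}
  have hSne : S.Nonempty := ⟨_, 1, one_pos, rfl⟩
  have hSbd : BddBelow S := ⟨ε, by rintro r ⟨L, hL, rfl⟩; exact h L hL⟩
  -- small parameters
  let s : ℝ := min 1 (ε / (512 * (1 + K)))
  have hs0 : 0 < s := lt_min one_pos (by positivity)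
  have hs1 : s ≤ 1 := min_le_left _ _
  have hs2 : s * (1 + K) ≤ ε / 512 := by
    have h1 : s ≤ ε / (512 * (1 + K)) := min_le_right _ _
    have h2 : s * (1 + K) ≤ ε / (512 * (1 + K)) * (1 + K) :=
      mul_le_mul_of_nonneg_right h1 (by linarith only [hK])
    refine h2.trans (le_of_eq ?_)
    (clear * - hK hε; field_simp)
  have hη : 0 < s ^ 2 / 2 := by positivity
  obtain ⟨r, ⟨l, hl, rfl⟩, hr⟩ := exists_lt_of_csInf_lt hSne
    (show sInf S < sInf S + s ^ 2 / 2 by linarith only [hη])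
  obtain ⟨C, hC, hkl⟩ := hkey l hl
  -- the number of cells
  obtain ⟨m0, hm0⟩ := exists_int_gt (512 * C / ε)
  let m : ℤ := max 2 m0
  have hm2 : 2 ≤ m := le_max_left _ _
  have hmm : (m0 : ℝ) ≤ m := by exact_mod_cast le_max_right 2 m0
  have hm2' : (2 : ℝ) ≤ m := by exact_mod_cast hm2
  have hl' : (1 : ℝ) ≤ l := by exact_mod_cast hl
  have hlpos : 0 < 8 * m * l := by positivity
  have hk := hkl m hm2 (s ^ 2 / 2) hη (hε.le.trans (h l hl))
  have hinf : sInf S ≤ tt n β (8 * m * l) := csInf_le hSbd ⟨_, hlpos, rfl⟩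
  have hδ : tt n β l - tt n β (8 * m * l) + s ^ 2 / 2 ≤ s ^ 2 := by linarith only [hr, hinf]
  have hsq : √(tt n β l - tt n β (8 * m * l) + s ^ 2 / 2) ≤ s := by
    calc _ ≤ √(s ^ 2) := Real.sqrt_le_sqrt hδ
      _ = s := Real.sqrt_sq hs0.le
  have hCm : C / (8 * m * l : ℝ) ≤ ε / 512 := by
    rw [div_le_iff₀ (by positivity)]
    rw [div_lt_iff₀ hε] at hm0
    have h1 : 512 * C ≤ m * ε := by nlinarith only [hm0, hε, hmm]
    have h2 : ε / 512 * (8 * m * l) = (m * ε) / 512 * (8 * l) := by ring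
    rw [h2]
    have h3 : C ≤ m * ε / 512 := by linarith only [h1]
    nlinarith only [hK, hC, hl', h1]
  have hK2 : K * √(tt n β l - tt n β (8 * m * l) + s ^ 2 / 2) ≤ K * s :=
    mul_le_mul_of_nonneg_left hsq hK
  have h1 := h l hl
  have h2 : s ^ 2 ≤ s := by nlinarith only [hs0, hK2, h1, hK, hs1]
  linarith

end Vale.Agent.P163
end
end

section

section

open MeasureTheory Filter Topology
open scoped RealInnerProductSpace

set_option linter.unusedSectionVars false

namespace Vale.Agent.P163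

variable {n : ℕ}

lemma MB_one [NeZero n] (β : ℝ) (R : ℤ) : MB n β R 1 := by
  intro σ w hw
  have hc : Continuous fun σ : Z2 → Spin n => ⟪w, (σ (0, 0) : E n)⟫ := by fun_prop
  have h := Gb_mono (D := inn (-R, -R) (2 * R)) (continuous_W β (-R, -R) (2 * R)) hc
    (continuous_const (y := (1 : ℝ))) (fun σ => by
      have := real_inner_le_norm w (σ (0, 0) : E n)
      rw [hw, coe_norm, one_mul] at this
      exact this) σ
  rwa [Gb_const (continuous_W β _ _)] at h

/-- decay of the magnetization from the recursion step -/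
theorem MB_decay_of (hn : 3 ≤ n) {β : ℝ} (hβ : 0 ≤ β)
    (hstep : ∀ {L : ℤ}, 0 < L → tt n β L ≤ 1 / 1024 → ∃ m0 : ℤ, 0 < m0 ∧ ∀ m : ℤ, m0 ≤ m →
      ∀ M : ℝ, 0 ≤ M → MB n β (m * L) M → MB n β (2 * (m * L)) (M / 4))
    {ε : ℝ} (hε : 0 < ε) :
    ∃ (R : ℤ) (M : ℝ), 0 < R ∧ 0 ≤ M ∧ MB n β R M ∧ (2 * R + 1) * M ≤ ε := by
  have : NeZero n := ⟨by omega⟩
  obtain ⟨L, hL, ht⟩ := tt_small hn hβ (ε := 1 / 1024) (by norm_num)
  obtain ⟨m0, hm0, h⟩ := hstep hL ht.le
  have key : ∀ k : ℕ, MB n β (2 ^ k * (m0 * L)) (1 / 4 ^ k) := by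
    intro k
    induction k with
    | zero => simpa using MB_one (n := n) β (m0 * L)
    | succ k ih =>
      have h1 : (1 : ℤ) ≤ 2 ^ k := one_le_pow₀ (by norm_num)
      have h2 : m0 ≤ 2 ^ k * m0 := by nlinarith only [h1, hm0]
      have e1 : (2 : ℤ) ^ k * (m0 * L) = (2 ^ k * m0) * L := by ring
      rw [e1] at ih
      have h3 := h (2 ^ k * m0) h2 (1 / 4 ^ k) (by positivity) ih
      have e2 : 2 * (2 ^ k * m0 * L) = 2 ^ (k + 1) * (m0 * L) := by ring
      have e3 : (1 : ℝ) / 4 ^ k / 4 = 1 / 4 ^ (k + 1) := by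
        rw [div_div, ← pow_succ]
      rwa [e2, e3] at h3
  -- choice of `k`
  have hmL : (0 : ℝ) < m0 * L := by exact_mod_cast mul_pos hm0 hL
  obtain ⟨k, hk⟩ := exists_nat_gt ((2 * (m0 * L) + 1) / ε)
  have hk2 : (k : ℝ) < 2 ^ k := by exact_mod_cast Nat.lt_two_pow_self
  refine ⟨2 ^ k * (m0 * L), 1 / 4 ^ k, by positivity, by positivity, key k, ?_⟩
  push_cast
  have h4 : (4 : ℝ) ^ k = 2 ^ k * 2 ^ k := by
    rw [← mul_pow]; norm_num
  have h2k : (1 : ℝ) ≤ 2 ^ k := one_le_pow₀ (by norm_num)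
  rw [div_lt_iff₀ hε] at hk
  rw [h4, mul_one_div, div_le_iff₀ (by positivity)]
  have h5 : 2 * (m0 * L : ℝ) + 1 ≤ ε * 2 ^ k := by nlinarith only [hk, hε, hk2]
  nlinarith only [h2k, h5]

end Vale.Agent.P163
end
end

section

section

open MeasureTheory Filter Topology
open scoped RealInnerProductSpace

set_option linter.unusedSectionVars false

namespace Vale.Agent.P163

namespace MW

variable {n : ℕ}

/-! ### Elementary facts on rotations -/

lemma mw_rot_apply (P : Pl n) (t : ℝ) (x : E n) :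
    P.rot t x = x + (Real.cos t - 1) • (⟪P.a, x⟫ • P.a + ⟪P.b, x⟫ • P.b) +
      Real.sin t • (⟪P.a, x⟫ • P.b - ⟪P.b, x⟫ • P.a) := rfl

lemma mw_rot_zero (P : Pl n) : P.rot 0 = LinearIsometryEquiv.refl ℝ _ := by
  ext1 x
  rw [mw_rot_apply]
  simp

lemma mw_X_apply (P : Pl n) (x : E n) : P.X x = ⟪P.a, x⟫ • P.b - ⟪P.b, x⟫ • P.a :=
  gX_apply _ _ _

lemma mw_aa (P : Pl n) : ⟪P.a, P.a⟫ = 1 := by
  rw [real_inner_self_eq_norm_sq, P.ha]; norm_num

lemma mw_bb (P : Pl n) : ⟪P.b, P.b⟫ = 1 := by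
  rw [real_inner_self_eq_norm_sq, P.hb]; norm_num

lemma mw_ba (P : Pl n) : ⟪P.b, P.a⟫ = 0 := by
  rw [real_inner_comm]; exact P.hab

lemma mw_inner_b (P : Pl n) (t : ℝ) (x : E n) :
    ⟪P.b, P.rot t x⟫ = Real.cos t * ⟪P.b, x⟫ + Real.sin t * ⟪P.a, x⟫ := by
  rw [mw_rot_apply]
  simp only [inner_add_right, inner_sub_right, inner_smul_right, mw_bb, mw_ba]
  ring

lemma mw_inner_a (P : Pl n) (t : ℝ) (x : E n) :
    ⟪P.a, P.rot t x⟫ = Real.cos t * ⟪P.a, x⟫ + (-Real.sin t) * ⟪P.b, x⟫ := by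
  rw [mw_rot_apply]
  simp only [inner_add_right, inner_sub_right, inner_smul_right, mw_aa, P.hab]
  ring

lemma mw_inner_X (P : Pl n) (s t : E n) :
    ⟪P.X s, t⟫ = ⟪P.a, s⟫ * ⟪P.b, t⟫ - ⟪P.b, s⟫ * ⟪P.a, t⟫ := by
  rw [mw_X_apply]
  simp only [inner_sub_left, inner_smul_left, RCLike.conj_to_real]

lemma mw_inner_XX (P : Pl n) (s t : E n) :
    ⟪P.X s, P.X t⟫ = ⟪P.a, s⟫ * ⟪P.a, t⟫ + ⟪P.b, s⟫ * ⟪P.b, t⟫ := by
  rw [mw_X_apply, mw_X_apply]
  simp only [inner_sub_left, inner_sub_right, inner_smul_left, inner_smul_right,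
    RCLike.conj_to_real, mw_aa, mw_bb, P.hab, mw_ba]
  ring

lemma mw_rot_rot (P : Pl n) (x y : ℝ) (s t : E n) :
    ⟪P.rot x s, P.rot y t⟫ = ⟪s, t⟫ + (Real.sin (x - y) * ⟪P.X s, t⟫ +
      (Real.cos (x - y) - 1) * ⟪P.X s, P.X t⟫) := by
  rw [mw_inner_X, mw_inner_XX, mw_rot_apply, mw_rot_apply, Real.sin_sub, Real.cos_sub]
  simp only [inner_add_left, inner_add_right, inner_sub_left, inner_sub_right, inner_smul_left,
    inner_smul_right, RCLike.conj_to_real, mw_aa, mw_bb, P.hab, mw_ba]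
  rw [real_inner_comm P.a s, real_inner_comm P.b s]
  ring

lemma mw_X_norm (P : Pl n) (s : E n) : ‖P.X s‖ ≤ ‖s‖ := by
  have h1 : ‖P.X s‖ ^ 2 ≤ ‖s‖ ^ 2 := by
    rw [← real_inner_self_eq_norm_sq, mw_inner_XX]
    have h2 : 0 ≤ ‖s - (⟪P.a, s⟫ • P.a + ⟪P.b, s⟫ • P.b)‖ ^ 2 := sq_nonneg _
    rw [← real_inner_self_eq_norm_sq] at h2
    simp only [inner_add_left, inner_add_right, inner_sub_left, inner_sub_right,
      inner_smul_left, inner_smul_right, RCLike.conj_to_real, mw_aa, mw_bb, P.hab, mw_ba] at h2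
    rw [real_inner_comm P.a s, real_inner_comm P.b s, real_inner_self_eq_norm_sq s] at h2
    linarith
  exact abs_le_of_sq_le_sq' h1 (norm_nonneg _) |>.2

lemma mw_spin_norm (s : Spin n) : ‖(s : E n)‖ = 1 := by
  have := s.2
  simpa using this

lemma mw_inner_X_le (P : Pl n) (s t : Spin n) : |⟪P.X (s : E n), (t : E n)⟫| ≤ 1 := by
  have h1 := abs_real_inner_le_norm (P.X (s : E n)) (t : E n)
  have h2 := mw_X_norm P (s : E n)
  rw [mw_spin_norm] at h1 h2
  linarith

lemma mw_inner_XX_le (P : Pl n) (s t : Spin n) : |⟪P.X (s : E n), P.X (t : E n)⟫| ≤ 1 := by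
  have h1 := abs_real_inner_le_norm (P.X (s : E n)) (P.X (t : E n))
  have h2 := mw_X_norm P (s : E n)
  have h3 := mw_X_norm P (t : E n)
  rw [mw_spin_norm] at h2 h3
  have h4 : ‖P.X (s : E n)‖ * ‖P.X (t : E n)‖ ≤ 1 * 1 :=
    mul_le_mul h2 h3 (norm_nonneg _) zero_le_one
  linarith

/-! ### Elementary real analysis -/

lemma mw_sin {x : ℝ} (hx : |x| ≤ 1) : |Real.sin x - x| ≤ |x| ^ 3 := by
  have h := Real.sin_bound hx
  have h1 : |Real.sin x - x| ≤ |Real.sin x - (x - x ^ 3 / 6)| + |x ^ 3 / 6| := by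
    have := abs_sub (Real.sin x - (x - x ^ 3 / 6)) (x ^ 3 / 6)
    calc |Real.sin x - x| = |(Real.sin x - (x - x ^ 3 / 6)) - x ^ 3 / 6| := by ring_nf
      _ ≤ _ := this
  have h2 : |x ^ 3 / 6| = |x| ^ 3 / 6 := by rw [abs_div, abs_pow]; norm_num
  have h3 : |x| ^ 5 ≤ |x| ^ 3 := pow_le_pow_of_le_one (abs_nonneg x) hx (by norm_num)
  have h4 : 0 ≤ |x| ^ 3 := by positivity
  rw [h2] at h1
  linarith

lemma mw_cos {x : ℝ} (hx : |x| ≤ 1) : |Real.cos x - 1 + x ^ 2 / 2| ≤ |x| ^ 3 := by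
  have h := Real.cos_bound hx
  have h3 : |x| ^ 4 ≤ |x| ^ 3 := pow_le_pow_of_le_one (abs_nonneg x) hx (by norm_num)
  have h4 : 0 ≤ |x| ^ 3 := by positivity
  have h5 : Real.cos x - 1 + x ^ 2 / 2 = Real.cos x - (1 - x ^ 2 / 2) := by ring
  rw [h5]
  linarith

lemma mw_exp {y : ℝ} (hy : |y| ≤ 1) : |Real.exp y - 1 - y - y ^ 2 / 2| ≤ |y| ^ 3 := by
  have h := Real.exp_bound hy (n := 3) (by norm_num)
  simp only [Finset.sum_range_succ, Finset.sum_range_zero, Nat.factorial] at h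
  norm_num at h
  have h5 : Real.exp y - 1 - y - y ^ 2 / 2 = Real.exp y - (1 + y + y ^ 2 / 2) := by ring
  rw [h5]
  have h4 : 0 ≤ |y| ^ 3 := by positivity
  linarith only [h, h4]

/-! ### Expansion of the energy -/

/-- change of the energy under the rotation by the angle `f` -/
noncomputable def DW (β : ℝ) (p : Z2) (l : ℤ) (P : Pl n) (f : Z2 → ℝ) (σ : Z2 → Spin n) : ℝ :=
  W β p l (act (P.rg f) σ) - W β p l σ

lemma continuous_DW (β : ℝ) (p : Z2) (l : ℤ) (P : Pl n) (f : Z2 → ℝ) :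
    Continuous (DW β p l P f) :=
  ((continuous_W β p l).comp (continuous_act _)).sub (continuous_W β p l)

lemma DW_eq (β : ℝ) (p : Z2) (l : ℤ) (P : Pl n) (f : Z2 → ℝ) (σ : Z2 → Spin n) :
    DW β p l P f σ = PS p l fun u v => β * (Real.sin (f u - f v) * ⟪P.X (σ u), (σ v : E n)⟫ +
      (Real.cos (f u - f v) - 1) * ⟪P.X (σ u), P.X (σ v)⟫) := by
  unfold DW W PSb
  rw [← PS_sub]
  refine PS_congr fun u v _ _ _ => ?_
  rw [coe_act, coe_act]
  unfold Pl.rg
  beta_reduce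
  rw [mw_rot_rot]
  ring

/-- the cubic expansion of `DW` -/
lemma DW_expand {β : ℝ} (hβ : 0 ≤ β) (p : Z2) {l : ℤ} (hl : 0 ≤ l) (P : Pl n) {φ : Z2 → ℝ}
    (hφ : ∀ u v, Nb u v → |φ u - φ v| ≤ 1) {t : ℝ} (ht : |t| ≤ 1) (σ : Z2 → Spin n) :
    |DW β p l P (fun x => t * φ x) σ -
      (t * Jc β p l φ P.X σ - t ^ 2 / 2 * Dc β p l φ P.X σ)| ≤
      2 * (l : ℝ) ^ 2 * (β * (2 * |t| ^ 3)) := by
  rw [DW_eq]
  unfold Jc Dc PSb
  rw [← PS_const_mul, ← PS_const_mul, ← PS_sub, ← PS_sub]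
  refine PS_abs_le_of_le hl fun u v huv _ _ => ?_
  have hd := hφ u v huv
  set d := φ u - φ v with hd'
  have e0 : t * φ u - t * φ v = t * d := by rw [hd']; ring
  rw [e0]
  have htd : |t * d| ≤ |t| := by
    rw [abs_mul]
    nlinarith only [hd, abs_nonneg t]
  have htd1 : |t * d| ≤ 1 := htd.trans ht
  have h1 := mw_sin htd1
  have h2 := mw_cos htd1
  have h3 : |t * d| ^ 3 ≤ |t| ^ 3 := pow_le_pow_left₀ (abs_nonneg _) htd 3
  have ha := mw_inner_X_le P (σ u) (σ v)
  have hp := mw_inner_XX_le P (σ u) (σ v)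
  set a := ⟪P.X (σ u : E n), (σ v : E n)⟫
  set b := ⟪P.X (σ u : E n), P.X (σ v : E n)⟫
  have e1 : β * (Real.sin (t * d) * a + (Real.cos (t * d) - 1) * b) -
      (t * (β * (d * a)) - t ^ 2 / 2 * (β * (d ^ 2 * b))) =
      β * ((Real.sin (t * d) - t * d) * a + (Real.cos (t * d) - 1 + (t * d) ^ 2 / 2) * b) := by
    ring
  rw [e1, abs_mul, abs_of_nonneg hβ]
  refine mul_le_mul_of_nonneg_left ?_ hβ
  refine (abs_add_le _ _).trans ?_
  rw [abs_mul, abs_mul]
  have h4 : |Real.sin (t * d) - t * d| * |a| ≤ |t| ^ 3 * 1 :=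
    mul_le_mul (h1.trans h3) ha (abs_nonneg _) (by (clear * -; positivity))
  have h5 : |Real.cos (t * d) - 1 + (t * d) ^ 2 / 2| * |b| ≤ |t| ^ 3 * 1 :=
    mul_le_mul (h2.trans h3) hp (abs_nonneg _) (by positivity)
  linarith only [h4, h5]

lemma Jc_abs_le {β : ℝ} (hβ : 0 ≤ β) (p : Z2) {l : ℤ} (hl : 0 ≤ l) (P : Pl n) {φ : Z2 → ℝ}
    {r : ℝ} (hr : 0 ≤ r)
    (hφ : ∀ u v, Nb u v → u ∈ clo p l → v ∈ clo p l → |φ u - φ v| ≤ r) (σ : Z2 → Spin n) :
    |Jc β p l φ P.X σ| ≤ 2 * (l : ℝ) ^ 2 * (β * r) := by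
  unfold Jc PSb
  refine PS_abs_le_of_le hl fun u v huv hu hv => ?_
  rw [abs_mul, abs_of_nonneg hβ, abs_mul]
  refine mul_le_mul_of_nonneg_left ?_ hβ
  have h1 := hφ u v huv hu hv
  have h2 := mw_inner_X_le P (σ u) (σ v)
  have := mul_le_mul h1 h2 (abs_nonneg _) hr
  linarith

lemma Dc_abs_le {β : ℝ} (hβ : 0 ≤ β) (p : Z2) {l : ℤ} (hl : 0 ≤ l) (P : Pl n) {φ : Z2 → ℝ}
    {r : ℝ} (hr : 0 ≤ r)
    (hφ : ∀ u v, Nb u v → u ∈ clo p l → v ∈ clo p l → |φ u - φ v| ≤ r) (σ : Z2 → Spin n) :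
    |Dc β p l φ P.X σ| ≤ 2 * (l : ℝ) ^ 2 * (β * r ^ 2) := by
  unfold Dc PSb
  refine PS_abs_le_of_le hl fun u v huv hu hv => ?_
  rw [abs_mul, abs_of_nonneg hβ, abs_mul]
  refine mul_le_mul_of_nonneg_left ?_ hβ
  have h1 : |(φ u - φ v) ^ 2| ≤ r ^ 2 := by
    rw [abs_pow]
    exact pow_le_pow_left₀ (abs_nonneg _) (hφ u v huv hu hv) 2
  have h2 := mw_inner_XX_le P (σ u) (σ v)
  have := mul_le_mul h1 h2 (abs_nonneg _) (by positivity)
  linarith only [this]

/-- quadratic expansion of the exponential of the change of energy, abstract form -/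
lemma mw_exp_expand {K t D J Q : ℝ} (hK : 1 ≤ K) (ht : 3 * K * |t| ≤ 1)
    (hD : |D - (t * J - t ^ 2 / 2 * Q)| ≤ K * |t| ^ 3) (hJ : |J| ≤ K) (hQ : |Q| ≤ K) :
    |D| ≤ 3 * K * |t| ∧
    |Real.exp D - 1 - t * J - t ^ 2 / 2 * (J ^ 2 - Q)| ≤ 40 * K ^ 3 * |t| ^ 3 := by
  have ht0 := abs_nonneg t
  have hK3 : 0 < K := by linarith only [hK]
  have ht1 : |t| ≤ 1 := by nlinarith only [ht, hK]
  have ht2 : |t| ^ 2 ≤ |t| := by nlinarith only [ht0, hK, ht]
  have ht3 : |t| ^ 3 ≤ |t| ^ 2 := pow_le_pow_of_le_one ht0 ht1 (by norm_num)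
  have htJ : |t * J| ≤ K * |t| := by
    rw [abs_mul]; nlinarith only [hJ, ht0]
  have htQ : |t ^ 2 / 2 * Q| ≤ K * |t| ^ 2 / 2 := by
    rw [abs_mul, abs_div, abs_pow]
    have : |(2 : ℝ)| = 2 := by norm_num
    rw [this]
    have : |t| ^ 2 / 2 * |Q| ≤ |t| ^ 2 / 2 * K := mul_le_mul_of_nonneg_left hQ (by positivity)
    linarith only [this]
  have h1 : |D| ≤ |D - (t * J - t ^ 2 / 2 * Q)| + |t * J| + |t ^ 2 / 2 * Q| := by
    have e : D = (D - (t * J - t ^ 2 / 2 * Q)) + t * J + -(t ^ 2 / 2 * Q) := by ring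
    calc |D| = |(D - (t * J - t ^ 2 / 2 * Q)) + t * J + -(t ^ 2 / 2 * Q)| := by rw [← e]
      _ ≤ |(D - (t * J - t ^ 2 / 2 * Q)) + t * J| + |-(t ^ 2 / 2 * Q)| := abs_add_le _ _
      _ ≤ |D - (t * J - t ^ 2 / 2 * Q)| + |t * J| + |-(t ^ 2 / 2 * Q)| := by
          gcongr; exact abs_add_le _ _
      _ = _ := by rw [abs_neg]
  have hDle : |D| ≤ 3 * K * |t| := by nlinarith only [hD, ht2, htJ, htQ, h1, ht, hK]
  refine ⟨hDle, ?_⟩
  have hD1 : |D| ≤ 1 := hDle.trans ht
  have h2 := mw_exp hD1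
  have h3 : |D| ^ 3 ≤ 27 * K ^ 3 * |t| ^ 3 := by
    calc |D| ^ 3 ≤ (3 * K * |t|) ^ 3 := pow_le_pow_left₀ (abs_nonneg _) hDle 3
      _ = _ := by ring
  -- D ^ 2 - (t J) ^ 2
  have h4 : |D - t * J| ≤ 2 * K * |t| ^ 2 := by
    have e : D - t * J = (D - (t * J - t ^ 2 / 2 * Q)) + -(t ^ 2 / 2 * Q) := by ring
    rw [e]
    refine (abs_add_le _ _).trans ?_
    rw [abs_neg]
    nlinarith only [hD, htQ, hK, ht]
  have h5 : |D + t * J| ≤ 4 * K * |t| := by
    refine (abs_add_le _ _).trans ?_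
    linarith only [htJ, hDle]
  have h6 : |D ^ 2 - (t * J) ^ 2| ≤ 8 * K ^ 2 * |t| ^ 3 := by
    have e : D ^ 2 - (t * J) ^ 2 = (D - t * J) * (D + t * J) := by ring
    rw [e, abs_mul]
    calc |D - t * J| * |D + t * J| ≤ (2 * K * |t| ^ 2) * (4 * K * |t|) :=
          mul_le_mul h4 h5 (abs_nonneg _) (by positivity)
      _ = _ := by ring
  have e : Real.exp D - 1 - t * J - t ^ 2 / 2 * (J ^ 2 - Q) =
      (Real.exp D - 1 - D - D ^ 2 / 2) + (D - (t * J - t ^ 2 / 2 * Q)) +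
        (D ^ 2 - (t * J) ^ 2) / 2 := by ring
  rw [e]
  have h7 : |(D ^ 2 - (t * J) ^ 2) / 2| ≤ 4 * K ^ 2 * |t| ^ 3 := by
    rw [abs_div]
    have : |(2 : ℝ)| = 2 := by norm_num
    rw [this]; linarith only [h6]
  have h8 : K * |t| ^ 3 ≤ K ^ 3 * |t| ^ 3 := by
    refine mul_le_mul_of_nonneg_right ?_ (by (clear * -; positivity))
    nlinarith only [hK, mul_pos hK3 hK3]
  have h9 : K ^ 2 * |t| ^ 3 ≤ K ^ 3 * |t| ^ 3 := by
    refine mul_le_mul_of_nonneg_right ?_ (by (clear * -; positivity))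
    nlinarith only [hK]
  have h10 : 0 ≤ K ^ 3 * |t| ^ 3 := by (clear * - hK; positivity)
  refine (abs_add_le _ _).trans ?_
  refine (add_le_add_left (abs_add_le _ _) _).trans ?_
  linarith only [hD, h2, h3, h7, h8, h9, h10]

/-- vanishing of a coefficient of an expansion -/
lemma Gb_eq_zero_of_expand [NeZero n] {D : Finset Z2} {H g : (Z2 → Spin n) → ℝ}
    (hH : Continuous H) (hg : Continuous g) (σ : Z2 → Spin n) (k : ℕ) {C t0 : ℝ} (ht0 : 0 < t0)
    (h : ∀ t, 0 < t → t ≤ t0 → ∃ F : (Z2 → Spin n) → ℝ, Continuous F ∧ Gb D H F σ = 0 ∧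
      ∀ τ, |F τ - t ^ k * g τ| ≤ C * t ^ (k + 1)) : Gb D H g σ = 0 := by
  by_contra hne
  have hpos : 0 < |Gb D H g σ| := abs_pos.2 hne
  have key : ∀ t, 0 < t → t ≤ t0 → |Gb D H g σ| ≤ C * t := by
    intro t ht htt
    obtain ⟨F, hF, hF0, hFe⟩ := h t ht htt
    have hc : Continuous fun τ => F τ - t ^ k * g τ := by fun_prop
    have h1 := Gb_abs_le (D := D) hH hc hFe σ
    rw [Gb_sub hH hF (by fun_prop), hF0, Gb_const_mul, zero_sub, abs_neg, abs_mul,
      abs_of_pos (pow_pos ht k)] at h1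
    have h2 : t ^ k * |Gb D H g σ| ≤ t ^ k * (C * t) := by
      calc _ ≤ C * t ^ (k + 1) := h1
        _ = _ := by ring
    exact le_of_mul_le_mul_left h2 (pow_pos ht k)
  have hC : 0 < |C| + 1 := by positivity
  set t := min t0 (|Gb D H g σ| / (2 * (|C| + 1))) with htdef
  have ht : 0 < t := lt_min ht0 (by positivity)
  have h1 := key t ht (min_le_left _ _)
  have h2 : t ≤ |Gb D H g σ| / (2 * (|C| + 1)) := min_le_right _ _
  have h3 : C * t ≤ (|C| + 1) * t :=
    mul_le_mul_of_nonneg_right (by linarith only [le_abs_self C]) ht.le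
  have h4 : (|C| + 1) * t ≤ (|C| + 1) * (|Gb D H g σ| / (2 * (|C| + 1))) :=
    mul_le_mul_of_nonneg_left h2 hC.le
  have h5 : (|C| + 1) * (|Gb D H g σ| / (2 * (|C| + 1))) = |Gb D H g σ| / 2 := by
    (clear * - hne; field_simp)
  linarith only [hpos, h1, h3, h4, h5]

/-! ### Ward identities -/

lemma Gb_act_supp' [NeZero n] {D : Finset Z2} {H : (Z2 → Spin n) → ℝ} {h : Gau Z2 n}
    (hh : SuppIn D h) {f : (Z2 → Spin n) → ℝ} (hH : Continuous H) (hf : Continuous f)
    (σ : Z2 → Spin n) :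
    Gb D H (fun σ => f (act h σ) * Real.exp (H (act h σ) - H σ)) σ = Gb D H f σ := by
  have hc' := continuous_act (n := n) (fun x => (h x).symm)
  have hcont : Continuous fun σ => f σ *
      Real.exp (H σ - H (act (fun x => (h x).symm) σ)) :=
    hf.mul (cexp (hH.sub (hH.comp hc')))
  have h1 := Gb_act_supp hh hH hcont σ
  have e1 : (fun σ => f (act h σ) * Real.exp (H (act h σ) - H σ)) =
      fun σ => (fun σ => f σ * Real.exp (H σ - H (act (fun x => (h x).symm) σ))) (act h σ) := by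
    funext τ
    beta_reduce
    rw [act_symm_act]
  rw [e1, h1]
  congr 1
  funext τ
  rw [mul_assoc, ← Real.exp_add]
  have : H τ - H (act (fun x => (h x).symm) τ) + (H (act (fun x => (h x).symm) τ) - H τ) = 0 := by
    ring
  rw [this, Real.exp_zero, mul_one]

section box

variable [NeZero n] {β : ℝ} {p : Z2} {l : ℤ} {φ : Z2 → ℝ}

lemma suppIn_rg (P : Pl n) (hs : ∀ x ∉ inn p l, φ x = 0) (t : ℝ) :
    SuppIn (inn p l) (P.rg (fun x => t * φ x)) := by
  intro x hx
  unfold Pl.rg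
  beta_reduce
  rw [hs x hx, mul_zero, mw_rot_zero]

/-- all the constants of the expansion -/
lemma exp_DW_expand (hβ : 0 ≤ β) (hl : 0 ≤ l) (P : Pl n)
    (hφ : ∀ u v, Nb u v → |φ u - φ v| ≤ 1) {t : ℝ}
    (ht : 3 * (4 * (l : ℝ) ^ 2 * β + 1) * |t| ≤ 1) (σ : Z2 → Spin n) :
    |DW β p l P (fun x => t * φ x) σ| ≤ 3 * (4 * (l : ℝ) ^ 2 * β + 1) * |t| ∧
    |Real.exp (DW β p l P (fun x => t * φ x) σ) - 1 - t * Jc β p l φ P.X σ -
      t ^ 2 / 2 * ((Jc β p l φ P.X σ) ^ 2 - Dc β p l φ P.X σ)| ≤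
      40 * (4 * (l : ℝ) ^ 2 * β + 1) ^ 3 * |t| ^ 3 := by
  have hlb : 0 ≤ (l : ℝ) ^ 2 * β := by positivity
  have ht1 : |t| ≤ 1 := by
    have := abs_nonneg t
    nlinarith only [ht, hlb]
  have hφ' : ∀ u v, Nb u v → u ∈ clo p l → v ∈ clo p l → |φ u - φ v| ≤ 1 :=
    fun u v h _ _ => hφ u v h
  refine mw_exp_expand (by linarith only [hlb]) ht ?_ ?_ ?_
  · refine (DW_expand hβ p hl P hφ ht1 σ).trans ?_
    have : 0 ≤ |t| ^ 3 := by positivity
    linarith
  · refine (Jc_abs_le hβ p hl P zero_le_one hφ' σ).trans ?_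
    linarith
  · refine (Dc_abs_le hβ p hl P zero_le_one hφ' σ).trans ?_
    linarith

theorem Jc_sq_eq (hβ : 0 ≤ β) (hl : 0 ≤ l) (P : Pl n)
    (hφ : ∀ u v, Nb u v → |φ u - φ v| ≤ 1) (hs : ∀ x ∉ inn p l, φ x = 0) (σ : Z2 → Spin n) :
    Gc β p l (fun σ => (Jc β p l φ P.X σ) ^ 2) σ = Gc β p l (Dc β p l φ P.X) σ := by
  have hJ := continuous_Jc (n := n) β p l φ P.X
  have hD := continuous_Dc (n := n) β p l φ P.X
  have hW := continuous_W (n := n) β p l
  have hg : Continuous fun σ => (Jc β p l φ P.X σ) ^ 2 - Dc β p l φ P.X σ := by fun_prop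
  set K : ℝ := 4 * (l : ℝ) ^ 2 * β + 1 with hK
  have hK0 : 0 < K := by (clear * - hβ; positivity)
  have key : Gb (inn p l) (W β p l) (fun σ => (Jc β p l φ P.X σ) ^ 2 - Dc β p l φ P.X σ) σ = 0 := by
    refine Gb_eq_zero_of_expand hW hg σ 2 (C := 80 * K ^ 3) (t0 := 1 / (3 * K)) (by (clear * - hβ; positivity)) ?_
    intro t ht htt
    have hc1 := cexp (continuous_DW (n := n) β p l P (fun x => t * φ x))
    have hc2 := cexp (continuous_DW (n := n) β p l P (fun x => -t * φ x))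
    refine ⟨fun σ => (Real.exp (DW β p l P (fun x => t * φ x) σ) +
      Real.exp (DW β p l P (fun x => -t * φ x) σ)) - 2, (hc1.add hc2).sub continuous_const, ?_, ?_⟩
    · have hc3 : Continuous fun σ => Real.exp (DW β p l P (fun x => t * φ x) σ) +
          Real.exp (DW β p l P (fun x => -t * φ x) σ) := hc1.add hc2
      rw [Gb_sub hW hc3 continuous_const, Gb_add hW hc1 hc2, Gb_const hW]
      have e1 := Gb_exp_supp (suppIn_rg P hs t) hW σ
      have e2 := Gb_exp_supp (suppIn_rg P hs (-t)) hW σ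
      unfold DW
      rw [e1, e2]
      norm_num
    · intro τ
      have h3 : 3 * K * t ≤ 1 := by
        have := mul_le_mul_of_nonneg_left htt (by (clear * - hβ; positivity) : (0 : ℝ) ≤ 3 * K)
        have e : 3 * K * (1 / (3 * K)) = 1 := by field_simp
        linarith only [this, e]
      have h1 := (exp_DW_expand (p := p) hβ hl P hφ (t := t)
        (by rw [abs_of_pos ht]; exact h3) τ).2
      have h2 := (exp_DW_expand (p := p) hβ hl P hφ (t := -t)
        (by rw [abs_neg, abs_of_pos ht]; exact h3) τ).2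
      rw [abs_of_pos ht] at h1
      rw [abs_neg, abs_of_pos ht] at h2
      have h4 := (abs_add_le _ _).trans (add_le_add h1 h2)
      have h5 : 40 * K ^ 3 * t ^ 3 + 40 * K ^ 3 * t ^ 3 = 80 * K ^ 3 * t ^ (2 + 1) := by ring
      rw [← h5]
      refine le_trans (le_of_eq ?_) h4
      congr 1
      ring
  rw [Gb_sub hW (by fun_prop) hD] at key
  exact sub_eq_zero.1 key

theorem Jc_mul_eq (hβ : 0 ≤ β) (hl : 0 ≤ l) (P : Pl n)
    (hφ : ∀ u v, Nb u v → |φ u - φ v| ≤ 1) (hs : ∀ x ∉ inn p l, φ x = 0)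
    {F G : (Z2 → Spin n) → ℝ} (hF : Continuous F) (hG : Continuous G) (hF1 : ∀ σ, |F σ| ≤ 1)
    (hG1 : ∀ σ, |G σ| ≤ 1) {ε : ℝ} (hε : |ε| ≤ 1)
    (hFG : ∀ t σ, F (act (P.rg fun x => t * φ x) σ) = Real.cos t * F σ + (ε * Real.sin t) * G σ)
    (σ : Z2 → Spin n) :
    Gc β p l (fun σ => F σ * Jc β p l φ P.X σ) σ = -(ε * Gc β p l G σ) := by
  have hJ := continuous_Jc (n := n) β p l φ P.X
  have hD := continuous_Dc (n := n) β p l φ P.X
  have hW := continuous_W (n := n) β p l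
  have hg : Continuous fun σ => F σ * Jc β p l φ P.X σ + ε * G σ := by fun_prop
  set K : ℝ := 4 * (l : ℝ) ^ 2 * β + 1 with hK
  have hlb : 0 ≤ (l : ℝ) ^ 2 * β := by (clear * - hβ; positivity)
  have hK1 : 1 ≤ K := by rw [hK]; linarith only [hlb]
  have hK0 : 0 < K := by linarith only [hlb]
  have key : Gb (inn p l) (W β p l) (fun σ => F σ * Jc β p l φ P.X σ + ε * G σ) σ = 0 := by
    refine Gb_eq_zero_of_expand hW hg σ 1 (C := 200 * K ^ 3) (t0 := 1 / (3 * K)) (by (clear * - hβ; positivity)) ?_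
    intro t ht htt
    have hc1 := cexp (continuous_DW (n := n) β p l P (fun x => t * φ x))
    have hc2 : Continuous fun σ => (F (act (P.rg fun x => t * φ x) σ)) *
        Real.exp (DW β p l P (fun x => t * φ x) σ) := (hF.comp (continuous_act _)).mul hc1
    refine ⟨fun σ => (F (act (P.rg fun x => t * φ x) σ)) *
        Real.exp (DW β p l P (fun x => t * φ x) σ) - F σ, hc2.sub hF, ?_, ?_⟩
    · rw [Gb_sub hW hc2 hF]
      have e1 := Gb_act_supp' (suppIn_rg P hs t) hW hF σ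
      unfold DW
      rw [e1, sub_self]
    · intro τ
      have h3 : 3 * K * t ≤ 1 := by
        have := mul_le_mul_of_nonneg_left htt (by (clear * - hβ; positivity) : (0 : ℝ) ≤ 3 * K)
        have e : 3 * K * (1 / (3 * K)) = 1 := by field_simp
        linarith only [this, e]
      have ht1 : t ≤ 1 := by nlinarith only [h3, hlb]
      obtain ⟨h0, h1⟩ := exp_DW_expand (p := p) hβ hl P hφ (t := t)
        (by rw [abs_of_pos ht]; exact h3) τ
      have hJ1 : |Jc β p l φ P.X τ| ≤ K := by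
        refine (Jc_abs_le hβ p hl P zero_le_one (fun u v h _ _ => hφ u v h) τ).trans ?_
        rw [hK]; nlinarith only [hlb]
      have hQ1 : |Dc β p l φ P.X τ| ≤ K := by
        refine (Dc_abs_le hβ p hl P zero_le_one (fun u v h _ _ => hφ u v h) τ).trans ?_
        rw [hK]; nlinarith only [hlb]
      beta_reduce
      rw [hFG, abs_of_pos ht] at *
      have hcos := mw_cos (x := t) (by rw [abs_of_pos ht]; exact ht1)
      have hsin := mw_sin (x := t) (by rw [abs_of_pos ht]; exact ht1)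
      rw [abs_of_pos ht] at hcos hsin
      have hf := hF1 τ
      have hgg := hG1 τ
      set J := Jc β p l φ P.X τ
      set Q := Dc β p l φ P.X τ
      set D := DW β p l P (fun x => t * φ x) τ
      set f := F τ
      set g := G τ
      have ht2 : 0 ≤ t ^ 2 := sq_nonneg t
      have ht3 : t ^ 3 ≤ t ^ 2 := pow_le_pow_of_le_one ht.le ht1 (by norm_num)
      -- the exponential
      have hJ2 : |J ^ 2 - Q| ≤ 2 * K ^ 2 := by
        refine (abs_sub _ _).trans ?_
        rw [abs_pow]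
        have : |J| ^ 2 ≤ K ^ 2 := pow_le_pow_left₀ (abs_nonneg _) hJ1 2
        nlinarith only [hlb, hQ1, this]
      have hK3 : K ^ 2 ≤ K ^ 3 := pow_le_pow_right₀ hK1 (by norm_num)
      have hK13 : K ≤ K ^ 3 := by
        calc K = K ^ 1 := (pow_one K).symm
          _ ≤ K ^ 3 := pow_le_pow_right₀ hK1 (by norm_num)
      have hK03 : 1 ≤ K ^ 3 := one_le_pow₀ hK1
      have he : |Real.exp D - 1 - t * J| ≤ 41 * K ^ 3 * t ^ 2 := by
        have e : Real.exp D - 1 - t * J =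
            (Real.exp D - 1 - t * J - t ^ 2 / 2 * (J ^ 2 - Q)) + t ^ 2 / 2 * (J ^ 2 - Q) := by ring
        rw [e]
        refine (abs_add_le _ _).trans ?_
        have h5 : |t ^ 2 / 2 * (J ^ 2 - Q)| ≤ t ^ 2 / 2 * (2 * K ^ 2) := by
          rw [abs_mul, abs_of_nonneg (by positivity : (0 : ℝ) ≤ t ^ 2 / 2)]
          exact mul_le_mul_of_nonneg_left hJ2 (by positivity)
        have h6 : K ^ 3 * t ^ 3 ≤ K ^ 3 * t ^ 2 := mul_le_mul_of_nonneg_left ht3 (by (clear * - hβ; positivity))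
        have h7 : K ^ 2 * t ^ 2 ≤ K ^ 3 * t ^ 2 := mul_le_mul_of_nonneg_right hK3 ht2
        linarith
      have hexp : |Real.exp D| ≤ 3 := by
        rw [abs_of_pos (Real.exp_pos _)]
        have hD1 : D ≤ 1 := (le_abs_self D).trans (h0.trans h3)
        calc Real.exp D ≤ Real.exp 1 := Real.exp_le_exp.2 hD1
          _ ≤ 3 := by have := Real.exp_one_lt_d9; linarith only [this]
      have hc : |Real.cos t - 1| ≤ 2 * t ^ 2 := by
        have e : Real.cos t - 1 = (Real.cos t - 1 + t ^ 2 / 2) + -(t ^ 2 / 2) := by ring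
        rw [e]
        refine (abs_add_le _ _).trans ?_
        rw [abs_neg, abs_of_nonneg (by positivity : (0 : ℝ) ≤ t ^ 2 / 2)]
        linarith only [hcos, ht2, ht3]
      have hsn : |Real.sin t - t| ≤ t ^ 2 := hsin.trans ht3
      have e : (Real.cos t * f + ε * Real.sin t * g) * Real.exp D - f - t ^ 1 * (f * J + ε * g) =
          (Real.cos t - 1) * (f * Real.exp D) + f * (Real.exp D - 1 - t * J) +
          (Real.sin t - t) * (ε * g * Real.exp D) + t * (ε * g) * (Real.exp D - 1 - t * J) +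
          t ^ 2 * (ε * g * J) := by ring
      have hfe : |f * Real.exp D| ≤ 3 := by
        rw [abs_mul]
        calc |f| * |Real.exp D| ≤ 1 * 3 := mul_le_mul hf hexp (abs_nonneg _) zero_le_one
          _ = 3 := by norm_num
      have heg : |ε * g| ≤ 1 := by
        rw [abs_mul]
        calc |ε| * |g| ≤ 1 * 1 := mul_le_mul hε hgg (abs_nonneg _) zero_le_one
          _ = 1 := by norm_num
      have hege : |ε * g * Real.exp D| ≤ 3 := by
        rw [abs_mul]
        calc |ε * g| * |Real.exp D| ≤ 1 * 3 := mul_le_mul heg hexp (abs_nonneg _) zero_le_one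
          _ = 3 := by norm_num
      have hegJ : |ε * g * J| ≤ K := by
        rw [abs_mul]
        calc |ε * g| * |J| ≤ 1 * K := mul_le_mul heg hJ1 (abs_nonneg _) zero_le_one
          _ = K := by ring
      have b1 : |(Real.cos t - 1) * (f * Real.exp D)| ≤ 2 * t ^ 2 * 3 := by
        rw [abs_mul]
        exact mul_le_mul hc hfe (abs_nonneg _) (by positivity)
      have b2 : |f * (Real.exp D - 1 - t * J)| ≤ 1 * (41 * K ^ 3 * t ^ 2) := by
        rw [abs_mul]
        exact mul_le_mul hf he (abs_nonneg _) zero_le_one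
      have b3 : |(Real.sin t - t) * (ε * g * Real.exp D)| ≤ t ^ 2 * 3 := by
        rw [abs_mul]
        exact mul_le_mul hsn hege (abs_nonneg _) (by positivity)
      have b4 : |t * (ε * g) * (Real.exp D - 1 - t * J)| ≤ 1 * (41 * K ^ 3 * t ^ 2) := by
        rw [abs_mul]
        refine mul_le_mul ?_ he (abs_nonneg _) zero_le_one
        rw [abs_mul, abs_of_pos ht]
        calc t * |ε * g| ≤ 1 * 1 := mul_le_mul ht1 heg (abs_nonneg _) zero_le_one
          _ = 1 := by norm_num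
      have b5 : |t ^ 2 * (ε * g * J)| ≤ t ^ 2 * K := by
        rw [abs_mul, abs_of_nonneg ht2]
        exact mul_le_mul_of_nonneg_left hegJ ht2
      rw [e]
      have hsum : |(Real.cos t - 1) * (f * Real.exp D) + f * (Real.exp D - 1 - t * J) +
          (Real.sin t - t) * (ε * g * Real.exp D) + t * (ε * g) * (Real.exp D - 1 - t * J) +
          t ^ 2 * (ε * g * J)| ≤ 2 * t ^ 2 * 3 + 1 * (41 * K ^ 3 * t ^ 2) + t ^ 2 * 3 +
          1 * (41 * K ^ 3 * t ^ 2) + t ^ 2 * K := by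
        refine (abs_add_le _ _).trans (add_le_add ?_ b5)
        refine (abs_add_le _ _).trans (add_le_add ?_ b4)
        refine (abs_add_le _ _).trans (add_le_add ?_ b3)
        exact (abs_add_le _ _).trans (add_le_add b1 b2)
      refine hsum.trans ?_
      have h6 : t ^ 2 * K ≤ t ^ 2 * K ^ 3 := mul_le_mul_of_nonneg_left hK13 ht2
      have h7 : t ^ 2 * 1 ≤ t ^ 2 * K ^ 3 := mul_le_mul_of_nonneg_left hK03 ht2
      have h8 : t ^ (1 + 1) = t ^ 2 := by norm_num
      have h9 : 0 ≤ t ^ 2 * K ^ 3 := by (clear * - ht hβ; positivity)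
      rw [h8]
      linarith only [ht2, h6, h7]
  rw [Gb_add hW (by fun_prop) (by fun_prop), Gb_const_mul] at key
  linarith only [key]

end box

/-! ### Decomposition in cells -/

section cellsec

variable [NeZero n] {β : ℝ} {p : Z2} {l N : ℤ} {φ : Z2 → ℝ}

theorem jj_sq_eq (hl : 0 < l) (hN : 0 ≤ N) (X : E n →L[ℝ] E n) (σ : Z2 → Spin n)
    (hJD : Gc β p (N * l) (fun σ => (Jc β p (N * l) φ X σ) ^ 2) σ =
      Gc β p (N * l) (Dc β p (N * l) φ X) σ) :
    Gc β p (N * l) (fun σ => (jj β p l N φ X σ) ^ 2) σ =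
      ∑ k ∈ cells N, Gc β p (N * l) (St β (corner p l k) l φ X) σ := by
  have hcD : ∀ k, Continuous (Gc β (corner p l k) l (Dc β (corner p l k) l φ X)) :=
    fun k => continuous_Gc β _ l (continuous_Dc β _ l φ X)
  have hcV : ∀ k, Continuous (Vc β (corner p l k) l (Jc β (corner p l k) l φ X)) :=
    fun k => continuous_Vr (continuous_W β _ l) (continuous_Jc β _ l φ X)
  have h1 := (cellSys n β p l N hl).total_sq
    (Φ := fun k => Jc β (corner p l k) l φ X) (fun k => continuous_Jc β _ l φ X)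
    (fun k _ k' _ hne => (locIn_PSb _ _ _).noDep (inn_disj_clo p hl hne)) σ
  have h2 := (cellSys n β p l N hl).total_mean
    (Φ := fun k => Dc β (corner p l k) l φ X) (fun k => continuous_Dc β _ l φ X) σ
  simp only [cellSys] at h1 h2
  have e1 : (fun σ => (Jc β p (N * l) φ X σ) ^ 2) =
      fun σ => (∑ k ∈ cells N, Jc β (corner p l k) l φ X σ) ^ 2 := by
    funext σ; congr 1; exact PSb_cells p hl hN _ σ
  have e2 : Dc β p (N * l) φ X = fun σ => ∑ k ∈ cells N, Dc β (corner p l k) l φ X σ := by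
    funext σ; exact PSb_cells p hl hN _ σ
  rw [← e1] at h1
  rw [← e2] at h2
  have h3 : ∀ k ∈ cells N, Gc β p (N * l) (St β (corner p l k) l φ X) σ =
      Gc β p (N * l) (Gc β (corner p l k) l (Dc β (corner p l k) l φ X)) σ -
      Gc β p (N * l) (Vc β (corner p l k) l (Jc β (corner p l k) l φ X)) σ := fun k _ =>
    Gb_sub (continuous_W _ _ _) (hcD k) (hcV k) σ
  rw [Finset.sum_congr rfl h3, Finset.sum_sub_distrib]
  have h4 : ∑ k ∈ cells N, Gc β p (N * l) (Gc β (corner p l k) l (Dc β (corner p l k) l φ X)) σ =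
      Gc β p (N * l) (Dc β p (N * l) φ X) σ := by
    unfold Gc at *
    rw [h2, Gb_sum _ (continuous_W _ _ _) (fun k _ => hcD k)]
  rw [h4, ← hJD]
  unfold Gc Vc jj at *
  rw [h1]
  ring

theorem mul_Jc_eq_jj (hl : 0 < l) (hN : 0 ≤ N) (X : E n →L[ℝ] E n)
    {F : (Z2 → Spin n) → ℝ} (hF : Continuous F)
    (hFn : ∀ k ∈ cells N, NoDep (inn (corner p l k) l) F) (σ : Z2 → Spin n) :
    Gc β p (N * l) (fun σ => F σ * Jc β p (N * l) φ X σ) σ =
      Gc β p (N * l) (fun σ => F σ * jj β p l N φ X σ) σ := by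
  have hW := continuous_W (n := n) β p (N * l)
  have e1 : (fun σ => F σ * Jc β p (N * l) φ X σ) =
      fun σ => ∑ k ∈ cells N, F σ * Jc β (corner p l k) l φ X σ := by
    funext σ
    rw [← Finset.mul_sum]
    congr 1
    exact PSb_cells p hl hN _ σ
  have e2 : (fun σ => F σ * jj β p l N φ X σ) =
      fun σ => ∑ k ∈ cells N, F σ * Gc β (corner p l k) l (Jc β (corner p l k) l φ X) σ := by
    funext σ
    unfold jj
    rw [Finset.mul_sum]
  have hcJ : ∀ k, Continuous (Jc (n := n) β (corner p l k) l φ X) :=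
    fun k => continuous_Jc β _ l φ X
  have hcG : ∀ k, Continuous (Gc (n := n) β (corner p l k) l (Jc β (corner p l k) l φ X)) :=
    fun k => continuous_Gc β _ l (hcJ k)
  have c1 : ∀ k, Continuous fun σ => F σ * Jc β (corner p l k) l φ X σ := fun k => hF.mul (hcJ k)
  have c2 : ∀ k, Continuous fun σ => F σ *
      Gc β (corner p l k) l (Jc β (corner p l k) l φ X) σ := fun k => hF.mul (hcG k)
  rw [e1, e2]
  unfold Gc at *
  rw [Gb_sum _ hW (fun k _ => c1 k), Gb_sum _ hW (fun k _ => c2 k)]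
  refine Finset.sum_congr rfl fun k hk => ?_
  exact (cellSys n β p l N hl).repl hk (hcJ k) hF (hFn k hk) σ

end cellsec

/-! ### The averaged spin of the inner box -/

/-- conditional expectation of the spin at the origin, given the spins outside `(-R, R)^2` -/
noncomputable def Fw (β : ℝ) (R : ℤ) (w : E n) : (Z2 → Spin n) → ℝ :=
  Gc β (-R, -R) (2 * R) (fun σ => ⟪w, (σ (0, 0) : E n)⟫)

section inner

variable [NeZero n] {β : ℝ} {R : ℤ}

lemma continuous_ip (w : E n) (x : Z2) : Continuous fun σ : Z2 → Spin n => ⟪w, (σ x : E n)⟫ :=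
  continuous_const.inner (continuous_subtype_val.comp (continuous_apply x))

lemma continuous_Fw (w : E n) : Continuous (Fw β R w) :=
  continuous_Gc β _ _ (continuous_ip w _)

lemma Fw_neg (w : E n) (σ : Z2 → Spin n) : Fw β R (-w) σ = -Fw β R w σ := by
  unfold Fw
  have e : (fun σ : Z2 → Spin n => ⟪-w, (σ (0, 0) : E n)⟫) =
      fun σ => (-1) * ⟪w, (σ (0, 0) : E n)⟫ := by
    funext τ; rw [inner_neg_left]; ring
  rw [e]
  unfold Gc
  rw [Gb_const_mul]
  ring

lemma Fw_abs_le {M : ℝ} (hM : MB n β R M) {w : E n} (hw : ‖w‖ = 1) (σ : Z2 → Spin n) :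
    |Fw β R w σ| ≤ M := by
  rw [abs_le]
  constructor
  · have := hM σ (-w) (by rw [norm_neg, hw])
    have h2 := Fw_neg (β := β) (R := R) w σ
    unfold Fw at h2 ⊢
    linarith
  · exact hM σ w hw

lemma Fw_abs_le_one {w : E n} (hw : ‖w‖ = 1) (σ : Z2 → Spin n) : |Fw β R w σ| ≤ 1 := by
  refine Gb_abs_le (continuous_W _ _ _) (continuous_ip w _) (fun τ => ?_) σ
  have := abs_real_inner_le_norm w (τ (0, 0) : E n)
  rw [hw, mw_spin_norm] at this
  linarith

/-- action of a rotation which is constant on the closed inner box -/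
lemma Fw_act (hR : 0 < R) (P : Pl n) {f : Z2 → ℝ} {t : ℝ} (w : E n)
    (hf : ∀ x ∈ clo (-R, -R) (2 * R), f x = t) (σ : Z2 → Spin n) :
    Fw β R w (act (P.rg f) σ) =
      Gc β (-R, -R) (2 * R) (fun σ => ⟪w, P.rot t (σ (0, 0))⟫) σ := by
  have hW := continuous_W (n := n) β (-R, -R) (2 * R)
  unfold Fw Gc
  rw [Gb_act _ hW (continuous_ip w _)]
  have h0 : (0, 0) ∈ clo (-R, -R) (2 * R) := by
    rw [mem_clo]; simp only; omega
  have hE : ∀ σ : Z2 → Spin n, W β (-R, -R) (2 * R) (act (P.rg f) σ) -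
      W β (-R, -R) (2 * R) σ = 0 := by
    intro σ
    unfold W PSb
    rw [← PS_sub]
    rw [← PS_zero (p := (-R, -R)) (l := 2 * R)]
    refine PS_congr fun u v _ hu hv => ?_
    beta_reduce
    rw [coe_act, coe_act]
    unfold Pl.rg
    beta_reduce
    rw [hf u hu, hf v hv, LinearIsometryEquiv.inner_map_map]
    ring
  have e1 : (fun σ : Z2 → Spin n => ⟪w, ((act (P.rg f) σ (0, 0) : Spin n) : E n)⟫ *
      Real.exp (W β (-R, -R) (2 * R) (act (P.rg f) σ) - W β (-R, -R) (2 * R) σ)) =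
      fun σ => ⟪w, P.rot t (σ (0, 0))⟫ := by
    funext τ
    rw [hE, Real.exp_zero, mul_one, coe_act]
    unfold Pl.rg
    rw [hf _ h0]
  have e2 : (fun σ : Z2 → Spin n => Real.exp (W β (-R, -R) (2 * R) (act (P.rg f) σ) -
      W β (-R, -R) (2 * R) σ)) = fun _ => 1 := by
    funext τ
    rw [hE, Real.exp_zero]
  rw [e1, e2, Gb_const hW, div_one]

lemma Fw_act_b (hR : 0 < R) (P : Pl n) {f : Z2 → ℝ} {t : ℝ}
    (hf : ∀ x ∈ clo (-R, -R) (2 * R), f x = t) (σ : Z2 → Spin n) :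
    Fw β R P.b (act (P.rg f) σ) = Real.cos t * Fw β R P.b σ + Real.sin t * Fw β R P.a σ := by
  have hW := continuous_W (n := n) β (-R, -R) (2 * R)
  rw [Fw_act hR P P.b hf]
  have e : (fun σ : Z2 → Spin n => ⟪P.b, P.rot t (σ (0, 0))⟫) =
      fun σ => Real.cos t * ⟪P.b, (σ (0, 0) : E n)⟫ + Real.sin t * ⟪P.a, (σ (0, 0) : E n)⟫ := by
    funext τ; exact mw_inner_b P t _
  rw [e]
  unfold Gc Fw
  rw [Gb_add hW ((continuous_ip _ _).const_mul _) ((continuous_ip _ _).const_mul _),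
    Gb_const_mul, Gb_const_mul]

lemma Fw_act_a (hR : 0 < R) (P : Pl n) {f : Z2 → ℝ} {t : ℝ}
    (hf : ∀ x ∈ clo (-R, -R) (2 * R), f x = t) (σ : Z2 → Spin n) :
    Fw β R P.a (act (P.rg f) σ) = Real.cos t * Fw β R P.a σ + (-Real.sin t) * Fw β R P.b σ := by
  have hW := continuous_W (n := n) β (-R, -R) (2 * R)
  rw [Fw_act hR P P.a hf]
  have e : (fun σ : Z2 → Spin n => ⟪P.a, P.rot t (σ (0, 0))⟫) =
      fun σ => Real.cos t * ⟪P.a, (σ (0, 0) : E n)⟫ + (-Real.sin t) * ⟪P.b, (σ (0, 0) : E n)⟫ := by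
    funext τ; exact mw_inner_a P t _
  rw [e]
  unfold Gc Fw
  rw [Gb_add hW ((continuous_ip _ _).const_mul _) ((continuous_ip _ _).const_mul _),
    Gb_const_mul, Gb_const_mul]

lemma NoDep_Fw_inn (w : E n) {D : Finset Z2} (hD : D ⊆ inn (-R, -R) (2 * R)) :
    NoDep D (Fw β R w) := (NoDep_Gb _).mono hD

lemma NoDep_Fw_out (hR : 0 < R) (w : E n) {D : Finset Z2}
    (hD : Disjoint D (clo (-R, -R) (2 * R))) : NoDep D (Fw β R w) := by
  have h0 : (0, 0) ∈ clo (-R, -R) (2 * R) := by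
    rw [mem_clo]; simp only; omega
  refine NoDep.Gb ?_ ((locIn_PSb _ _ _).noDep hD)
  intro ξ σ
  beta_reduce
  rw [Finset.piecewise_eq_of_notMem _ _ _ (Finset.disjoint_right.1 hD h0)]

end inner

/-! ### The cutoff function -/

/-- cutoff function: `1` on `[-R, R]^2`, `0` outside `(-2R, 2R)^2` -/
noncomputable def cut (R : ℤ) (x : Z2) : ℝ :=
  max 0 (min 1 (2 - ((max |x.1| |x.2| : ℤ) : ℝ) / (R : ℝ)))

lemma cut_out {R : ℤ} (hR : 0 < R) {x : Z2}
    (hx : x ∉ inn (-(2 * R), -(2 * R)) (2 * (2 * R))) : cut R x = 0 := by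
  have hRr : (0 : ℝ) < R := by exact_mod_cast hR
  have h1 : 2 * R ≤ max |x.1| |x.2| := by
    by_contra hlt
    rw [not_le, max_lt_iff, abs_lt, abs_lt] at hlt
    apply hx
    rw [mem_inn]
    simp only
    omega
  have h2 : (2 : ℝ) * R ≤ ((max |x.1| |x.2| : ℤ) : ℝ) := by exact_mod_cast h1
  have h3 : 2 ≤ ((max |x.1| |x.2| : ℤ) : ℝ) / (R : ℝ) := by
    rw [le_div_iff₀ hRr]; exact h2
  unfold cut
  refine max_eq_left ?_
  exact (min_le_right _ _).trans (by linarith)

lemma cut_in {R : ℤ} (hR : 0 < R) {x : Z2} (hx : x ∈ clo (-R, -R) (2 * R)) : cut R x = 1 := by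
  have hRr : (0 : ℝ) < R := by exact_mod_cast hR
  rw [mem_clo] at hx
  simp only at hx
  have h1 : max |x.1| |x.2| ≤ R := by
    rw [max_le_iff, abs_le, abs_le]
    omega
  have h2 : ((max |x.1| |x.2| : ℤ) : ℝ) ≤ R := by exact_mod_cast h1
  have h3 : ((max |x.1| |x.2| : ℤ) : ℝ) / (R : ℝ) ≤ 1 := by
    rw [div_le_one hRr]; exact h2
  unfold cut
  rw [min_eq_left (by linarith only [h3])]
  exact max_eq_right zero_le_one

lemma cut_lip {R : ℤ} (hR : 0 < R) {u v : Z2} (h : Nb u v) : |cut R u - cut R v| ≤ 1 / R := by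
  have hRr : (0 : ℝ) < R := by exact_mod_cast hR
  have h1 : |max (|u.1|) (|u.2|) - max (|v.1|) (|v.2|)| ≤ 1 := by
    have e1 := abs_max_sub_max_le_max (|u.1|) (|u.2|) (|v.1|) (|v.2|)
    refine e1.trans (max_le ?_ ?_)
    · refine (abs_abs_sub_abs_le _ _).trans ?_
      rcases h with rfl | rfl
      · simp
      · simp only [sub_self, abs_zero, zero_le_one]
    · refine (abs_abs_sub_abs_le _ _).trans ?_
      rcases h with rfl | rfl
      · simp only [sub_self, abs_zero, zero_le_one]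
      · simp
  have h2 : |((max (|u.1|) (|u.2|) : ℤ) : ℝ) - ((max (|v.1|) (|v.2|) : ℤ) : ℝ)| ≤ 1 := by
    exact_mod_cast h1
  unfold cut
  have e1 : ∀ a b : ℝ, |max 0 (min 1 (2 - a)) - max 0 (min 1 (2 - b))| ≤ |a - b| := by
    intro a b
    have h3 := abs_max_sub_max_le_max (0 : ℝ) (min 1 (2 - a)) 0 (min 1 (2 - b))
    have h4 := abs_min_sub_min_le_max (1 : ℝ) (2 - a) 1 (2 - b)
    have h5 : (2 - a) - (2 - b) = -(a - b) := by ring
    rw [sub_self, abs_zero] at h3 h4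
    rw [h5, abs_neg] at h4
    have h6 : max 0 |a - b| = |a - b| := max_eq_right (abs_nonneg _)
    rw [h6] at h4
    exact h3.trans (max_le (abs_nonneg _) h4)
  refine (e1 _ _).trans ?_
  rw [← sub_div, abs_div, abs_of_pos hRr]
  exact div_le_div_of_nonneg_right h2 hRr.le

lemma cut_affine_aux {R m L : ℤ} (hL : 0 < L) (hm : 0 < m) (hR : R = m * L) (s : Z2 → ℤ)
    {v : ℝ × ℝ} (hv1 : |v.1| ≤ 1) (hv2 : |v.2| ≤ 1) (hv : ∀ x, (s x : ℝ) = lin v x)
    (S : Finset Z2) (hmax : ∀ x ∈ S, max |x.1| |x.2| = s x) {j : ℤ} (hj : j < 2 * m)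
    (hs : ∀ x ∈ S, L * j ≤ s x ∧ s x ≤ L * j + L) :
    ∃ (c : ℝ) (v' : ℝ × ℝ), |v'.1| ≤ 1 ∧ |v'.2| ≤ 1 ∧
      ∀ x ∈ S, cut R x = c + (1 / R) * lin v' x := by
  have hRpos : 0 < R := by rw [hR]; exact mul_pos hm hL
  have hRr : (0 : ℝ) < R := by exact_mod_cast hRpos
  rcases lt_or_ge j m with hjm | hjm
  · refine ⟨1, (0, 0), by simp, by simp, fun x hx => ?_⟩
    have h1 : s x ≤ R := by
      have h2 : L * (j + 1) ≤ L * m := mul_le_mul_of_nonneg_left (by omega) hL.le
      have h3 : L * (j + 1) = L * j + L := by ring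
      have h4 : L * m = m * L := mul_comm _ _
      have := (hs x hx).2
      omega
    have h2 : (s x : ℝ) ≤ R := by exact_mod_cast h1
    have h3 : (s x : ℝ) / (R : ℝ) ≤ 1 := by rw [div_le_one hRr]; exact h2
    unfold cut
    rw [hmax x hx, min_eq_left (by linarith only [h3]), max_eq_right zero_le_one]
    simp [lin]
  · refine ⟨2, (-v.1, -v.2), by simpa using hv1, by simpa using hv2, fun x hx => ?_⟩
    have h4 : L * m = m * L := mul_comm _ _
    have h1 : R ≤ s x := by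
      have h2 : L * m ≤ L * j := mul_le_mul_of_nonneg_left hjm hL.le
      have := (hs x hx).1
      omega
    have h1' : s x ≤ 2 * R := by
      have h2 : L * (j + 1) ≤ L * (2 * m) := mul_le_mul_of_nonneg_left (by omega) hL.le
      have h3 : L * (j + 1) = L * j + L := by ring
      have h5 : L * (2 * m) = 2 * (m * L) := by ring
      have := (hs x hx).2
      omega
    have h2 : (R : ℝ) ≤ s x := by exact_mod_cast h1
    have h2' : (s x : ℝ) ≤ 2 * R := by exact_mod_cast h1'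
    have h3 : 1 ≤ (s x : ℝ) / (R : ℝ) := by rw [one_le_div hRr]; exact h2
    have h3' : (s x : ℝ) / (R : ℝ) ≤ 2 := by rw [div_le_iff₀ hRr]; exact h2'
    unfold cut
    rw [hmax x hx, min_eq_right (by linarith only [h3]), max_eq_right (by linarith only [h3']), hv]
    simp only [lin]
    ring

/-- the cutoff function is affine on the cells off the diagonals -/
lemma cut_affine {R m L : ℤ} (hL : 0 < L) (hm : 0 < m) (hR : R = m * L) {k : Z2}
    (hk : k ∈ cells (4 * m)) (h1 : k.1 ≠ k.2) (h2 : k.1 + k.2 ≠ 4 * m - 1) :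
    ∃ (c : ℝ) (v' : ℝ × ℝ), |v'.1| ≤ 1 ∧ |v'.2| ≤ 1 ∧
      ∀ x ∈ clo (corner (-(2 * R), -(2 * R)) L k) L, cut R x = c + (1 / R) * lin v' x := by
  rw [mem_cells] at hk
  obtain ⟨a, ha⟩ : ∃ a, a = k.1 - 2 * m := ⟨_, rfl⟩
  obtain ⟨b, hb⟩ : ∃ b, b = k.2 - 2 * m := ⟨_, rfl⟩
  have hab : a ≠ b := by omega
  have hab2 : a + b ≠ -1 := by omega
  have hx : ∀ x ∈ clo (corner (-(2 * R), -(2 * R)) L k) L,
      (L * a ≤ x.1 ∧ x.1 ≤ L * a + L) ∧ (L * b ≤ x.2 ∧ x.2 ≤ L * b + L) := by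
    intro x hx
    rw [mem_clo] at hx
    simp only [corner] at hx
    have e1 : L * a = -(2 * R) + L * k.1 := by rw [ha, hR]; ring
    have e2 : L * b = -(2 * R) + L * k.2 := by rw [hb, hR]; ring
    rw [e1, e2]
    exact hx
  have mul_le : ∀ i j : ℤ, i ≤ j → L * i ≤ L * j := fun i j h =>
    mul_le_mul_of_nonneg_left h hL.le
  have e3 : L * (a + 1) = L * a + L := by ring
  have e4 : L * (b + 1) = L * b + L := by ring
  have e5 : L * (-a) = -(L * a) := by ring
  have e6 : L * (-b) = -(L * b) := by ring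
  have e7 : L * (-a - 1) = -(L * a) - L := by ring
  have e8 : L * (-b - 1) = -(L * b) - L := by ring
  rcases lt_or_gt_of_ne hab with h3 | h3 <;> rcases lt_or_gt_of_ne hab2 with h4 | h4
  · -- a < b, a + b < -1 : left
    refine cut_affine_aux hL hm hR (fun x => -x.1) (v := (-1, 0)) (by simp) (by simp only [abs_zero, zero_le_one])
      (fun x => by simp [lin]) _ (fun x hxx => ?_) (j := -a - 1) (by omega) (fun x hxx => ?_)
    · obtain ⟨⟨x1, x2⟩, x3, x4⟩ := hx x hxx
      have i1 := mul_le (a + 1) b (by omega)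
      have i2 := mul_le (b + 1) (-a - 1) (by omega)
      have i3 : x.1 ≤ 0 := by
        have := mul_le (a + 1) 0 (by omega)
        have e : L * 0 = 0 := by ring
        omega
      rw [abs_of_nonpos i3]
      refine max_eq_left ?_
      rw [abs_le]
      omega
    · obtain ⟨⟨x1, x2⟩, x3, x4⟩ := hx x hxx
      beta_reduce
      omega
  · -- a < b, a + b > -1 : top
    refine cut_affine_aux hL hm hR (fun x => x.2) (v := (0, 1)) (by simp) (by simp)
      (fun x => by simp [lin]) _ (fun x hxx => ?_) (j := b) (by omega) (fun x hxx => ?_)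
    · obtain ⟨⟨x1, x2⟩, x3, x4⟩ := hx x hxx
      have i1 := mul_le (a + 1) b (by omega)
      have i2 := mul_le (-a) b (by omega)
      have i3 : 0 ≤ x.2 := by
        have := mul_le 0 b (by omega)
        have e : L * 0 = 0 := by ring
        omega
      rw [abs_of_nonneg i3]
      refine max_eq_right ?_
      rw [abs_le]
      omega
    · obtain ⟨⟨x1, x2⟩, x3, x4⟩ := hx x hxx
      exact ⟨x3, x4⟩
  · -- a > b, a + b < -1 : bottom
    refine cut_affine_aux hL hm hR (fun x => -x.2) (v := (0, -1)) (by simp) (by simp)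
      (fun x => by simp [lin]) _ (fun x hxx => ?_) (j := -b - 1) (by omega) (fun x hxx => ?_)
    · obtain ⟨⟨x1, x2⟩, x3, x4⟩ := hx x hxx
      have i1 := mul_le (b + 1) a (by omega)
      have i2 := mul_le (a + 1) (-b - 1) (by omega)
      have i3 : x.2 ≤ 0 := by
        have := mul_le (b + 1) 0 (by omega)
        have e : L * 0 = 0 := by ring
        (clear * - e3 e4 e5 e6 e7 e8 x3 x4 i1 i2; omega)
      rw [abs_of_nonpos i3]
      refine max_eq_right ?_
      rw [abs_le]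
      (clear * - e3 e4 e5 e6 e7 e8 x1 x2 x4 i1 i2; omega)
    · obtain ⟨⟨x1, x2⟩, x3, x4⟩ := hx x hxx
      beta_reduce
      omega
  · -- a > b, a + b > -1 : right
    refine cut_affine_aux hL hm hR (fun x => x.1) (v := (1, 0)) (by simp) (by simp)
      (fun x => by simp [lin]) _ (fun x hxx => ?_) (j := a) (by omega) (fun x hxx => ?_)
    · obtain ⟨⟨x1, x2⟩, x3, x4⟩ := hx x hxx
      have i1 := mul_le (b + 1) a (by omega)
      have i2 := mul_le (-b) a (by omega)
      have i3 : 0 ≤ x.1 := by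
        have := mul_le 0 a (by omega)
        have e : L * 0 = 0 := by ring
        omega
      rw [abs_of_nonneg i3]
      refine max_eq_left ?_
      rw [abs_le]
      (clear * - e3 e4 e5 e6 e7 e8 x1 x3 x4 i1 i2; omega)
    · obtain ⟨⟨x1, x2⟩, x3, x4⟩ := hx x hxx
      exact ⟨x1, x2⟩

/-- the diagonal cells -/
noncomputable def diagc (m : ℤ) : Finset Z2 :=
  (cells (4 * m)).filter fun k => k.1 = k.2 ∨ k.1 + k.2 = 4 * m - 1

lemma card_diagc {m : ℤ} (hm : 0 < m) : ((diagc m).card : ℝ) ≤ 8 * m := by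
  have h1 : diagc m ⊆ ((Finset.Ico (0 : ℤ) (4 * m)).image fun i => ((i, i) : Z2)) ∪
      ((Finset.Ico (0 : ℤ) (4 * m)).image fun i => ((i, 4 * m - 1 - i) : Z2)) := by
    intro k hk
    unfold diagc at hk
    rw [Finset.mem_filter, mem_cells] at hk
    rw [Finset.mem_union, Finset.mem_image, Finset.mem_image]
    obtain ⟨⟨⟨hk1, hk2⟩, hk3, hk4⟩, h | h⟩ := hk
    · exact Or.inl ⟨k.1, Finset.mem_Ico.2 ⟨hk1, hk2⟩, Prod.ext rfl h⟩
    · exact Or.inr ⟨k.1, Finset.mem_Ico.2 ⟨hk1, hk2⟩, Prod.ext rfl (by simp only; omega)⟩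
  have h2 := Finset.card_le_card h1
  have h3 := Finset.card_union_le
    ((Finset.Ico (0 : ℤ) (4 * m)).image fun i => ((i, i) : Z2))
    ((Finset.Ico (0 : ℤ) (4 * m)).image fun i => ((i, 4 * m - 1 - i) : Z2))
  have h4 := Finset.card_image_le (s := Finset.Ico (0 : ℤ) (4 * m))
    (f := fun i => ((i, i) : Z2))
  have h5 := Finset.card_image_le (s := Finset.Ico (0 : ℤ) (4 * m))
    (f := fun i => ((i, 4 * m - 1 - i) : Z2))
  rw [Int.card_Ico] at h4 h5
  have h6 : (((4 * m - 0).toNat : ℕ) : ℤ) = 4 * m := by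
    rw [Int.toNat_of_nonneg (by omega)]; ring
  have h7 : ((diagc m).card : ℤ) ≤ 8 * m := by
    have : ((diagc m).card : ℤ) ≤ ((4 * m - 0).toNat + (4 * m - 0).toNat : ℕ) := by
      exact_mod_cast h2.trans (h3.trans (add_le_add h4 h5))
    push_cast at this
    omega
  exact_mod_cast h7

/-! ### Scaling of the stiffness -/

section scaling

variable [NeZero n] {β : ℝ} {p : Z2} {l : ℤ}

lemma St_scale {φ : Z2 → ℝ} {c r : ℝ} {v : ℝ × ℝ} (h : ∀ x ∈ clo p l, φ x = c + r * lin v x)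
    (X : E n →L[ℝ] E n) (σ : Z2 → Spin n) :
    St β p l φ X σ = r ^ 2 * St β p l (lin v) X σ := by
  have e1 : Jc (n := n) β p l φ X = fun σ => r * Jc β p l (lin v) X σ := by
    funext τ
    unfold Jc PSb
    rw [← PS_const_mul]
    refine PS_congr fun u w _ hu hw => ?_
    beta_reduce
    rw [h u hu, h w hw]
    ring
  have e2 : Dc (n := n) β p l φ X = fun σ => r ^ 2 * Dc β p l (lin v) X σ := by
    funext τ
    unfold Dc PSb
    rw [← PS_const_mul]
    refine PS_congr fun u w _ hu hw => ?_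
    beta_reduce
    rw [h u hu, h w hw]
    ring
  have e3 : (fun σ => (r * Jc (n := n) β p l (lin v) X σ) ^ 2) =
      fun σ => r ^ 2 * (Jc β p l (lin v) X σ) ^ 2 := by
    funext τ; ring
  unfold St Gc Vc Vr
  rw [e1, e2, Gb_const_mul, e3, Gb_const_mul, Gb_const_mul]
  ring

lemma Tf_scale {φ : Z2 → ℝ} {c r : ℝ} {v : ℝ × ℝ} (h : ∀ x ∈ clo p l, φ x = c + r * lin v x)
    (T : Tri n) (σ : Z2 → Spin n) :
    Tf β p l φ T σ = r ^ 2 * Tf β p l (lin v) T σ := by
  unfold Tf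
  rw [St_scale h, St_scale h, St_scale h]
  ring

lemma St_le (hβ : 0 ≤ β) (hl : 0 ≤ l) {φ : Z2 → ℝ} {r : ℝ} (hr : 0 ≤ r)
    (hφ : ∀ u v, Nb u v → u ∈ clo p l → v ∈ clo p l → |φ u - φ v| ≤ r) (P : Pl n)
    (σ : Z2 → Spin n) : St β p l φ P.X σ ≤ 2 * (l : ℝ) ^ 2 * (β * r ^ 2) := by
  have h1 : 0 ≤ Vc β p l (Jc β p l φ P.X) σ :=
    Vr_nonneg (continuous_W _ _ _) (continuous_Jc _ _ _ _ _) σ
  have h2 := Gb_abs_le (D := inn p l) (continuous_W β p l) (continuous_Dc β p l φ P.X)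
    (Dc_abs_le hβ p hl P hr hφ) σ
  have h3 := (le_abs_self _).trans h2
  unfold St
  linarith

lemma Tf_le (hβ : 0 ≤ β) (hl : 0 ≤ l) {φ : Z2 → ℝ} {r : ℝ} (hr : 0 ≤ r)
    (hφ : ∀ u v, Nb u v → u ∈ clo p l → v ∈ clo p l → |φ u - φ v| ≤ r) (T : Tri n)
    (σ : Z2 → Spin n) : Tf β p l φ T σ ≤ 6 * (l : ℝ) ^ 2 * (β * r ^ 2) := by
  have h1 := St_le hβ hl hr hφ T.pA σ
  have h2 := St_le hβ hl hr hφ T.pB σ
  have h3 := St_le hβ hl hr hφ T.pC σ
  unfold Tf
  linarith only [h1, h2, h3]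

lemma lin_lip {v : ℝ × ℝ} (hv1 : |v.1| ≤ 1) (hv2 : |v.2| ≤ 1) {u w : Z2} (h : Nb u w) :
    |lin v u - lin v w| ≤ 1 := by
  rcases h with rfl | rfl
  · have : lin v u - lin v (u.1 + 1, u.2) = -v.1 := by
      simp only [lin]; push_cast; ring
    rw [this, abs_neg]; exact hv1
  · have : lin v u - lin v (u.1, u.2 + 1) = -v.2 := by
      simp only [lin]; push_cast; ring
    rw [this, abs_neg]; exact hv2

lemma Tf_lin_le_tt (hβ : 0 ≤ β) (hl : 0 < l) {v : ℝ × ℝ} (hv1 : |v.1| ≤ 1) (hv2 : |v.2| ≤ 1)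
    (T : Tri n) (σ : Z2 → Spin n) : Tf β p l (lin v) T σ ≤ tt n β l * (l : ℝ) ^ 2 := by
  have hlr : (0 : ℝ) < (l : ℝ) ^ 2 := by positivity
  have hbdd : BddAbove {r : ℝ | ∃ (p : Z2) (v : ℝ × ℝ) (T : Tri n) (σ : Z2 → Spin n),
      |v.1| ≤ 1 ∧ |v.2| ≤ 1 ∧ r = Tf β p l (lin v) T σ / (l : ℝ) ^ 2} := by
    refine ⟨6 * β, ?_⟩
    rintro r ⟨p', v', T', σ', h1, h2, rfl⟩
    rw [div_le_iff₀ hlr]
    have := Tf_le (p := p') hβ hl.le zero_le_one
      (fun u w h _ _ => lin_lip h1 h2 h) T' σ'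
    linarith
  have h1 := le_csSup hbdd ⟨p, v, T, σ, hv1, hv2, rfl⟩
  rw [div_le_iff₀ hlr] at h1
  exact h1

end scaling

/-! ### The recursion -/

lemma exists_tri (hn : 3 ≤ n) {a : E n} (ha : ‖a‖ = 1) : ∃ T : Tri n, T.a = a := by
  have hane : a ≠ 0 := by
    intro h; rw [h, norm_zero] at ha; norm_num at ha
  have h1 : Module.finrank ℝ (ℝ ∙ a) = 1 := finrank_span_singleton hane
  have h2 := Submodule.finrank_add_finrank_orthogonal (ℝ ∙ a)
  have h3 : Module.finrank ℝ (E n) = n := by simp only [finrank_euclideanSpace, Fintype.card_fin]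
  have h4 : 2 ≤ Module.finrank ℝ (ℝ ∙ a)ᗮ := by omega
  let B := stdOrthonormalBasis ℝ (ℝ ∙ a)ᗮ
  let i0 : Fin (Module.finrank ℝ (ℝ ∙ a)ᗮ) := ⟨0, by omega⟩
  let i1 : Fin (Module.finrank ℝ (ℝ ∙ a)ᗮ) := ⟨1, by omega⟩
  have hne : i0 ≠ i1 := by
    intro h
    have := congrArg Fin.val h
    simp [i0, i1] at this
  have hb : ‖((B i0 : (ℝ ∙ a)ᗮ) : E n)‖ = 1 := B.orthonormal.1 i0
  have hc : ‖((B i1 : (ℝ ∙ a)ᗮ) : E n)‖ = 1 := B.orthonormal.1 i1
  have hbc : ⟪((B i0 : (ℝ ∙ a)ᗮ) : E n), ((B i1 : (ℝ ∙ a)ᗮ) : E n)⟫ = 0 := by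
    have := B.orthonormal.2 hne
    simpa only [Submodule.coe_inner] using this
  have hab : ⟪a, ((B i0 : (ℝ ∙ a)ᗮ) : E n)⟫ = 0 :=
    Submodule.mem_orthogonal_singleton_iff_inner_right.1 (B i0).2
  have hac : ⟪a, ((B i1 : (ℝ ∙ a)ᗮ) : E n)⟫ = 0 :=
    Submodule.mem_orthogonal_singleton_iff_inner_right.1 (B i1).2
  exact ⟨⟨a, B i0, B i1, ha, hb, hc, hab, hbc, by rw [real_inner_comm]; exact hac⟩, rfl⟩

section step

variable [NeZero n] {β : ℝ} {R m L : ℤ}

lemma NoDep_Fw_cell (hL : 0 < L) (hm : 0 < m) (hR : R = m * L) (w : E n) {k : Z2}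
    (hk : k ∈ cells (4 * m)) :
    NoDep (inn (corner (-(2 * R), -(2 * R)) L k) L) (Fw β R w) := by
  have hRpos : 0 < R := by rw [hR]; exact mul_pos hm hL
  rw [mem_cells] at hk
  have mul_le : ∀ i j : ℤ, i ≤ j → L * i ≤ L * j := fun i j h =>
    mul_le_mul_of_nonneg_left h hL.le
  have f1 : L * m = R := by rw [hR]; ring
  have f3 : L * (3 * m) = 3 * R := by rw [hR]; ring
  have g1 : L * (k.1 + 1) = L * k.1 + L := by ring
  have g2 : L * (k.2 + 1) = L * k.2 + L := by ring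
  have hc : ∀ q : Z2, q ∈ inn (corner (-(2 * R), -(2 * R)) L k) L ↔
      (-(2 * R) + L * k.1 < q.1 ∧ q.1 < -(2 * R) + L * k.1 + L) ∧
      (-(2 * R) + L * k.2 < q.2 ∧ q.2 < -(2 * R) + L * k.2 + L) := by
    intro q
    rw [mem_inn]
    rfl
  by_cases hin : (m ≤ k.1 ∧ k.1 < 3 * m) ∧ (m ≤ k.2 ∧ k.2 < 3 * m)
  · refine NoDep_Fw_inn w fun q hq => ?_
    rw [hc] at hq
    rw [mem_inn]
    simp only
    have i1 := mul_le m k.1 hin.1.1
    have i2 := mul_le (k.1 + 1) (3 * m) (by omega)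
    have i3 := mul_le m k.2 hin.2.1
    have i4 := mul_le (k.2 + 1) (3 * m) (by omega)
    omega
  · refine NoDep_Fw_out hRpos w ?_
    rw [Finset.disjoint_left]
    intro q hq hq2
    rw [hc] at hq
    rw [mem_clo] at hq2
    simp only at hq2
    apply hin
    refine ⟨⟨?_, ?_⟩, ?_, ?_⟩
    · by_contra hlt
      have := mul_le (k.1 + 1) m (by omega)
      omega
    · by_contra hlt
      have := mul_le (3 * m) k.1 (by omega)
      omega
    · by_contra hlt
      have := mul_le (k.2 + 1) m (by omega)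
      omega
    · by_contra hlt
      have := mul_le (3 * m) k.2 (by omega)
      omega

lemma ward_bound (hβ : 0 ≤ β) (hL : 0 < L) (hm : 0 < m) (hR : R = m * L) (P : Pl n)
    {F G : (Z2 → Spin n) → ℝ} (hF : Continuous F) (hG : Continuous G) (hF1 : ∀ σ, |F σ| ≤ 1)
    (hG1 : ∀ σ, |G σ| ≤ 1) {M : ℝ} (hM : 0 ≤ M) (hFM : ∀ σ, |F σ| ≤ M) {ε : ℝ} (hε : ε ^ 2 = 1)
    (hFG : ∀ t σ, F (act (P.rg fun x => t * cut R x) σ) =
      Real.cos t * F σ + (ε * Real.sin t) * G σ)
    (hFn : ∀ k ∈ cells (4 * m), NoDep (inn (corner (-(2 * R), -(2 * R)) L k) L) F)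
    (σ : Z2 → Spin n) :
    (Gc β (-(2 * R), -(2 * R)) (4 * m * L) G σ) ^ 2 ≤
      M ^ 2 * ∑ k ∈ cells (4 * m), Gc β (-(2 * R), -(2 * R)) (4 * m * L)
        (St β (corner (-(2 * R), -(2 * R)) L k) L (cut R) P.X) σ := by
  have hRpos : 0 < R := by rw [hR]; exact mul_pos hm hL
  have hR1 : (1 : ℝ) ≤ R := by exact_mod_cast hRpos
  have hside : 2 * (2 * R) = 4 * m * L := by rw [hR]; ring
  have hl : 0 ≤ 4 * m * L := by positivity
  have hlip : ∀ u v, Nb u v → |cut R u - cut R v| ≤ 1 := fun u v h =>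
    (cut_lip hRpos h).trans (by rw [div_le_one (by linarith)]; exact hR1)
  have hs : ∀ x ∉ inn (-(2 * R), -(2 * R)) (4 * m * L), cut R x = 0 := fun x hx =>
    cut_out hRpos (by rw [hside]; exact hx)
  have hεabs : |ε| ≤ 1 := by
    have : |ε| ^ 2 = 1 := by rw [sq_abs]; exact hε
    nlinarith only [this]
  have hW := continuous_W (n := n) β (-(2 * R), -(2 * R)) (4 * m * L)
  have h1 := Jc_mul_eq (p := (-(2 * R), -(2 * R))) hβ hl P hlip hs hF hG hF1 hG1 hεabs hFG σ
  have h2 := mul_Jc_eq_jj (β := β) (p := (-(2 * R), -(2 * R))) (N := 4 * m) (φ := cut R) hL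
    (by omega) P.X hF hFn σ
  have h3 := Jc_sq_eq (p := (-(2 * R), -(2 * R))) hβ hl P hlip hs σ
  have h4 := jj_sq_eq (p := (-(2 * R), -(2 * R))) (N := 4 * m) hL (by omega) P.X σ h3
  have hjc := continuous_jj (n := n) β (-(2 * R), -(2 * R)) L (4 * m) (cut R) P.X
  have h5 := Gb_cs (D := inn (-(2 * R), -(2 * R)) (4 * m * L)) hW hF hjc σ
  have h6 : Gb (inn (-(2 * R), -(2 * R)) (4 * m * L)) (W β (-(2 * R), -(2 * R)) (4 * m * L))
      (fun σ => F σ ^ 2) σ ≤ M ^ 2 := by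
    have := Gb_mono (D := inn (-(2 * R), -(2 * R)) (4 * m * L)) hW (f := fun σ => F σ ^ 2)
      (g := fun _ => M ^ 2) (by fun_prop) continuous_const
      (fun τ => by
        have := hFM τ
        rw [← sq_abs]
        exact pow_le_pow_left₀ (abs_nonneg _) this 2) σ
    rwa [Gb_const hW] at this
  have h7 : 0 ≤ Gb (inn (-(2 * R), -(2 * R)) (4 * m * L))
      (W β (-(2 * R), -(2 * R)) (4 * m * L))
      (fun σ => jj β (-(2 * R), -(2 * R)) L (4 * m) (cut R) P.X σ ^ 2) σ :=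
    Gb_nonneg hW (by fun_prop) (fun _ => sq_nonneg _) σ
  rw [← h4]
  rw [h2] at h1
  have h8 : (Gc β (-(2 * R), -(2 * R)) (4 * m * L) G σ) ^ 2 =
      (Gc β (-(2 * R), -(2 * R)) (4 * m * L) (fun σ => F σ *
        jj β (-(2 * R), -(2 * R)) L (4 * m) (cut R) P.X σ) σ) ^ 2 := by
    rw [h1, neg_sq, mul_pow, hε, one_mul]
  rw [h8]
  refine h5.trans ?_
  exact mul_le_mul_of_nonneg_right h6 h7

lemma sum_St_nonneg (hβ : 0 ≤ β) (hL : 0 < L) (hm : 0 < m) (hR : R = m * L) (P : Pl n)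
    (σ : Z2 → Spin n) :
    0 ≤ ∑ k ∈ cells (4 * m), Gc β (-(2 * R), -(2 * R)) (4 * m * L)
        (St β (corner (-(2 * R), -(2 * R)) L k) L (cut R) P.X) σ := by
  have hRpos : 0 < R := by rw [hR]; exact mul_pos hm hL
  have hR1 : (1 : ℝ) ≤ R := by exact_mod_cast hRpos
  have hside : 2 * (2 * R) = 4 * m * L := by rw [hR]; ring
  have hl : 0 ≤ 4 * m * L := by positivity
  have hlip : ∀ u v, Nb u v → |cut R u - cut R v| ≤ 1 := fun u v h =>
    (cut_lip hRpos h).trans (by rw [div_le_one (by linarith)]; exact hR1)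
  have hs : ∀ x ∉ inn (-(2 * R), -(2 * R)) (4 * m * L), cut R x = 0 := fun x hx =>
    cut_out hRpos (by rw [hside]; exact hx)
  have hW := continuous_W (n := n) β (-(2 * R), -(2 * R)) (4 * m * L)
  have h3 := Jc_sq_eq (p := (-(2 * R), -(2 * R))) hβ hl P hlip hs σ
  have h4 := jj_sq_eq (p := (-(2 * R), -(2 * R))) (N := 4 * m) hL (by omega) P.X σ h3
  rw [← h4]
  have hjc := continuous_jj (n := n) β (-(2 * R), -(2 * R)) L (4 * m) (cut R) P.X
  exact Gb_nonneg hW (by fun_prop) (fun _ => sq_nonneg _) σ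

/-- bound of the total stiffness of the cells -/
lemma sum_Tf_le (hβ : 0 ≤ β) (hL : 0 < L) (ht : tt n β L ≤ 1 / 1024) (hm : 0 < m)
    (hR : R = m * L) (T : Tri n) (σ : Z2 → Spin n) :
    ∑ k ∈ cells (4 * m), Gc β (-(2 * R), -(2 * R)) (4 * m * L)
        (Tf β (corner (-(2 * R), -(2 * R)) L k) L (cut R) T) σ ≤ 1 / 64 + 48 * β / m := by
  have hRpos : 0 < R := by rw [hR]; exact mul_pos hm hL
  have hRr : (0 : ℝ) < R := by exact_mod_cast hRpos
  have hmr : (0 : ℝ) < m := by exact_mod_cast hm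
  have hLr : (0 : ℝ) < L := by exact_mod_cast hL
  have hRe : (R : ℝ) = m * L := by rw [hR]; push_cast; ring
  have hW := continuous_W (n := n) β (-(2 * R), -(2 * R)) (4 * m * L)
  have hb1 : 0 ≤ 6 * β / (m : ℝ) ^ 2 := by (clear * - hβ hm; positivity)
  have hpt : ∀ k ∈ cells (4 * m), ∀ τ : Z2 → Spin n,
      Tf β (corner (-(2 * R), -(2 * R)) L k) L (cut R) T τ ≤
        1 / (1024 * (m : ℝ) ^ 2) + if k ∈ diagc m then 6 * β / (m : ℝ) ^ 2 else 0 := by
    intro k hk τ
    by_cases hd : k ∈ diagc m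
    · rw [if_pos hd]
      have h1 := Tf_le (p := corner (-(2 * R), -(2 * R)) L k) (l := L) (φ := cut R) hβ hL.le
        (r := 1 / (R : ℝ)) (by positivity) (fun u v h _ _ => cut_lip hRpos h) T τ
      have h2 : 6 * (L : ℝ) ^ 2 * (β * (1 / (R : ℝ)) ^ 2) = 6 * β / (m : ℝ) ^ 2 := by
        rw [hRe]; (clear * - hL hm; field_simp)
      have h3 : 0 ≤ 1 / (1024 * (m : ℝ) ^ 2) := by positivity
      linarith only [h1, h2, h3]
    · rw [if_neg hd, add_zero]
      have hd' : ¬ (k.1 = k.2 ∨ k.1 + k.2 = 4 * m - 1) := fun h =>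
        hd (Finset.mem_filter.2 ⟨hk, h⟩)
      rw [not_or] at hd'
      obtain ⟨c, v, hv1, hv2, hcv⟩ := cut_affine hL hm hR hk hd'.1 hd'.2
      rw [Tf_scale hcv]
      have h1 := Tf_lin_le_tt (p := corner (-(2 * R), -(2 * R)) L k) hβ hL hv1 hv2 T τ
      have h2 : tt n β L * (L : ℝ) ^ 2 ≤ 1 / 1024 * (L : ℝ) ^ 2 :=
        mul_le_mul_of_nonneg_right ht (by positivity)
      have h3 : (1 / (R : ℝ)) ^ 2 * Tf β (corner (-(2 * R), -(2 * R)) L k) L (lin v) T τ ≤
          (1 / (R : ℝ)) ^ 2 * (1 / 1024 * (L : ℝ) ^ 2) :=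
        mul_le_mul_of_nonneg_left (h1.trans h2) (by positivity)
      have h4 : (1 / (R : ℝ)) ^ 2 * (1 / 1024 * (L : ℝ) ^ 2) = 1 / (1024 * (m : ℝ) ^ 2) := by
        rw [hRe]; field_simp
      linarith only [h3, h4]
  have hE : ∀ k ∈ cells (4 * m), Gc β (-(2 * R), -(2 * R)) (4 * m * L)
        (Tf β (corner (-(2 * R), -(2 * R)) L k) L (cut R) T) σ ≤
        1 / (1024 * (m : ℝ) ^ 2) + if k ∈ diagc m then 6 * β / (m : ℝ) ^ 2 else 0 := by
    intro k hk
    have := Gb_mono (D := inn (-(2 * R), -(2 * R)) (4 * m * L)) hW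
      (continuous_Tf β (corner (-(2 * R), -(2 * R)) L k) L (cut R) T)
      continuous_const (hpt k hk) σ
    rwa [Gb_const hW] at this
  refine (Finset.sum_le_sum hE).trans ?_
  rw [Finset.sum_add_distrib, Finset.sum_const, nsmul_eq_mul, card_cells (by omega),
    Finset.sum_ite_mem, Finset.sum_const, nsmul_eq_mul]
  have h5 : ((cells (4 * m) ∩ diagc m).card : ℝ) ≤ 8 * m := by
    refine le_trans ?_ (card_diagc hm)
    exact_mod_cast Finset.card_le_card Finset.inter_subset_right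
  have h6 : ((cells (4 * m) ∩ diagc m).card : ℝ) * (6 * β / (m : ℝ) ^ 2) ≤
      8 * m * (6 * β / (m : ℝ) ^ 2) := mul_le_mul_of_nonneg_right h5 hb1
  have h7 : 8 * (m : ℝ) * (6 * β / (m : ℝ) ^ 2) = 48 * β / m := by
    field_simp; ring
  have h8 : (((4 * m : ℤ) : ℝ)) ^ 2 * (1 / (1024 * (m : ℝ) ^ 2)) = 1 / 64 := by
    push_cast; field_simp; norm_num
  rw [h8]
  linarith

end step

theorem MW_step (hn : 3 ≤ n) {β : ℝ} (hβ : 0 ≤ β) {L : ℤ} (hL : 0 < L)
    (ht : tt n β L ≤ 1 / 1024) : ∃ m0 : ℤ, 0 < m0 ∧ ∀ m : ℤ, m0 ≤ m → ∀ M : ℝ, 0 ≤ M →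
    MB n β (m * L) M → MB n β (2 * (m * L)) (M / 4) := by
  have : NeZero n := ⟨by omega⟩
  obtain ⟨m1, hm1⟩ : ∃ m1 : ℤ, 439 * β ≤ m1 := ⟨⌈439 * β⌉, Int.le_ceil _⟩
  refine ⟨max m1 1, lt_of_lt_of_le one_pos (le_max_right _ _), fun m hm M hM hMB => ?_⟩
  have hmpos : 0 < m := lt_of_lt_of_le one_pos ((le_max_right m1 1).trans hm)
  have hmr : (0 : ℝ) < m := by exact_mod_cast hmpos
  have hmβ : 439 * β ≤ m := by
    have : (m1 : ℝ) ≤ m := by exact_mod_cast (le_max_left m1 1).trans hm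
    linarith only [hm1, this]
  intro σ w hw
  obtain ⟨R, hR⟩ : ∃ R, R = m * L := ⟨_, rfl⟩
  rw [← hR] at hMB ⊢
  have hRpos : 0 < R := by rw [hR]; exact mul_pos hmpos hL
  have hside : 2 * (2 * R) = 4 * m * L := by rw [hR]; ring
  rw [hside]
  have hW := continuous_W (n := n) β (-(2 * R), -(2 * R)) (4 * m * L)
  -- replace the spin by its conditional expectation
  have hsub : SubBox (-R, -R) (2 * R) (-(2 * R), -(2 * R)) (4 * m * L) := by
    rw [← hside]
    simp only [SubBox]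
    omega
  have e0 : Gc β (-(2 * R), -(2 * R)) (4 * m * L) (Fw β R w) σ =
      Gc β (-(2 * R), -(2 * R)) (4 * m * L) (fun σ => ⟪w, (σ (0, 0) : E n)⟫) σ :=
    Gb_Gb hsub.inn_sub hW (continuous_W _ _ _) (continuous_ip w _) (noDep_sub_PSb hsub _) σ
  rw [← e0]
  obtain ⟨T, hT⟩ := exists_tri hn hw
  rw [← hT]
  -- Ward identities
  have hcut : ∀ t : ℝ, ∀ x ∈ clo (-R, -R) (2 * R), t * cut R x = t := fun t x hx => by
    rw [cut_in hRpos hx, mul_one]
  have hA := ward_bound (σ := σ) hβ hL hmpos hR T.pA (F := Fw β R T.b) (G := Fw β R T.a)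
    (continuous_Fw _) (continuous_Fw _) (Fw_abs_le_one T.hb) (Fw_abs_le_one T.ha) hM
    (Fw_abs_le hMB T.hb) (ε := 1) (by norm_num)
    (fun t τ => by
      rw [one_mul]
      exact Fw_act_b hRpos T.pA (hcut t) τ)
    (fun k hk => NoDep_Fw_cell hL hmpos hR _ hk)
  have hC := ward_bound (σ := σ) hβ hL hmpos hR T.pC (F := Fw β R T.c) (G := Fw β R T.a)
    (continuous_Fw _) (continuous_Fw _) (Fw_abs_le_one T.hc) (Fw_abs_le_one T.ha) hM
    (Fw_abs_le hMB T.hc) (ε := -1) (by norm_num)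
    (fun t τ => by
      rw [neg_one_mul]
      exact Fw_act_a hRpos T.pC (hcut t) τ)
    (fun k hk => NoDep_Fw_cell hL hmpos hR _ hk)
  have hB := sum_St_nonneg (σ := σ) hβ hL hmpos hR T.pB
  have hTf := sum_Tf_le (σ := σ) hβ hL ht hmpos hR T
  have hsum : ∑ k ∈ cells (4 * m), Gc β (-(2 * R), -(2 * R)) (4 * m * L)
        (Tf β (corner (-(2 * R), -(2 * R)) L k) L (cut R) T) σ =
      (∑ k ∈ cells (4 * m), Gc β (-(2 * R), -(2 * R)) (4 * m * L)
        (St β (corner (-(2 * R), -(2 * R)) L k) L (cut R) T.pA.X) σ +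
      ∑ k ∈ cells (4 * m), Gc β (-(2 * R), -(2 * R)) (4 * m * L)
        (St β (corner (-(2 * R), -(2 * R)) L k) L (cut R) T.pB.X) σ) +
      ∑ k ∈ cells (4 * m), Gc β (-(2 * R), -(2 * R)) (4 * m * L)
        (St β (corner (-(2 * R), -(2 * R)) L k) L (cut R) T.pC.X) σ := by
    rw [← Finset.sum_add_distrib, ← Finset.sum_add_distrib]
    refine Finset.sum_congr rfl fun k _ => ?_
    have c1 := continuous_St (n := n) β (corner (-(2 * R), -(2 * R)) L k) L (cut R) T.pA.X
    have c2 := continuous_St (n := n) β (corner (-(2 * R), -(2 * R)) L k) L (cut R) T.pB.X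
    have c3 := continuous_St (n := n) β (corner (-(2 * R), -(2 * R)) L k) L (cut R) T.pC.X
    have c12 : Continuous fun σ : Z2 → Spin n =>
        St β (corner (-(2 * R), -(2 * R)) L k) L (cut R) T.pA.X σ +
        St β (corner (-(2 * R), -(2 * R)) L k) L (cut R) T.pB.X σ := c1.add c2
    unfold Gc
    rw [← Gb_add hW c1 c2, ← Gb_add hW c12 c3]
    rfl
  rw [hsum] at hTf
  have h48 : 48 * β / m ≤ 7 / 64 := by
    rw [div_le_iff₀ hmr]; linarith only [hmr, hmβ]
  set SA := ∑ k ∈ cells (4 * m), Gc β (-(2 * R), -(2 * R)) (4 * m * L)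
        (St β (corner (-(2 * R), -(2 * R)) L k) L (cut R) T.pA.X) σ
  set SB := ∑ k ∈ cells (4 * m), Gc β (-(2 * R), -(2 * R)) (4 * m * L)
        (St β (corner (-(2 * R), -(2 * R)) L k) L (cut R) T.pB.X) σ
  set SC := ∑ k ∈ cells (4 * m), Gc β (-(2 * R), -(2 * R)) (4 * m * L)
        (St β (corner (-(2 * R), -(2 * R)) L k) L (cut R) T.pC.X) σ
  set v := Gc β (-(2 * R), -(2 * R)) (4 * m * L) (Fw β R T.a) σ
  have hfin : 2 * v ^ 2 ≤ M ^ 2 * (1 / 8) := by
    have h1 : M ^ 2 * (SA + SC) ≤ M ^ 2 * (1 / 8) :=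
      mul_le_mul_of_nonneg_left (by linarith only [h48, hB, hTf]) (sq_nonneg M)
    linarith only [hA, hC, h1]
  have h9 : v ^ 2 ≤ (M / 4) ^ 2 := by
    have : (M / 4) ^ 2 = M ^ 2 * (1 / 8) / 2 := by ring
    linarith only [hfin]
  exact (abs_le_of_sq_le_sq' h9 (by (clear * - hM; positivity))).2

end MW

/-- The Mermin-Wagner recursion at the level of cells of side `L`. -/
theorem MW_step {n : ℕ} (hn : 3 ≤ n) {β : ℝ} (hβ : 0 ≤ β) {L : ℤ} (hL : 0 < L)
    (ht : tt n β L ≤ 1 / 1024) : ∃ m0 : ℤ, 0 < m0 ∧ ∀ m : ℤ, m0 ≤ m → ∀ M : ℝ, 0 ≤ M →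
    MB n β (m * L) M → MB n β (2 * (m * L)) (M / 4) :=
  MW.MW_step hn hβ hL ht

/-- decay of the magnetization faster than the inverse of the radius -/
theorem MB_decay {n : ℕ} (hn : 3 ≤ n) {β : ℝ} (hβ : 0 ≤ β) {ε : ℝ} (hε : 0 < ε) :
    ∃ (R : ℤ) (M : ℝ), 0 < R ∧ 0 ≤ M ∧ MB n β R M ∧ (2 * R + 1) * M ≤ ε :=
  MB_decay_of hn hβ (fun hL ht => MW_step hn hβ hL ht) hε

end Vale.Agent.P163
end
end

section

section

open MeasureTheory Filter Topology
open scoped RealInnerProductSpace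

namespace Vale.Agent.P163

variable {n : ℕ} {V : Type}

/-! ### The cones of scalar and vector valued polynomials in dot products -/

/-- cone generated by the dot products of the spins with labels in `U` -/
inductive Cone (n : ℕ) (U : Set V) : ((V → E n) → ℝ) → Prop
  | const (c : ℝ) (hc : 0 ≤ c) : Cone n U fun _ => c
  | dot (a b : V) (ha : a ∈ U) (hb : b ∈ U) : Cone n U fun σ => ⟪σ a, σ b⟫
  | add {f g : (V → E n) → ℝ} : Cone n U f → Cone n U g → Cone n U fun σ => f σ + g σ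
  | mul {f g : (V → E n) → ℝ} : Cone n U f → Cone n U g → Cone n U fun σ => f σ * g σ

/-- vector valued analogue of `Cone` -/
inductive VCone (n : ℕ) (U : Set V) : ((V → E n) → E n) → Prop
  | zero : VCone n U fun _ => 0
  | spin (a : V) (ha : a ∈ U) : VCone n U fun σ => σ a
  | add {X Y : (V → E n) → E n} : VCone n U X → VCone n U Y → VCone n U fun σ => X σ + Y σ
  | smul {f : (V → E n) → ℝ} {X : (V → E n) → E n} : Cone n U f → VCone n U X →
      VCone n U fun σ => f σ • X σ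

lemma Cone.continuous {U : Set V} {f : (V → E n) → ℝ} (h : Cone n U f) : Continuous f := by
  induction h with
  | const c hc => exact continuous_const
  | dot a b ha hb => fun_prop
  | add _ _ ih1 ih2 => exact ih1.add ih2
  | mul _ _ ih1 ih2 => exact ih1.mul ih2

lemma Cone.sum {U : Set V} {ι : Type*} (s : Finset ι) {f : ι → (V → E n) → ℝ}
    (h : ∀ i ∈ s, Cone n U (f i)) : Cone n U fun σ => ∑ i ∈ s, f i σ := by
  classical
  induction s using Finset.induction_on with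
  | empty => simpa using Cone.const (U := U) (n := n) 0 le_rfl
  | insert a s ha ih =>
    simp only [Finset.sum_insert ha]
    exact (h a (by simp)).add (ih fun i hi => h i (by simp [hi]))

lemma Cone.smul_const {U : Set V} {f : (V → E n) → ℝ} (h : Cone n U f) {c : ℝ} (hc : 0 ≤ c) :
    Cone n U fun σ => c * f σ := (Cone.const c hc).mul h

lemma Cone.pow {U : Set V} {f : (V → E n) → ℝ} (h : Cone n U f) (k : ℕ) :
    Cone n U fun σ => f σ ^ k := by
  induction k with
  | zero => simpa using Cone.const (U := U) (n := n) 1 zero_le_one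
  | succ k ih => simp only [pow_succ]; exact ih.mul h

lemma VCone.multisetSum {U : Set V} {ι : Type*} (m : Multiset ι) {f : ι → (V → E n) → E n}
    (h : ∀ i ∈ m, VCone n U (f i)) : VCone n U fun σ => (m.map fun i => f i σ).sum := by
  induction m using Multiset.induction_on with
  | empty => simpa using VCone.zero (U := U) (n := n)
  | cons a s ih =>
    simp only [Multiset.map_cons, Multiset.sum_cons]
    exact (h a (by simp)).add (ih fun i hi => h i (by simp [hi]))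

/-! ### Moments of the sphere -/

/-- product of the dot products of `s` with the spins of the multiset `m` -/
noncomputable def pr (σ : V → E n) (m : Multiset V) (s : E n) : ℝ :=
  (m.map fun b => ⟪σ b, s⟫).prod

lemma continuous_pr2 (m : Multiset V) :
    Continuous fun p : (V → E n) × E n => pr p.1 m p.2 := by
  unfold pr
  exact continuous_multiset_prod _ fun i _ => by fun_prop

lemma continuous_pr (σ : V → E n) (m : Multiset V) : Continuous (pr σ m) :=
  (continuous_pr2 m).comp (continuous_const.prodMk continuous_id)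

lemma pr_zero (σ : V → E n) (s : E n) : pr σ 0 s = 1 := by simp [pr]

lemma pr_cons (σ : V → E n) (b : V) (m : Multiset V) (s : E n) :
    pr σ (b ::ₘ m) s = ⟪σ b, s⟫ * pr σ m s := by simp [pr]

/-- scalar moment -/
noncomputable def Mom (σ : V → E n) (m : Multiset V) : ℝ := ∫ s, pr σ m s ∂(om n)

/-- vector moment -/
noncomputable def VMom (σ : V → E n) (m : Multiset V) : E n := ∫ s, pr σ m s • s ∂(om n)

lemma integrable_prs [NeZero n] (σ : V → E n) (m : Multiset V) :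
    Integrable (fun s => pr σ m s • s) (om n) :=
  integrable_om ((continuous_pr σ m).smul continuous_id)

lemma Mom_cons [NeZero n] (σ : V → E n) (b : V) (m : Multiset V) :
    Mom σ (b ::ₘ m) = ⟪σ b, VMom σ m⟫ := by
  unfold Mom VMom
  rw [← integral_inner (integrable_prs σ m)]
  refine integral_congr_ae (Filter.Eventually.of_forall fun s => ?_)
  simp only [pr_cons, inner_smul_right]
  ring

lemma Mom_zero [NeZero n] (σ : V → E n) : Mom σ 0 = 1 := by
  simp [Mom, pr_zero]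

lemma VMom_rec [NeZero n] [DecidableEq V] (σ : V → E n) (m : Multiset V) :
    ((n : ℝ) - 1 + Multiset.card m) • VMom σ m =
      (m.map fun i => Mom σ (m.erase i) • σ i).sum := by
  refine ext_inner_left ℝ fun v => ?_
  have hcd : ContDiff ℝ 1 (pr σ m) := by
    unfold pr
    induction m using Multiset.induction_on with
    | empty => simpa using contDiff_const
    | cons a s ih =>
      simp only [Multiset.map_cons, Multiset.prod_cons]
      exact (contDiff_const.inner ℝ contDiff_id).mul ih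
  have hder : ∀ s w, fderiv ℝ (pr σ m) s w =
      (m.map fun i => pr σ (m.erase i) s * ⟪σ i, w⟫).sum := by
    intro s w
    have h : HasFDerivAt (pr σ m)
        ((m.map fun i => pr σ (m.erase i) s • innerSL ℝ (σ i)).sum) s := by
      unfold pr
      exact HasFDerivAt.multiset_prod (g := fun i s => ⟪σ i, s⟫)
        (g' := fun i => innerSL ℝ (σ i)) fun i _ => (innerSL ℝ (σ i)).hasFDerivAt
    rw [h.fderiv]
    have : ∀ m' : Multiset (E n →L[ℝ] ℝ), m'.sum w = (m'.map fun L => L w).sum := by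
      intro m'
      induction m' using Multiset.induction_on with
      | empty => simp
      | cons a s ih => simp only [Multiset.sum_cons, add_apply, ih, Multiset.map_cons]
    rw [this, Multiset.map_map]
    congr 1
  have hself : ∀ s, fderiv ℝ (pr σ m) s s = Multiset.card m * pr σ m s := by
    intro s
    rw [hder]
    have : m.map (fun i => pr σ (m.erase i) s * ⟪σ i, s⟫) = m.map fun _ => pr σ m s := by
      refine Multiset.map_congr rfl fun i hi => ?_
      conv_rhs => rw [← Multiset.cons_erase hi, pr_cons]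
      ring
    rw [this]
    simp
  have hmain := sphere_ibp hcd v
  have hc := continuous_pr (n := n) σ m
  have h1 : ∫ s, ⟪v, s⟫ * pr σ m s ∂(om n) = ⟪v, VMom σ m⟫ := by
    unfold VMom
    rw [← integral_inner (integrable_prs σ m)]
    refine integral_congr_ae (Filter.Eventually.of_forall fun s => ?_)
    simp only [inner_smul_right]; ring
  have h2 : ∫ s, (fderiv ℝ (pr σ m) s v - ⟪v, s⟫ * fderiv ℝ (pr σ m) s s) ∂(om n) =
      ⟪v, (m.map fun i => Mom σ (m.erase i) • σ i).sum⟫ - Multiset.card m * ⟪v, VMom σ m⟫ := by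
    have e1 : ∫ s, fderiv ℝ (pr σ m) s v ∂(om n) =
        ⟪v, (m.map fun i => Mom σ (m.erase i) • σ i).sum⟫ := by
      simp_rw [hder]
      have key : ∀ m' : Multiset V,
          ∫ s, (m'.map fun i => pr σ (m.erase i) s * ⟪σ i, v⟫).sum ∂(om n) =
            ⟪v, (m'.map fun i => Mom σ (m.erase i) • σ i).sum⟫ := by
        intro m'
        induction m' using Multiset.induction_on with
        | empty => simp
        | cons a t ih =>
          simp only [Multiset.map_cons, Multiset.sum_cons, inner_add_right]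
          rw [integral_add, ih]
          · congr 1
            rw [integral_mul_const, inner_smul_right, real_inner_comm v]
            rfl
          · exact (integrable_om (continuous_pr σ _)).mul_const _
          · refine integrable_om ?_
            refine continuous_multiset_sum _ fun i _ => ?_
            exact (continuous_pr σ _).mul continuous_const
      exact key m
    rw [integral_sub, e1]
    · congr 1
      rw [← h1, ← integral_const_mul]
      refine integral_congr_ae (Filter.Eventually.of_forall fun s => ?_)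
      simp only [hself]; ring
    · refine integrable_om ?_
      exact (hcd.continuous_fderiv one_ne_zero).clm_apply continuous_const
    · refine integrable_om ?_
      exact (continuous_const.inner continuous_id).mul
        ((hcd.continuous_fderiv one_ne_zero).clm_apply continuous_id)
  rw [h1, h2] at hmain
  rw [inner_smul_right]
  linarith only [hmain]

/-! ### Moments belong to the cone -/

lemma cone_moments [NeZero n] (hn : 2 ≤ n) [DecidableEq V] {U : Set V} (k : ℕ) :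
    ∀ m : Multiset V, Multiset.card m ≤ k → (∀ b ∈ m, b ∈ U) →
      Cone n U (fun σ => Mom σ m) ∧ VCone n U (fun σ => VMom σ m) := by
  induction k with
  | zero =>
    intro m hm _
    have : m = 0 := Multiset.card_eq_zero.1 (by omega)
    subst this
    refine ⟨by simpa [Mom_zero] using Cone.const (U := U) (n := n) 1 zero_le_one, ?_⟩
    have h0 : ∀ σ : V → E n, VMom σ 0 = 0 := fun σ => by
      have h := VMom_rec σ (0 : Multiset V)
      have hn' : ((n : ℝ) - 1 + Multiset.card (0 : Multiset V)) ≠ 0 := by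
        have : (2 : ℝ) ≤ n := by exact_mod_cast hn
        simp; linarith only [this]
      simp only [Multiset.map_zero, Multiset.sum_zero] at h
      exact (smul_eq_zero.1 h).resolve_left hn'
    simpa [h0] using VCone.zero (U := U) (n := n)
  | succ k ih =>
    intro m hm hU
    -- scalar moment
    have hS : ∀ m' : Multiset V, Multiset.card m' ≤ k + 1 → (∀ b ∈ m', b ∈ U) →
        Cone n U (fun σ => Mom σ m') := by
      intro m' hm' hU'
      induction m' using Multiset.induction_on with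
      | empty => simpa [Mom_zero] using Cone.const (U := U) (n := n) 1 zero_le_one
      | cons a t _ =>
        have ht : Multiset.card t ≤ k := by simpa only [Multiset.card_cons, add_le_add_iff_right] using hm'
        have hVt := (ih t ht fun b hb => hU' b (by simp [hb])).2
        have : ∀ {X : (V → E n) → E n}, VCone n U X → Cone n U fun σ => ⟪σ a, X σ⟫ := by
          intro X hX
          induction hX with
          | zero => simpa using Cone.const (U := U) (n := n) 0 le_rfl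
          | spin b hb => exact Cone.dot a b (hU' a (by simp)) hb
          | add _ _ ih1 ih2 => simp only [inner_add_right]; exact ih1.add ih2
          | smul hf _ ih => simp only [inner_smul_right]; exact hf.mul ih
        simpa [Mom_cons] using this hVt
    refine ⟨hS m hm hU, ?_⟩
    have hpos : 0 < ((n : ℝ) - 1 + Multiset.card m) := by
      have : (2 : ℝ) ≤ n := by exact_mod_cast hn
      have : (0 : ℝ) ≤ Multiset.card m := by positivity
      (clear U k ih hm hU hS this; linarith)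
    have hV : (fun σ : V → E n => VMom σ m) = fun σ =>
        ((n : ℝ) - 1 + Multiset.card m)⁻¹ • (m.map fun i => Mom σ (m.erase i) • σ i).sum := by
      funext σ
      rw [← VMom_rec, smul_smul, inv_mul_cancel₀ hpos.ne', one_smul]
    rw [hV]
    refine VCone.smul (Cone.const _ (inv_pos.2 hpos).le) (VCone.multisetSum m fun i hi => ?_)
    refine VCone.smul (hS _ ?_ ?_) (VCone.spin i (hU i hi))
    · have := Multiset.card_erase_lt_of_mem hi
      omega
    · intro b hb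
      exact hU b (Multiset.mem_of_mem_erase hb)

lemma cone_Mom [NeZero n] (hn : 2 ≤ n) [DecidableEq V] {U : Set V} (m : Multiset V)
    (h : ∀ b ∈ m, b ∈ U) : Cone n U (fun σ => Mom σ m) :=
  (cone_moments hn _ m le_rfl h).1

lemma vcone_VMom [NeZero n] (hn : 2 ≤ n) [DecidableEq V] {U : Set V} (m : Multiset V)
    (h : ∀ b ∈ m, b ∈ U) : VCone n U (fun σ => VMom σ m) :=
  (cone_moments hn _ m le_rfl h).2

/-! ### Integrating out a spin -/

/-- The moments of `g` with respect to the spin at `w` lie in the cone of the other spins. -/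
def GoodAt [DecidableEq V] (w : V) (U : Set V) (g : (V → E n) → ℝ) : Prop :=
  Continuous g ∧ ∀ m : Multiset V, (∀ b ∈ m, b ∈ U) →
    Cone n U (fun σ => ∫ s, pr σ m s * g (Function.update σ w s) ∂(om n)) ∧
    VCone n U (fun σ => ∫ s, (pr σ m s * g (Function.update σ w s)) • s ∂(om n))

lemma continuous_update2 [DecidableEq V] (w : V) (σ : V → E n) :
    Continuous fun s : E n => Function.update σ w s :=
  continuous_const.update w continuous_id

lemma goodAt_one [NeZero n] (hn : 2 ≤ n) [DecidableEq V] (w : V) (U : Set V) :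
    GoodAt w U (fun _ : V → E n => (1 : ℝ)) := by
  refine ⟨continuous_const, fun m hm => ⟨?_, ?_⟩⟩
  · simpa [Mom] using cone_Mom hn m hm
  · simpa [VMom] using vcone_VMom hn m hm

/-- Multiplying by an element of the cone preserves goodness. -/
lemma GoodAt.mul_cone [NeZero n] [DecidableEq V] {w : V} {U : Set V} (hw : w ∉ U)
    {f : (V → E n) → ℝ} (hf : Cone n (insert w U) f) :
    ∀ {g : (V → E n) → ℝ}, GoodAt w U g → GoodAt w U (fun σ => f σ * g σ) := by
  induction hf with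
  | const c hc =>
    intro g hg
    refine ⟨continuous_const.mul hg.1, fun m hm => ⟨?_, ?_⟩⟩
    · have := (hg.2 m hm).1.smul_const hc
      convert this using 2 with σ
      rw [← integral_const_mul]
      congr 1; funext s; ring
    · have := VCone.smul (Cone.const c hc) (hg.2 m hm).2
      convert this using 2 with σ
      rw [← integral_smul]
      congr 1; funext s; rw [smul_smul]; congr 1; ring
  | @dot a b ha hb =>
    intro g hg
    have hcont : Continuous fun σ : V → E n => ⟪σ a, σ b⟫ * g σ :=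
      (by fun_prop : Continuous fun σ : V → E n => ⟪σ a, σ b⟫).mul hg.1
    refine ⟨hcont, fun m hm => ?_⟩
    by_cases haw : a = w <;> by_cases hbw : b = w
    · subst haw; subst hbw
      refine ⟨?_, ?_⟩
      · convert (hg.2 m hm).1 using 2 with σ
        refine integral_congr_ae ?_
        filter_upwards [om_ae_norm] with s hs
        simp [hs]
      · convert (hg.2 m hm).2 using 2 with σ
        refine integral_congr_ae ?_
        filter_upwards [om_ae_norm] with s hs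
        simp [hs]
    · subst haw
      have hbU : b ∈ U := by
        rcases hb with h | h
        · exact absurd h hbw
        · exact h
      have hm' : ∀ x ∈ b ::ₘ m, x ∈ U := by
        intro x hx
        rcases Multiset.mem_cons.1 hx with h | h
        · rw [h]; exact hbU
        · exact hm x h
      refine ⟨?_, ?_⟩
      · convert (hg.2 _ hm').1 using 2 with σ
        congr 1; funext s
        simp only [pr_cons, Function.update_self, Function.update_of_ne hbw]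
        rw [real_inner_comm]; ring
      · convert (hg.2 _ hm').2 using 2 with σ
        congr 1; funext s
        simp only [pr_cons, Function.update_self, Function.update_of_ne hbw]
        rw [real_inner_comm]; congr 1; ring
    · subst hbw
      have haU : a ∈ U := by
        rcases ha with h | h
        · exact absurd h haw
        · exact h
      have hm' : ∀ x ∈ a ::ₘ m, x ∈ U := by
        intro x hx
        rcases Multiset.mem_cons.1 hx with h | h
        · rw [h]; exact haU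
        · exact hm x h
      refine ⟨?_, ?_⟩
      · convert (hg.2 _ hm').1 using 2 with σ
        congr 1; funext s
        simp only [pr_cons, Function.update_self, Function.update_of_ne haw]
        ring
      · convert (hg.2 _ hm').2 using 2 with σ
        congr 1; funext s
        simp only [pr_cons, Function.update_self, Function.update_of_ne haw]
        congr 1; ring
    · have haU : a ∈ U := by
        rcases ha with h | h
        · exact absurd h haw
        · exact h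
      have hbU : b ∈ U := by
        rcases hb with h | h
        · exact absurd h hbw
        · exact h
      refine ⟨?_, ?_⟩
      · have := (Cone.dot (n := n) a b haU hbU).mul (hg.2 m hm).1
        convert this using 2 with σ
        rw [← integral_const_mul]
        congr 1; funext s
        simp only [Function.update_of_ne haw, Function.update_of_ne hbw]; ring
      · have := VCone.smul (Cone.dot (n := n) a b haU hbU) (hg.2 m hm).2
        convert this using 2 with σ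
        rw [← integral_smul]
        congr 1; funext s
        simp only [Function.update_of_ne haw, Function.update_of_ne hbw]
        rw [smul_smul]; congr 1; ring
  | @add f1 f2 h1 h2 ih1 ih2 =>
    intro g hg
    have g1 := ih1 hg
    have g2 := ih2 hg
    refine ⟨(h1.continuous.add h2.continuous).mul hg.1, fun m hm => ⟨?_, ?_⟩⟩
    · have := (g1.2 m hm).1.add (g2.2 m hm).1
      convert this using 2 with σ
      rw [← integral_add]
      · congr 1; funext s; ring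
      · exact integrable_om ((continuous_pr σ m).mul (g1.1.comp (continuous_update2 w σ)))
      · exact integrable_om ((continuous_pr σ m).mul (g2.1.comp (continuous_update2 w σ)))
    · have := (g1.2 m hm).2.add (g2.2 m hm).2
      convert this using 2 with σ
      rw [← integral_add]
      · congr 1; funext s; rw [← add_smul]; congr 1; ring
      · exact integrable_om (((continuous_pr σ m).mul
          (g1.1.comp (continuous_update2 w σ))).smul continuous_id)
      · exact integrable_om (((continuous_pr σ m).mul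
          (g2.1.comp (continuous_update2 w σ))).smul continuous_id)
  | @mul f1 f2 h1 h2 ih1 ih2 =>
    intro g hg
    have := ih1 (ih2 hg)
    simpa [mul_assoc] using this

/-- Integrating out the spin at `w` maps the cone into the cone of the other spins. -/
theorem Cone.integrate [NeZero n] (hn : 2 ≤ n) [DecidableEq V] {w : V} {U : Set V} (hw : w ∉ U)
    {f : (V → E n) → ℝ} (hf : Cone n (insert w U) f) :
    Cone n U (fun σ => ∫ s, f (Function.update σ w s) ∂(om n)) := by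
  have h := (GoodAt.mul_cone hw hf (goodAt_one hn w U)).2 0 (by simp)
  simpa [pr_zero] using h.1

end Vale.Agent.P163
end
end

section

section

open MeasureTheory Filter Topology
open scoped RealInnerProductSpace

set_option linter.unusedSectionVars false

namespace Vale.Agent.P163

variable {n : ℕ} {V : Type} [Fintype V] [DecidableEq V]

/-! ### Partial integration -/

lemma measurable_update_pair (w : V) :
    Measurable fun p : (V → E n) × E n => Function.update p.1 w p.2 := by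
  refine measurable_pi_lambda _ fun v => ?_
  by_cases h : v = w
  · subst h; simpa using measurable_snd
  · simp only [Function.update_of_ne h]
    exact (measurable_pi_apply v).comp measurable_fst

lemma mp_update [NeZero n] (w : V) :
    MeasurePreserving (fun p : (V → E n) × E n => Function.update p.1 w p.2)
      ((P V n).prod (om n)) (P V n) := by
  refine ⟨measurable_update_pair w, ?_⟩
  symm
  refine Measure.pi_eq fun s hs => ?_
  rw [Measure.map_apply (measurable_update_pair w) (MeasurableSet.univ_pi hs)]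
  have hpre : (fun p : (V → E n) × E n => Function.update p.1 w p.2) ⁻¹' (Set.univ.pi s) =
      (Set.univ.pi (Function.update s w Set.univ)) ×ˢ (s w) := by
    ext ⟨σ, t⟩
    simp only [Set.mem_preimage, Set.mem_pi, Set.mem_univ, true_implies, Set.mem_prod]
    constructor
    · intro h
      refine ⟨fun v => ?_, by simpa using h w⟩
      by_cases hv : v = w
      · subst hv; simp
      · have := h v
        simpa [Function.update_of_ne hv] using this
    · rintro ⟨h1, h2⟩ v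
      by_cases hv : v = w
      · subst hv; simpa using h2
      · have := h1 v
        simpa [Function.update_of_ne hv] using this
  rw [hpre, Measure.prod_prod, P, Measure.pi_pi]
  rw [← Finset.prod_erase_mul Finset.univ _ (Finset.mem_univ w),
    ← Finset.prod_erase_mul Finset.univ (fun i => (om n) (s i)) (Finset.mem_univ w)]
  simp only [Function.update_self, measure_univ, mul_one]
  congr 1
  refine Finset.prod_congr rfl fun v hv => ?_
  rw [Function.update_of_ne (Finset.ne_of_mem_erase hv)]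

lemma integral_update [NeZero n] {F : Type*} [NormedAddCommGroup F] [NormedSpace ℝ F]
    (w : V) {f : (V → E n) → F} (hf : Continuous f) :
    ∫ σ, ∫ s, f (Function.update σ w s) ∂(om n) ∂(P V n) = ∫ σ, f σ ∂(P V n) := by
  have hmp := mp_update (n := n) w
  have h1 : ∫ p, f (Function.update p.1 w p.2) ∂((P V n).prod (om n)) = ∫ σ, f σ ∂(P V n) := by
    have h3 := integral_map (μ := (P V n).prod (om n)) hmp.measurable.aemeasurable
      (f := f) hf.aestronglyMeasurable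
    rw [hmp.map_eq] at h3
    exact h3.symm
  have h2 : Integrable (fun p : (V → E n) × E n => f (Function.update p.1 w p.2))
      ((P V n).prod (om n)) :=
    hmp.integrable_comp_of_integrable (integrable_of_continuous hf)
  rw [← h1, integral_prod _ h2]

/-! ### First Griffiths inequality -/

lemma cone_empty_const {f : (V → E n) → ℝ} (h : Cone n (∅ : Set V) f) :
    ∃ c : ℝ, 0 ≤ c ∧ f = fun _ => c := by
  induction h with
  | const c hc => exact ⟨c, hc, rfl⟩
  | dot a b ha hb => exact absurd ha (by simp)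
  | add _ _ ih1 ih2 =>
    obtain ⟨c, hc, rfl⟩ := ih1
    obtain ⟨d, hd, rfl⟩ := ih2
    exact ⟨c + d, add_nonneg hc hd, rfl⟩
  | mul _ _ ih1 ih2 =>
    obtain ⟨c, hc, rfl⟩ := ih1
    obtain ⟨d, hd, rfl⟩ := ih2
    exact ⟨c * d, mul_nonneg hc hd, rfl⟩

lemma gks_cone [NeZero n] (hn : 2 ≤ n) (S : Finset V) :
    ∀ {f : (V → E n) → ℝ}, Cone n (S : Set V) f → 0 ≤ ∫ σ, f σ ∂(P V n) := by
  induction S using Finset.induction_on with
  | empty =>
    intro f hf
    obtain ⟨c, hc, rfl⟩ := cone_empty_const (by simpa using hf)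
    simpa only [integral_const, probReal_univ, smul_eq_mul, one_mul] using hc
  | insert w S hw ih =>
    intro f hf
    rw [← integral_update w hf.continuous]
    refine ih (Cone.integrate hn (by simpa using hw) ?_)
    simpa using hf

/-- Extension of positivity from the cone to exponentials of elements of the cone. -/
lemma nonneg_mul_exp [NeZero n] {U : Set V} {g : (V → E n) → ℝ} (hg : Continuous g)
    (h : ∀ M, Cone n U M → 0 ≤ ∫ σ, g σ * M σ ∂(P V n)) {R M : (V → E n) → ℝ}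
    (hR : Cone n U R) (hM : Cone n U M) :
    0 ≤ ∫ σ, g σ * (M σ * Real.exp (R σ)) ∂(P V n) := by
  have hlim : Tendsto (fun N : ℕ => ∫ σ, g σ * (M σ *
      ∑ k ∈ Finset.range N, R σ ^ k / (k.factorial : ℝ)) ∂(P V n)) atTop
      (𝓝 (∫ σ, g σ * (M σ * Real.exp (R σ)) ∂(P V n))) := by
    refine tendsto_integral_of_dominated_convergence
      (fun σ => |g σ| * (|M σ| * Real.exp |R σ|)) ?_ ?_ ?_ ?_
    · intro N
      refine Continuous.aestronglyMeasurable ?_
      refine hg.mul (hM.continuous.mul (continuous_finsetSum _ fun k _ => ?_))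
      exact (hR.continuous.pow k).div_const _
    · refine integrable_of_continuous ?_
      exact hg.abs.mul (hM.continuous.abs.mul (Real.continuous_exp.comp hR.continuous.abs))
    · intro N
      refine Filter.Eventually.of_forall fun σ => ?_
      rw [Real.norm_eq_abs, abs_mul, abs_mul]
      refine mul_le_mul_of_nonneg_left ?_ (abs_nonneg _)
      refine mul_le_mul_of_nonneg_left ?_ (abs_nonneg _)
      calc |∑ k ∈ Finset.range N, R σ ^ k / (k.factorial : ℝ)|
          ≤ ∑ k ∈ Finset.range N, |R σ ^ k / (k.factorial : ℝ)| :=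
            Finset.abs_sum_le_sum_abs _ _
        _ = ∑ k ∈ Finset.range N, |R σ| ^ k / (k.factorial : ℝ) := by
            refine Finset.sum_congr rfl fun k _ => ?_
            rw [abs_div, abs_pow, Nat.abs_cast]
        _ ≤ Real.exp |R σ| := Real.sum_le_exp_of_nonneg (abs_nonneg _) N
    · refine Filter.Eventually.of_forall fun σ => ?_
      refine Tendsto.const_mul _ (Tendsto.const_mul _ ?_)
      have := (NormedSpace.expSeries_div_hasSum_exp (R σ)).tendsto_sum_nat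
      rw [Real.exp_eq_exp_ℝ]
      exact this
  refine ge_of_tendsto' hlim fun N => ?_
  refine h _ (hM.mul ?_)
  refine Cone.sum _ fun k _ => ?_
  have := (hR.pow k).smul_const (c := ((k.factorial : ℝ))⁻¹) (by positivity)
  convert this using 2 with σ
  rw [div_eq_inv_mul]

lemma cone_Hh {J : V → V → ℝ} (hJ : ∀ x y, 0 ≤ J x y) : Cone n Set.univ (Hh (n := n) J) := by
  unfold Hh
  refine Cone.smul_const ?_ (by norm_num)
  refine Cone.sum _ fun x _ => Cone.sum _ fun y _ => ?_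
  exact Cone.smul_const (Cone.dot x y (Set.mem_univ x) (Set.mem_univ y)) (hJ x y)

/-- First Griffiths inequality. -/
theorem gks_one [NeZero n] (hn : 2 ≤ n) {J : V → V → ℝ} (hJ : ∀ x y, 0 ≤ J x y)
    {M : (V → E n) → ℝ} (hM : Cone n Set.univ M) :
    0 ≤ ∫ σ, M σ * wt J σ ∂(P V n) := by
  have := nonneg_mul_exp (n := n) (V := V) (g := fun _ => 1) (U := Set.univ) continuous_const
    (fun M hM => by
      simp only [one_mul]
      exact gks_cone hn Finset.univ (by simpa only [Finset.coe_univ] using hM)) (cone_Hh hJ) hM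
  simpa only [wt, ge_iff_le, one_mul] using this

end Vale.Agent.P163
end
end

section

section

open MeasureTheory Filter Topology
open scoped RealInnerProductSpace

set_option linter.unusedSectionVars false

namespace Vale.Agent.P163

variable {n : ℕ} {V : Type} [Fintype V] [DecidableEq V]

/-- Integration by parts at one site. -/
theorem site_ibp [NeZero n] (v : V) {Y K : (V → E n) → E n} {R : (V → E n) → ℝ}
    (hY : Continuous Y) (hK : Continuous K) (hR : Continuous R)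
    (hY' : ∀ σ s, Y (Function.update σ v s) = Y σ)
    (hK' : ∀ σ s, K (Function.update σ v s) = K σ)
    (hR' : ∀ σ s, R (Function.update σ v s) = R σ) :
    ((n : ℝ) - 1) * ∫ σ, ⟪Y σ, σ v⟫ * Real.exp (⟪K σ, σ v⟫ + R σ) ∂(P V n) =
      ∫ σ, (⟪K σ, Y σ⟫ - ⟪K σ, σ v⟫ * ⟪Y σ, σ v⟫) *
        Real.exp (⟪K σ, σ v⟫ + R σ) ∂(P V n) := by
  have hsv : Continuous fun σ : V → E n => σ v := continuous_apply v
  have hc1 : Continuous fun σ : V → E n => ⟪Y σ, σ v⟫ * Real.exp (⟪K σ, σ v⟫ + R σ) :=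
    (hY.inner hsv).mul (Real.continuous_exp.comp ((hK.inner hsv).add hR))
  have hc2 : Continuous fun σ : V → E n => (⟪K σ, Y σ⟫ - ⟪K σ, σ v⟫ * ⟪Y σ, σ v⟫) *
      Real.exp (⟪K σ, σ v⟫ + R σ) :=
    ((hK.inner hY).sub ((hK.inner hsv).mul (hY.inner hsv))).mul
      (Real.continuous_exp.comp ((hK.inner hsv).add hR))
  rw [← integral_update v hc1, ← integral_update v hc2, ← integral_const_mul]
  congr 1
  funext σ
  simp only [hY', hK', hR', Function.update_self]
  have hF : ContDiff ℝ 1 fun s : E n => Real.exp (⟪K σ, s⟫ + R σ) := by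
    refine Real.contDiff_exp.comp ?_
    exact (contDiff_const.inner ℝ contDiff_id).add contDiff_const
  have hder : ∀ s w : E n, fderiv ℝ (fun s : E n => Real.exp (⟪K σ, s⟫ + R σ)) s w =
      Real.exp (⟪K σ, s⟫ + R σ) * ⟪K σ, w⟫ := by
    intro s w
    have h1 : HasFDerivAt (fun s : E n => ⟪K σ, s⟫ + R σ) (innerSL ℝ (K σ)) s := by
      simpa using ((innerSL ℝ (K σ)).hasFDerivAt).add_const (R σ)
    rw [h1.exp.fderiv]
    simp [innerSL_apply_apply]
  have h := sphere_ibp hF (Y σ)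
  rw [h]
  congr 1
  funext s
  rw [hder, hder]
  ring

/-- differentiation of exponential integrals in the coupling -/
lemma hasDerivAt_integral_exp [NeZero n] {g h R : (V → E n) → ℝ} (hg : Continuous g)
    (hh : Continuous h) (hR : Continuous R) (r : ℝ) :
    HasDerivAt (fun r : ℝ => ∫ σ, g σ * Real.exp (r * h σ + R σ) ∂(P V n))
      (∫ σ, g σ * h σ * Real.exp (r * h σ + R σ) ∂(P V n)) r := by
  have hG : Continuous fun p : ℝ × (V → E n) => g p.2 * h p.2 * Real.exp (p.1 * h p.2 + R p.2) := by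
    fun_prop
  obtain ⟨C, hC⟩ := ((isCompact_Icc (a := r - 1) (b := r + 1)).prod
    (isCompact_unitBall (V := V) (n := n))).exists_bound_of_continuousOn hG.continuousOn
  have hder := hasDerivAt_integral_of_dominated_loc_of_deriv_le (μ := P V n)
    (F := fun t σ => g σ * Real.exp (t * h σ + R σ))
    (F' := fun t σ => g σ * h σ * Real.exp (t * h σ + R σ))
    (x₀ := r) (bound := fun _ => C) (s := Set.Icc (r - 1) (r + 1))
    (Icc_mem_nhds (by linarith) (by linarith))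
    (Filter.Eventually.of_forall fun t => Continuous.aestronglyMeasurable (by fun_prop))
    (integrable_of_continuous (by fun_prop))
    (Continuous.aestronglyMeasurable (by fun_prop))
    (by
      filter_upwards [P_ae_mem] with σ hσ t ht
      exact hC (t, σ) ⟨ht, hσ⟩)
    (integrable_const _)
    (by
      filter_upwards with σ t _
      have h1 : HasDerivAt (fun t : ℝ => t * h σ + R σ) (h σ) t := by
        simpa using ((hasDerivAt_id t).mul_const (h σ)).add_const (R σ)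
      have h2 : HasDerivAt (fun t : ℝ => g σ * Real.exp (t * h σ + R σ))
          (g σ * (Real.exp (t * h σ + R σ) * h σ)) t := (h1.exp).const_mul (g σ)
      have h3 : g σ * h σ * Real.exp (t * h σ + R σ) =
          g σ * (Real.exp (t * h σ + R σ) * h σ) := by ring
      rw [h3]
      exact h2)
  exact hder.2

end Vale.Agent.P163
end
end

section

section

open MeasureTheory Filter Topology
open scoped RealInnerProductSpace

set_option linter.unusedSectionVars false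

namespace Vale.Agent.P163

variable {n : ℕ} {V : Type} [Fintype V] [DecidableEq V]

/-- couplings scaled by the radii -/
def Jr (J : V → V → ℝ) (ρ : V → ℝ) (u v : V) : ℝ := J u v * (ρ u * ρ v)

/-- unnormalized two-point function with radii `ρ` -/
noncomputable def Gt (n : ℕ) (J : V → V → ℝ) (ρ : V → ℝ) (x y : V) : ℝ :=
  ρ x * ρ y * ∫ σ, ⟪σ x, σ y⟫ * wt (n := n) (Jr J ρ) σ ∂(P V n)

/-- partition function with radii `ρ` -/
noncomputable def Zt (n : ℕ) (J : V → V → ℝ) (ρ : V → ℝ) : ℝ := Zp n (Jr J ρ)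

/-- molecular field at `v` -/
noncomputable def Kv (J : V → V → ℝ) (ρ : V → ℝ) (v : V) (σ : V → E n) : E n :=
  ∑ u ∈ Finset.univ.erase v, (J v u * ρ u) • σ u

/-- energy not involving `v` -/
noncomputable def Rv (J : V → V → ℝ) (ρ : V → ℝ) (v : V) (σ : V → E n) : ℝ :=
  (1 / 2) * ∑ x ∈ Finset.univ.erase v, ∑ y ∈ Finset.univ.erase v,
    J x y * (ρ x * ρ y) * ⟪σ x, σ y⟫

lemma continuous_Kv (J : V → V → ℝ) (ρ : V → ℝ) (v : V) : Continuous (Kv (n := n) J ρ v) := by
  unfold Kv; (clear * -; fun_prop)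

lemma continuous_Rv (J : V → V → ℝ) (ρ : V → ℝ) (v : V) : Continuous (Rv (n := n) J ρ v) := by
  unfold Rv; fun_prop

lemma inner_Kv (J : V → V → ℝ) (ρ : V → ℝ) (v : V) (σ : V → E n) (w : E n) :
    ⟪Kv J ρ v σ, w⟫ = ∑ u ∈ Finset.univ.erase v, (J v u * ρ u) * ⟪σ u, w⟫ := by
  simp only [Kv, sum_inner, inner_smul_left, RCLike.conj_to_real]

lemma Kv_update (J : V → V → ℝ) (ρ : V → ℝ) (v : V) (σ : V → E n) (s : E n) :
    Kv J ρ v (Function.update σ v s) = Kv J ρ v σ := by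
  unfold Kv
  refine Finset.sum_congr rfl fun u hu => ?_
  rw [Function.update_of_ne (Finset.ne_of_mem_erase hu)]

lemma Rv_update (J : V → V → ℝ) (ρ : V → ℝ) (v : V) (σ : V → E n) (s : E n) :
    Rv J ρ v (Function.update σ v s) = Rv J ρ v σ := by
  unfold Rv
  congr 1
  refine Finset.sum_congr rfl fun u hu => Finset.sum_congr rfl fun w hw => ?_
  rw [Function.update_of_ne (Finset.ne_of_mem_erase hu),
    Function.update_of_ne (Finset.ne_of_mem_erase hw)]

lemma Hh_split {J : V → V → ℝ} (hs : ∀ u v, J u v = J v u) (h0 : ∀ v, J v v = 0)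
    (ρ : V → ℝ) (v : V) (r : ℝ) (σ : V → E n) :
    Hh (Jr J (Function.update ρ v r)) σ = r * ⟪Kv J ρ v σ, σ v⟫ + Rv J ρ v σ := by
  unfold Hh Rv Kv Jr
  rw [← Finset.add_sum_erase Finset.univ _ (Finset.mem_univ v)]
  have h1 : ∑ y, J v y * (Function.update ρ v r v * Function.update ρ v r y) * ⟪σ v, σ y⟫ =
      r * ∑ u ∈ Finset.univ.erase v, (J v u * ρ u) * ⟪σ u, σ v⟫ := by
    rw [← Finset.add_sum_erase Finset.univ _ (Finset.mem_univ v), h0, Finset.mul_sum]
    simp only [zero_mul, zero_add]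
    refine Finset.sum_congr rfl fun u hu => ?_
    rw [Function.update_self, Function.update_of_ne (Finset.ne_of_mem_erase hu),
      real_inner_comm]
    ring
  have h2 : ∀ x ∈ Finset.univ.erase v,
      ∑ y, J x y * (Function.update ρ v r x * Function.update ρ v r y) * ⟪σ x, σ y⟫ =
      r * ((J v x * ρ x) * ⟪σ x, σ v⟫) + ∑ y ∈ Finset.univ.erase v,
        J x y * (ρ x * ρ y) * ⟪σ x, σ y⟫ := by
    intro x hx
    have hxv := Finset.ne_of_mem_erase hx
    rw [← Finset.add_sum_erase Finset.univ _ (Finset.mem_univ v)]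
    congr 1
    · rw [Function.update_self, Function.update_of_ne hxv, hs x v]; ring
    · refine Finset.sum_congr rfl fun y hy => ?_
      rw [Function.update_of_ne hxv, Function.update_of_ne (Finset.ne_of_mem_erase hy)]
  rw [h1, Finset.sum_congr rfl h2, Finset.sum_add_distrib, ← Finset.mul_sum, sum_inner]
  simp only [inner_smul_left, RCLike.conj_to_real]
  ring

/-- The basic radial differentiation formula. -/
theorem radial_deriv [NeZero n] (hn : 2 ≤ n) {J : V → V → ℝ} (hs : ∀ u v, J u v = J v u)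
    (h0 : ∀ v, J v v = 0) (ρ : V → ℝ) (v y : V) (r : ℝ) :
    HasDerivAt (fun r : ℝ => r ^ (n - 2) * Gt n J (Function.update ρ v r) v y)
      (r ^ (n - 1) * (∑ u, J v u * Gt n J (Function.update ρ v r) u y +
        if y = v then (n : ℝ) * Zt n J (Function.update ρ v r) else 0)) r := by
  have hw : ∀ r σ, wt (n := n) (Jr J (Function.update ρ v r)) σ =
      Real.exp (r * ⟪Kv J ρ v σ, σ v⟫ + Rv J ρ v σ) := fun r σ => by
    rw [wt, Hh_split hs h0]
  have hKc := continuous_Kv (n := n) J ρ v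
  have hRc := continuous_Rv (n := n) J ρ v
  have hsv : ∀ u, Continuous fun σ : V → E n => σ u := fun u => continuous_apply u
  have hpow : ∀ r : ℝ, r ^ (n - 2) * r = r ^ (n - 1) := fun r => by
    rw [← pow_succ]; congr 1; omega
  by_cases hy : y = v
  · subst hy
    have hf : (fun r : ℝ => r ^ (n - 2) * Gt n J (Function.update ρ y r) y y) =
        fun r => r ^ n * ∫ σ, 1 * Real.exp (r * ⟪Kv J ρ y σ, σ y⟫ + Rv J ρ y σ) ∂(P V n) := by
      funext r
      have : ∫ σ, ⟪σ y, σ y⟫ * wt (n := n) (Jr J (Function.update ρ y r)) σ ∂(P V n) =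
          ∫ σ, 1 * Real.exp (r * ⟪Kv J ρ y σ, σ y⟫ + Rv J ρ y σ) ∂(P V n) := by
        refine integral_congr_ae ?_
        filter_upwards [P_ae_norm] with σ hσ
        rw [hw, real_inner_self_eq_norm_sq, hσ y]; norm_num
      rw [Gt, this, Function.update_self]
      have hp : r ^ (n - 2) * (r * r) = r ^ n := by
        rw [← pow_two, ← pow_add]; congr 1; omega
      rw [← mul_assoc, hp]
    rw [hf]
    have hd := hasDerivAt_integral_exp (n := n) (V := V) (g := fun _ => 1)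
      (h := fun σ => ⟪Kv J ρ y σ, σ y⟫) (R := Rv J ρ y) continuous_const
      (hKc.inner (hsv y)) hRc r
    have hd2 := (hasDerivAt_pow n r).mul hd
    refine hd2.congr_deriv ?_
    simp only [if_true, one_mul]
    have hZ : Zt n J (Function.update ρ y r) =
        ∫ σ, Real.exp (r * ⟪Kv J ρ y σ, σ y⟫ + Rv J ρ y σ) ∂(P V n) := by
      simp only [Zt, Zp, hw]
    have hsum : ∑ u, J y u * Gt n J (Function.update ρ y r) u y =
        r * ∫ σ, ⟪Kv J ρ y σ, σ y⟫ * Real.exp (r * ⟪Kv J ρ y σ, σ y⟫ + Rv J ρ y σ) ∂(P V n) := by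
      rw [← Finset.add_sum_erase Finset.univ _ (Finset.mem_univ y), h0, zero_mul, zero_add]
      have : ∀ σ : V → E n, ⟪Kv J ρ y σ, σ y⟫ *
          Real.exp (r * ⟪Kv J ρ y σ, σ y⟫ + Rv J ρ y σ) =
          ∑ u ∈ Finset.univ.erase y, (J y u * ρ u) * (⟪σ u, σ y⟫ *
            Real.exp (r * ⟪Kv J ρ y σ, σ y⟫ + Rv J ρ y σ)) := by
        intro σ
        generalize hX : Real.exp (r * ⟪Kv J ρ y σ, σ y⟫ + Rv J ρ y σ) = X
        rw [inner_Kv, Finset.sum_mul]
        refine Finset.sum_congr rfl fun u _ => ?_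
        rw [mul_assoc]
      simp_rw [this]
      rw [integral_finsetSum _ fun u _ => ?_, Finset.mul_sum]
      · refine Finset.sum_congr rfl fun u hu => ?_
        rw [integral_const_mul, Gt, Function.update_self,
          Function.update_of_ne (Finset.ne_of_mem_erase hu)]
        simp only [hw]
        ring
      · refine integrable_of_continuous ?_
        exact continuous_const.mul (((hsv u).inner (hsv y)).mul
          (Real.continuous_exp.comp ((continuous_const.mul (hKc.inner (hsv y))).add hRc)))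
    rw [hZ, hsum]
    have hp2 : r ^ n = r ^ (n - 1) * r := by
      rw [← pow_succ]; congr 1; omega
    rw [hp2]
    ring
  · -- `y ≠ v`
    let Y : (V → E n) → E n := fun σ => ρ y • σ y
    have hYc : Continuous Y := (hsv y).const_smul (ρ y)
    have hf : (fun r : ℝ => r ^ (n - 2) * Gt n J (Function.update ρ v r) v y) =
        fun r => r ^ (n - 1) * ∫ σ, ⟪Y σ, σ v⟫ *
          Real.exp (r * ⟪Kv J ρ v σ, σ v⟫ + Rv J ρ v σ) ∂(P V n) := by
      funext r
      rw [Gt, Function.update_self, Function.update_of_ne hy, ← hpow, mul_assoc, mul_assoc,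
        ← integral_const_mul]
      congr 3
      funext σ
      rw [hw]
      simp only [Y, inner_smul_left, RCLike.conj_to_real]
      rw [real_inner_comm]
      ring
    rw [hf]
    have hd := hasDerivAt_integral_exp (n := n) (V := V) (g := fun σ => ⟪Y σ, σ v⟫)
      (h := fun σ => ⟪Kv J ρ v σ, σ v⟫) (R := Rv J ρ v) (hYc.inner (hsv v))
      (hKc.inner (hsv v)) hRc r
    have hd2 := (hasDerivAt_pow (n - 1) r).mul hd
    refine hd2.congr_deriv ?_
    have hibp := site_ibp (n := n) (V := V) v (Y := Y) (K := fun σ => r • Kv J ρ v σ)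
      (R := Rv J ρ v) hYc (hKc.const_smul r) hRc
      (fun σ s => by simp [Y, Function.update_of_ne hy])
      (fun σ s => by simp [Kv_update]) (fun σ s => Rv_update J ρ v σ s)
    simp only [inner_smul_left, RCLike.conj_to_real] at hibp
    have hb : ∑ u, J v u * Gt n J (Function.update ρ v r) u y =
        ∫ σ, ⟪Kv J ρ v σ, Y σ⟫ * Real.exp (r * ⟪Kv J ρ v σ, σ v⟫ + Rv J ρ v σ) ∂(P V n) := by
      rw [← Finset.add_sum_erase Finset.univ _ (Finset.mem_univ v), h0, zero_mul, zero_add]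
      have : ∀ σ : V → E n, ⟪Kv J ρ v σ, Y σ⟫ *
          Real.exp (r * ⟪Kv J ρ v σ, σ v⟫ + Rv J ρ v σ) =
          ∑ u ∈ Finset.univ.erase v, (J v u * (ρ u * ρ y)) * (⟪σ u, σ y⟫ *
            Real.exp (r * ⟪Kv J ρ v σ, σ v⟫ + Rv J ρ v σ)) := by
        intro σ
        generalize hX : Real.exp (r * ⟪Kv J ρ v σ, σ v⟫ + Rv J ρ v σ) = X
        rw [inner_Kv, Finset.sum_mul]
        refine Finset.sum_congr rfl fun u _ => ?_
        simp only [Y, inner_smul_right]
        ring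
      simp_rw [this]
      rw [integral_finsetSum _ fun u _ => ?_]
      · refine Finset.sum_congr rfl fun u hu => ?_
        rw [integral_const_mul, Gt, Function.update_of_ne hy,
          Function.update_of_ne (Finset.ne_of_mem_erase hu)]
        simp only [hw]
        ring
      · refine integrable_of_continuous ?_
        exact continuous_const.mul (((hsv u).inner (hsv y)).mul
          (Real.continuous_exp.comp ((continuous_const.mul (hKc.inner (hsv v))).add hRc)))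
    rw [if_neg hy, add_zero, hb]
    -- split the integral in `hibp`
    have hsplit : ∫ σ, (r * ⟪Kv J ρ v σ, Y σ⟫ - r * ⟪Kv J ρ v σ, σ v⟫ * ⟪Y σ, σ v⟫) *
        Real.exp (r * ⟪Kv J ρ v σ, σ v⟫ + Rv J ρ v σ) ∂(P V n) =
        r * ∫ σ, ⟪Kv J ρ v σ, Y σ⟫ * Real.exp (r * ⟪Kv J ρ v σ, σ v⟫ + Rv J ρ v σ) ∂(P V n) -
        r * ∫ σ, ⟪Y σ, σ v⟫ * ⟪Kv J ρ v σ, σ v⟫ *
          Real.exp (r * ⟪Kv J ρ v σ, σ v⟫ + Rv J ρ v σ) ∂(P V n) := by
      rw [← integral_const_mul, ← integral_const_mul, ← integral_sub]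
      · congr 1; funext σ; ring
      · refine (integrable_of_continuous ?_).const_mul _
        exact (hKc.inner hYc).mul
          (Real.continuous_exp.comp ((continuous_const.mul (hKc.inner (hsv v))).add hRc))
      · refine (integrable_of_continuous ?_).const_mul _
        exact ((hYc.inner (hsv v)).mul (hKc.inner (hsv v))).mul
          (Real.continuous_exp.comp ((continuous_const.mul (hKc.inner (hsv v))).add hRc))
    rw [hsplit] at hibp
    have hcast : ((n - 1 : ℕ) : ℝ) = (n : ℝ) - 1 := by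
      rw [Nat.cast_sub (by omega)]; simp
    have hp3 : r ^ (n - 1 - 1) = r ^ (n - 2) := by congr 1
    simp only [hcast, hp3]
    rw [← hpow]
    linear_combination r ^ (n - 2) * hibp

/-! ### Elementary bounds -/

lemma Jr_nonneg {J : V → V → ℝ} (hJ : ∀ u v, 0 ≤ J u v) {ρ : V → ℝ} (hρ : ∀ u, 0 ≤ ρ u)
    (u v : V) : 0 ≤ Jr J ρ u v := mul_nonneg (hJ u v) (mul_nonneg (hρ u) (hρ v))

lemma Gt_nonneg [NeZero n] (hn : 2 ≤ n) {J : V → V → ℝ} (hJ : ∀ u v, 0 ≤ J u v) {ρ : V → ℝ}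
    (hρ : ∀ u, 0 ≤ ρ u) (x y : V) : 0 ≤ Gt n J ρ x y :=
  mul_nonneg (mul_nonneg (hρ x) (hρ y)) (gks_one hn (Jr_nonneg hJ hρ)
    (Cone.dot x y (Set.mem_univ x) (Set.mem_univ y)))

lemma Zt_ge_one [NeZero n] (hn : 2 ≤ n) {J : V → V → ℝ} (hJ : ∀ u v, 0 ≤ J u v) {ρ : V → ℝ}
    (hρ : ∀ u, 0 ≤ ρ u) : 1 ≤ Zt n J ρ := by
  have h1 : 0 ≤ ∫ σ, Hh (n := n) (Jr J ρ) σ ∂(P V n) :=
    gks_cone hn Finset.univ (by simpa only [Finset.coe_univ] using cone_Hh (Jr_nonneg hJ hρ))
  have h2 : ∫ σ, (Hh (n := n) (Jr J ρ) σ + 1) ∂(P V n) ≤ Zt n J ρ := by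
    refine integral_mono (integrable_of_continuous ((continuous_Hh _).add continuous_const))
      (integrable_of_continuous (continuous_wt _)) fun σ => ?_
    exact Real.add_one_le_exp _
  rw [integral_add (integrable_of_continuous (continuous_Hh _)) (integrable_const _)] at h2
  simp at h2
  linarith only [h1, h2]

lemma Hh_le {J : V → V → ℝ} (hJ : ∀ u v, 0 ≤ J u v) {ρ : V → ℝ} (hρ : ∀ u, 0 ≤ ρ u ∧ ρ u ≤ 1)
    {σ : V → E n} (hσ : ∀ x, ‖σ x‖ = 1) :
    Hh (Jr J ρ) σ ≤ (1 / 2) * ∑ x, ∑ y, J x y := by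
  unfold Hh
  refine mul_le_mul_of_nonneg_left ?_ (by norm_num)
  refine Finset.sum_le_sum fun x _ => Finset.sum_le_sum fun y _ => ?_
  have h1 : ⟪σ x, σ y⟫ ≤ 1 := by
    have := real_inner_le_norm (σ x) (σ y)
    simpa only [ge_iff_le, hσ, mul_one] using this
  have h2 : 0 ≤ Jr J ρ x y := Jr_nonneg hJ (fun u => (hρ u).1) x y
  have h3 : Jr J ρ x y ≤ J x y := by
    unfold Jr
    have : ρ x * ρ y ≤ 1 := mul_le_one₀ (hρ x).2 (hρ y).1 (hρ y).2
    nlinarith only [this, hJ x y]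
  nlinarith only [h3, h1, h2]

lemma Zt_le [NeZero n] {J : V → V → ℝ} (hJ : ∀ u v, 0 ≤ J u v) {ρ : V → ℝ}
    (hρ : ∀ u, 0 ≤ ρ u ∧ ρ u ≤ 1) : Zt n J ρ ≤ Real.exp ((1 / 2) * ∑ x, ∑ y, J x y) := by
  have : Zt n J ρ ≤ ∫ _σ : V → E n, Real.exp ((1 / 2) * ∑ x, ∑ y, J x y) ∂(P V n) := by
    refine integral_mono_ae (integrable_of_continuous (continuous_wt _)) (integrable_const _) ?_
    filter_upwards [P_ae_norm] with σ hσ
    exact Real.exp_le_exp.2 (Hh_le hJ hρ hσ)
  simpa only [one_div, ge_iff_le, integral_const, probReal_univ, smul_eq_mul, one_mul] using this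

lemma Gt_le_Zt [NeZero n] {J : V → V → ℝ} {ρ : V → ℝ}
    (hρ : ∀ u, 0 ≤ ρ u ∧ ρ u ≤ 1) (x y : V) : Gt n J ρ x y ≤ Zt n J ρ := by
  have h1 : ∫ σ, ⟪σ x, σ y⟫ * wt (n := n) (Jr J ρ) σ ∂(P V n) ≤ Zt n J ρ := by
    refine integral_mono_ae (integrable_of_continuous ?_)
      (integrable_of_continuous (continuous_wt _)) ?_
    · exact ((continuous_apply x).inner (continuous_apply y)).mul (continuous_wt _)
    · filter_upwards [P_ae_norm] with σ hσ
      have h1 : ⟪σ x, σ y⟫ ≤ 1 := by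
        have := real_inner_le_norm (σ x) (σ y)
        simpa [hσ] using this
      have := wt_pos (Jr J ρ) σ
      nlinarith
  have h2 : ρ x * ρ y ≤ 1 := mul_le_one₀ (hρ x).2 (hρ y).1 (hρ y).2
  have h3 : 0 ≤ ρ x * ρ y := mul_nonneg (hρ x).1 (hρ y).1
  have h4 : 0 < Zt n J ρ := Zp_pos _
  unfold Gt
  nlinarith

/-! ### The Simon type inequality -/

/-- `Uf` is the difference of the two sides of the Simon inequality. -/
noncomputable def Uf (n : ℕ) (J : V → V → ℝ) (B : Finset V) (A : V → ℝ) (x : V)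
    (ρ : V → ℝ) (u : V) : ℝ :=
  ∑ v' ∈ Bᶜ, ∑ z ∈ B, (J v' z / n) * A z * Gt n J ρ u v' - Gt n J ρ u x

noncomputable def Wf (n : ℕ) (J : V → V → ℝ) (ρ : V → ℝ) (u : V) : ℝ := ∑ y, Gt n J ρ u y

lemma Uf_step [NeZero n] (hn : 2 ≤ n) {J : V → V → ℝ} (hs : ∀ u v, J u v = J v u)
    (h0 : ∀ v, J v v = 0) (hJ : ∀ u v, 0 ≤ J u v) {B : Finset V} {A : V → ℝ} {x : V} (hx : x ∈ B)
    (hA0 : ∀ z, 0 ≤ A z)
    (hA : ∀ ρ : V → ℝ, (∀ u, 0 ≤ ρ u ∧ ρ u ≤ 1) → (∀ u ∈ B, ρ u = 1) →
      ∀ z ∈ B, (∃ v, v ∉ B ∧ 0 < J v z) → Gt n J ρ z x ≤ A z * Zt n J ρ)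
    {C2 : ℝ} (hC2 : ∀ ρ : V → ℝ, (∀ u, 0 ≤ ρ u ∧ ρ u ≤ 1) → ∀ v, ∑ u, J v u * Wf n J ρ u ≤ C2)
    {c : ℝ} (hc0 : 0 ≤ c) (hc1 : c ≤ 1) (hc : c * C2 ≤ (1 - c) * n) {κ : ℝ} (hκ : 0 ≤ κ)
    (hQ : ∀ ρ : V → ℝ, (∀ u, 0 ≤ ρ u ∧ ρ u ≤ 1) → (∀ u ∈ B, ρ u = 1) →
      ∀ v ∉ B, -(κ * Wf n J ρ v) ≤ Uf n J B A x ρ v)
    (ρ : V → ℝ) (hρ : ∀ u, 0 ≤ ρ u ∧ ρ u ≤ 1) (hρB : ∀ u ∈ B, ρ u = 1) (v : V) (hv : v ∉ B) :
    -((1 - c) * κ * Wf n J ρ v) ≤ Uf n J B A x ρ v := by
  have hnpos : (0 : ℝ) < n := by exact_mod_cast (by omega : 0 < n)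
  have hρr : ∀ r ∈ Set.Icc (0 : ℝ) 1, ∀ u, 0 ≤ Function.update ρ v r u ∧
      Function.update ρ v r u ≤ 1 := by
    intro r hr u
    by_cases h : u = v
    · subst h; simpa only [Function.update_self, Set.mem_Icc] using hr
    · simpa only [Function.update_of_ne h] using hρ u
  have hρrB : ∀ r : ℝ, ∀ u ∈ B, Function.update ρ v r u = 1 := by
    intro r u hu
    have : u ≠ v := fun h => hv (h ▸ hu)
    rw [Function.update_of_ne this]; exact hρB u hu
  have hxv : x ≠ v := fun h => hv (h ▸ hx)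
  let S : ℝ → ℝ := fun r => r ^ (n - 2) *
    (Uf n J B A x (Function.update ρ v r) v + (1 - c) * κ * Wf n J (Function.update ρ v r) v)
  let T : ℝ → ℝ := fun r => r ^ (n - 1) *
    (∑ u, J v u * Uf n J B A x (Function.update ρ v r) u +
      ∑ z ∈ B, J v z * A z * Zt n J (Function.update ρ v r) +
      (1 - c) * κ * (∑ u, J v u * Wf n J (Function.update ρ v r) u +
        n * Zt n J (Function.update ρ v r)))
  have hST : ∀ r, HasDerivAt S (T r) r := by
    intro r
    have hd : ∀ y, HasDerivAt (fun r : ℝ => r ^ (n - 2) * Gt n J (Function.update ρ v r) v y)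
      (r ^ (n - 1) * (∑ u, J v u * Gt n J (Function.update ρ v r) u y +
        if y = v then (n : ℝ) * Zt n J (Function.update ρ v r) else 0)) r := fun y =>
      radial_deriv hn hs h0 ρ v y r
    have e1 : HasDerivAt (fun r : ℝ => ∑ v' ∈ Bᶜ, ∑ z ∈ B, (J v' z / n) * A z *
        (r ^ (n - 2) * Gt n J (Function.update ρ v r) v v'))
        (∑ v' ∈ Bᶜ, ∑ z ∈ B, (J v' z / n) * A z *
        (r ^ (n - 1) * (∑ u, J v u * Gt n J (Function.update ρ v r) u v' +
        if v' = v then (n : ℝ) * Zt n J (Function.update ρ v r) else 0))) r :=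
      HasDerivAt.fun_sum fun v' _ => HasDerivAt.fun_sum fun z _ => (hd v').const_mul _
    have e2 : HasDerivAt (fun r : ℝ => ∑ y, (r ^ (n - 2) * Gt n J (Function.update ρ v r) v y))
        (∑ y, (r ^ (n - 1) * (∑ u, J v u * Gt n J (Function.update ρ v r) u y +
        if y = v then (n : ℝ) * Zt n J (Function.update ρ v r) else 0))) r :=
      HasDerivAt.fun_sum fun y _ => hd y
    have e3 := (e1.sub (hd x)).add (e2.const_mul ((1 - c) * κ))
    have hSeq : S = fun r => (∑ v' ∈ Bᶜ, ∑ z ∈ B, (J v' z / n) * A z *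
        (r ^ (n - 2) * Gt n J (Function.update ρ v r) v v') -
        r ^ (n - 2) * Gt n J (Function.update ρ v r) v x) + (1 - c) * κ *
        ∑ y, (r ^ (n - 2) * Gt n J (Function.update ρ v r) v y) := by
      funext r
      simp only [S, Uf, Wf]
      rw [← Finset.mul_sum]
      have : ∑ v' ∈ Bᶜ, ∑ z ∈ B, (J v' z / n) * A z *
          (r ^ (n - 2) * Gt n J (Function.update ρ v r) v v') =
          r ^ (n - 2) * ∑ v' ∈ Bᶜ, ∑ z ∈ B, (J v' z / n) * A z *
            Gt n J (Function.update ρ v r) v v' := by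
        rw [Finset.mul_sum]
        refine Finset.sum_congr rfl fun v' _ => ?_
        rw [Finset.mul_sum]
        refine Finset.sum_congr rfl fun z _ => ?_
        ring
      rw [this]; ring
    rw [hSeq]
    refine e3.congr_deriv ?_
    simp only [T, Uf, Wf]
    rw [if_neg hxv, add_zero]
    have t1 : ∑ v' ∈ Bᶜ, ∑ z ∈ B, (J v' z / n) * A z *
        (r ^ (n - 1) * (∑ u, J v u * Gt n J (Function.update ρ v r) u v' +
        if v' = v then (n : ℝ) * Zt n J (Function.update ρ v r) else 0)) =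
        r ^ (n - 1) * (∑ u, J v u * (∑ v' ∈ Bᶜ, ∑ z ∈ B, (J v' z / n) * A z *
          Gt n J (Function.update ρ v r) u v') +
          ∑ z ∈ B, J v z * A z * Zt n J (Function.update ρ v r)) := by
      have q1 : ∑ v' ∈ Bᶜ, ∑ z ∈ B, (J v' z / n) * A z *
          (if v' = v then (n : ℝ) * Zt n J (Function.update ρ v r) else 0) =
          ∑ z ∈ B, J v z * A z * Zt n J (Function.update ρ v r) := by
        rw [Finset.sum_eq_single_of_mem v (by simpa using hv)]
        · refine Finset.sum_congr rfl fun z _ => ?_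
          rw [if_pos rfl]
          (clear * - hn; field_simp)
        · intro b _ hb
          simp [if_neg hb]
      have q2 : ∑ v' ∈ Bᶜ, ∑ z ∈ B, (J v' z / n) * A z *
          (∑ u, J v u * Gt n J (Function.update ρ v r) u v') =
          ∑ u, J v u * (∑ v' ∈ Bᶜ, ∑ z ∈ B, (J v' z / n) * A z *
          Gt n J (Function.update ρ v r) u v') := by
        simp_rw [Finset.mul_sum]
        rw [Finset.sum_comm]
        conv_rhs => rw [Finset.sum_comm]
        rw [Finset.sum_comm]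
        refine Finset.sum_congr rfl fun v' _ => ?_
        conv_rhs => rw [Finset.sum_comm]
        refine Finset.sum_congr rfl fun z _ => ?_
        refine Finset.sum_congr rfl fun u _ => ?_
        ring
      rw [← q1, ← q2, ← Finset.sum_add_distrib, Finset.mul_sum]
      refine Finset.sum_congr rfl fun v' _ => ?_
      rw [← Finset.sum_add_distrib, Finset.mul_sum]
      refine Finset.sum_congr rfl fun z _ => ?_
      ring
    have t2 : ∑ y, (r ^ (n - 1) * (∑ u, J v u * Gt n J (Function.update ρ v r) u y +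
        if y = v then (n : ℝ) * Zt n J (Function.update ρ v r) else 0)) =
        r ^ (n - 1) * (∑ u, J v u * ∑ y, Gt n J (Function.update ρ v r) u y +
          n * Zt n J (Function.update ρ v r)) := by
      rw [← Finset.mul_sum, Finset.sum_add_distrib, Finset.sum_ite_eq' Finset.univ v]
      simp only [Finset.mem_univ, if_true, Finset.mul_sum]
      rw [Finset.sum_comm]
    rw [t1, t2]
    have t3 : ∑ u, J v u * (∑ v' ∈ Bᶜ, ∑ z ∈ B, (J v' z / n) * A z *
          Gt n J (Function.update ρ v r) u v' - Gt n J (Function.update ρ v r) u x) =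
        ∑ u, J v u * (∑ v' ∈ Bᶜ, ∑ z ∈ B, (J v' z / n) * A z *
          Gt n J (Function.update ρ v r) u v') -
        ∑ u, J v u * Gt n J (Function.update ρ v r) u x := by
      rw [← Finset.sum_sub_distrib]
      refine Finset.sum_congr rfl fun u _ => ?_
      ring
    rw [t3]
    ring
  -- nonnegativity of the derivative
  have hT : ∀ r ∈ Set.Icc (0 : ℝ) 1, 0 ≤ T r := by
    intro r hr
    refine mul_nonneg (pow_nonneg hr.1 _) ?_
    have hρ' := hρr r hr
    have hρB' := hρrB r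
    set ρ' := Function.update ρ v r with hρ'def
    have hZ1 : 1 ≤ Zt n J ρ' := Zt_ge_one hn hJ fun u => (hρ' u).1
    have hWn : ∀ u, 0 ≤ Wf n J ρ' u := fun u =>
      Finset.sum_nonneg fun y _ => Gt_nonneg hn hJ (fun u => (hρ' u).1) u y
    have hterm : ∀ u, -(J v u * (κ * Wf n J ρ' u)) -
        (if u ∈ B then J v u * A u * Zt n J ρ' else 0) ≤ J v u * Uf n J B A x ρ' u := by
      intro u
      by_cases hu : u ∈ B
      · rw [if_pos hu]
        by_cases hJu : J v u = 0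
        · rw [hJu]; simp
        · have hJpos : 0 < J v u := lt_of_le_of_ne (hJ v u) (Ne.symm hJu)
          have hAu := hA ρ' hρ' hρB' u hu ⟨v, hv, hJpos⟩
          have hU : -(A u * Zt n J ρ') ≤ Uf n J B A x ρ' u := by
            unfold Uf
            have : 0 ≤ ∑ v' ∈ Bᶜ, ∑ z ∈ B, (J v' z / n) * A z * Gt n J ρ' u v' :=
              Finset.sum_nonneg fun v' _ => Finset.sum_nonneg fun z _ =>
                mul_nonneg (mul_nonneg (div_nonneg (hJ _ _) hnpos.le) (hA0 z))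
                  (Gt_nonneg hn hJ (fun u => (hρ' u).1) u v')
            linarith only [hAu, this]
          have hk : 0 ≤ J v u * (κ * Wf n J ρ' u) :=
            mul_nonneg hJpos.le (mul_nonneg hκ (hWn u))
          nlinarith only [hk, hU, hJpos]
      · rw [if_neg hu, sub_zero]
        have := mul_le_mul_of_nonneg_left (hQ ρ' hρ' hρB' u hu) (hJ v u)
        linarith
    have hsum := Finset.sum_le_sum fun u (_ : u ∈ Finset.univ) => hterm u
    rw [Finset.sum_sub_distrib, Finset.sum_ite_mem, Finset.univ_inter,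
      Finset.sum_neg_distrib] at hsum
    have hW2 : ∑ u, J v u * (κ * Wf n J ρ' u) = κ * ∑ u, J v u * Wf n J ρ' u := by
      rw [Finset.mul_sum]; refine Finset.sum_congr rfl fun u _ => by ring
    rw [hW2] at hsum
    have hC := hC2 ρ' hρ' v
    have hWs : 0 ≤ ∑ u, J v u * Wf n J ρ' u :=
      Finset.sum_nonneg fun u _ => mul_nonneg (hJ v u) (hWn u)
    have hfin : 0 ≤ κ * ((1 - c) * n * Zt n J ρ' - c * ∑ u, J v u * Wf n J ρ' u) := by
      refine mul_nonneg hκ ?_
      have a1 : c * ∑ u, J v u * Wf n J ρ' u ≤ c * C2 := mul_le_mul_of_nonneg_left hC hc0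
      have a2 : (1 - c) * n ≤ (1 - c) * n * Zt n J ρ' := by
        have : 0 ≤ (1 - c) * n := mul_nonneg (by linarith) hnpos.le
        nlinarith only [hZ1, this]
      linarith only [hc, a1, a2]
    linarith
  -- conclusion
  have hmono : MonotoneOn S (Set.Icc 0 1) := by
    refine monotoneOn_of_deriv_nonneg (convex_Icc 0 1) ?_ ?_ ?_
    · exact fun r _ => (hST r).continuousAt.continuousWithinAt
    · exact fun r _ => (hST r).differentiableAt.differentiableWithinAt
    · intro r hr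
      rw [interior_Icc] at hr
      rw [(hST r).deriv]
      exact hT r ⟨hr.1.le, hr.2.le⟩
  have hG0 : ∀ y, Gt n J (Function.update ρ v 0) v y = 0 := by
    intro y; simp [Gt]
  have hS0 : S 0 = 0 := by
    simp only [Uf, Wf, hG0, mul_zero, Finset.sum_const_zero, sub_self, add_zero, S]
  have hSv : 0 ≤ S (ρ v) := by
    rw [← hS0]
    exact hmono ⟨le_refl _, zero_le_one⟩ (hρ v) (hρ v).1
  have hup : Function.update ρ v (ρ v) = ρ := Function.update_eq_self v ρ
  rcases eq_or_lt_of_le (hρ v).1 with h | h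
  · have hG0' : ∀ y, Gt n J ρ v y = 0 := by
      intro y; simp [Gt, ← h]
    simp only [Wf, hG0', Finset.sum_const_zero, mul_zero, neg_zero, Uf, sub_self, Std.le_refl]
  · have h2 : 0 < ρ v ^ (n - 2) := pow_pos h _
    simp only [S, hup] at hSv
    have := nonneg_of_mul_nonneg_right hSv h2
    linarith only [this]

/-- Simon type inequality for the `O(n)` model, all `n ≥ 2`. -/
theorem simon [NeZero n] (hn : 2 ≤ n) {J : V → V → ℝ} (hs : ∀ u v, J u v = J v u)
    (h0 : ∀ v, J v v = 0) (hJ : ∀ u v, 0 ≤ J u v) {B : Finset V} {A : V → ℝ} {x : V} (hx : x ∈ B)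
    (hA0 : ∀ z, 0 ≤ A z)
    (hA : ∀ ρ : V → ℝ, (∀ u, 0 ≤ ρ u ∧ ρ u ≤ 1) → (∀ u ∈ B, ρ u = 1) →
      ∀ z ∈ B, (∃ v, v ∉ B ∧ 0 < J v z) → Gt n J ρ z x ≤ A z * Zt n J ρ)
    (ρ : V → ℝ) (hρ : ∀ u, 0 ≤ ρ u ∧ ρ u ≤ 1) (hρB : ∀ u ∈ B, ρ u = 1) (v : V) (hv : v ∉ B) :
    Gt n J ρ v x ≤ ∑ v' ∈ Bᶜ, ∑ z ∈ B, (J v' z / n) * A z * Gt n J ρ v v' := by
  have hnpos : (0 : ℝ) < n := by exact_mod_cast (by omega : 0 < n)
  let C1 : ℝ := Real.exp ((1 / 2) * ∑ x, ∑ y, J x y)
  let C2 : ℝ := (∑ v, ∑ u, J v u) * (Fintype.card V * C1)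
  have hWle : ∀ ρ : V → ℝ, (∀ u, 0 ≤ ρ u ∧ ρ u ≤ 1) → ∀ u, Wf n J ρ u ≤ Fintype.card V * C1 := by
    intro ρ hρ u
    unfold Wf
    calc ∑ y, Gt n J ρ u y ≤ ∑ _y : V, C1 :=
          Finset.sum_le_sum fun y _ => (Gt_le_Zt hρ u y).trans (Zt_le hJ hρ)
      _ = Fintype.card V * C1 := by simp only [Finset.sum_const, Finset.card_univ, nsmul_eq_mul]
  have hC1 : 0 ≤ (Fintype.card V : ℝ) * C1 := by (clear * -; positivity)
  have hC2 : ∀ ρ : V → ℝ, (∀ u, 0 ≤ ρ u ∧ ρ u ≤ 1) → ∀ v, ∑ u, J v u * Wf n J ρ u ≤ C2 := by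
    intro ρ hρ v
    calc ∑ u, J v u * Wf n J ρ u ≤ ∑ u, J v u * (Fintype.card V * C1) :=
          Finset.sum_le_sum fun u _ => mul_le_mul_of_nonneg_left (hWle ρ hρ u) (hJ v u)
      _ = (∑ u, J v u) * (Fintype.card V * C1) := by rw [Finset.sum_mul]
      _ ≤ C2 := by
        refine mul_le_mul_of_nonneg_right ?_ hC1
        exact Finset.single_le_sum (f := fun v => ∑ u, J v u)
          (fun v _ => Finset.sum_nonneg fun u _ => hJ v u) (Finset.mem_univ v)
  have hC2n : 0 ≤ C2 := mul_nonneg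
    (Finset.sum_nonneg fun v _ => Finset.sum_nonneg fun u _ => hJ v u) hC1
  let c : ℝ := n / (n + C2)
  have hden : 0 < (n : ℝ) + C2 := by linarith only [hnpos, hC2n]
  have hc0 : 0 < c := div_pos hnpos hden
  have hc1 : c ≤ 1 := (div_le_one hden).2 (by linarith only [hC2n])
  have hc : c * C2 ≤ (1 - c) * n := by
    have : c * (n + C2) = n := div_mul_cancel₀ _ hden.ne'
    nlinarith only [this]
  have hQ : ∀ m : ℕ, ∀ ρ : V → ℝ, (∀ u, 0 ≤ ρ u ∧ ρ u ≤ 1) → (∀ u ∈ B, ρ u = 1) →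
      ∀ v ∉ B, -((1 - c) ^ m * Wf n J ρ v) ≤ Uf n J B A x ρ v := by
    intro m
    induction m with
    | zero =>
      intro ρ hρ hρB v hv
      have hpos := fun y => Gt_nonneg hn hJ (fun u => (hρ u).1) v y
      have h1 : Gt n J ρ v x ≤ Wf n J ρ v :=
        Finset.single_le_sum (f := fun y => Gt n J ρ v y) (fun y _ => hpos y) (Finset.mem_univ x)
      have h2 : 0 ≤ ∑ v' ∈ Bᶜ, ∑ z ∈ B, (J v' z / n) * A z * Gt n J ρ v v' :=
        Finset.sum_nonneg fun v' _ => Finset.sum_nonneg fun z _ =>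
          mul_nonneg (mul_nonneg (div_nonneg (hJ _ _) hnpos.le) (hA0 z)) (hpos v')
      unfold Uf
      simp only [pow_zero, one_mul]
      linarith only [h1, h2]
    | succ m ih =>
      intro ρ hρ hρB v hv
      have := Uf_step hn hs h0 hJ hx hA0 hA hC2 hc0.le hc1 hc
        (pow_nonneg (by linarith only [hc1] : (0 : ℝ) ≤ 1 - c) m) ih ρ hρ hρB v hv
      calc -((1 - c) ^ (m + 1) * Wf n J ρ v) = -((1 - c) * (1 - c) ^ m * Wf n J ρ v) := by
            rw [pow_succ]; ring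
        _ ≤ _ := this
  have hlim : Tendsto (fun m : ℕ => -((1 - c) ^ m * Wf n J ρ v)) atTop (𝓝 0) := by
    have := ((tendsto_pow_atTop_nhds_zero_of_lt_one (by linarith only [hc1] : (0 : ℝ) ≤ 1 - c)
      (by linarith only [hc0] : 1 - c < 1)).mul_const (Wf n J ρ v)).neg
    simpa using this
  have hfin := le_of_tendsto' hlim fun m => hQ m ρ hρ hρB v hv
  unfold Uf at hfin
  linarith only [hfin]

end Vale.Agent.P163
end
end

section

section

open MeasureTheory Filter Topology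
open scoped RealInnerProductSpace

set_option linter.unusedSectionVars false

namespace Vale.Agent.P163

variable {n : ℕ}

/-! ### Transfer between `P V n` and `QQ V n` -/

lemma mp_val [NeZero n] {V : Type} [Fintype V] :
    MeasurePreserving (fun (σ : V → Spin n) v => (σ v : E n)) (QQ V n) (P V n) := by
  unfold QQ P
  rw [Measure.infinitePi_eq_pi]
  exact measurePreserving_pi _ _ fun v => ⟨measurable_subtype_coe, rfl⟩

lemma integral_P_eq [NeZero n] {V : Type} [Fintype V] {F : (V → E n) → ℝ} (hF : Continuous F) :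
    ∫ σ, F σ ∂(P V n) = ∫ σ, F (fun v => (σ v : E n)) ∂(QQ V n) := by
  have hmp := mp_val (n := n) (V := V)
  have h3 := integral_map (μ := QQ V n) hmp.measurable.aemeasurable
      (f := F) hF.aestronglyMeasurable
  rw [hmp.map_eq] at h3
  exact h3

/-- pulling back configurations by an injective map preserves the product measure -/
lemma mp_chart [NeZero n] {V W : Type} {c : V → W} (hc : Function.Injective c) :
    MeasurePreserving (fun (ξ : W → Spin n) v => ξ (c v)) (QQ W n) (QQ V n) := by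
  classical
  have hm : Measurable (fun (ξ : W → Spin n) v => ξ (c v)) :=
    measurable_pi_lambda _ fun v => measurable_pi_apply (c v)
  refine ⟨hm, ?_⟩
  unfold QQ
  refine Measure.eq_infinitePi _ fun s t ht => ?_
  rw [Measure.map_apply hm (MeasurableSet.pi s.countable_toSet fun i _ => ht i)]
  let t' : W → Set (Spin n) := Function.extend c t fun _ => Set.univ
  have ht' : ∀ v, t' (c v) = t v := fun v => hc.extend_apply _ _ _
  have hpre : (fun (ξ : W → Spin n) v => ξ (c v)) ⁻¹' (Set.pi (s : Set V) t) =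
      Set.pi ((s.image c : Finset W) : Set W) t' := by
    ext ξ
    simp only [Set.mem_preimage, Set.mem_pi, Finset.mem_coe, Finset.mem_image,
      forall_exists_index, and_imp, forall_apply_eq_imp_iff₂, ht']
  rw [hpre, Measure.infinitePi_pi]
  · rw [Finset.prod_image fun a _ b _ h => hc h]
    simp only [ht']
  · intro w hw
    obtain ⟨v, -, rfl⟩ := Finset.mem_image.1 hw
    rw [ht']
    exact ht v

lemma integral_chart [NeZero n] {V W : Type} {c : V → W} [Countable V]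
    (hc : Function.Injective c) {F : (V → Spin n) → ℝ} (hF : Continuous F) :
    ∫ ξ, F (fun v => ξ (c v)) ∂(QQ W n) = ∫ ξ, F ξ ∂(QQ V n) := by
  have hmp := mp_chart (n := n) hc
  have h3 := integral_map (μ := QQ W n) hmp.measurable.aemeasurable
      (f := F) hF.aestronglyMeasurable
  rw [hmp.map_eq] at h3
  exact h3.symm

/-! ### Single site dependence -/

lemma noDep_of_sites {I : Type} [DecidableEq I] {f : (I → Spin n) → ℝ} (D : Finset I)
    (h : ∀ y ∈ D, NoDep {y} f) : NoDep D f := by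
  induction D using Finset.induction_on with
  | empty => intro ξ σ; simp
  | insert a s ha ih =>
    intro ξ σ
    have h1 := ih (fun y hy => h y (Finset.mem_insert_of_mem hy)) ξ σ
    have h2 := h a (Finset.mem_insert_self _ _) ξ (s.piecewise ξ σ)
    rw [← h1, ← h2]
    congr 1
    funext x
    by_cases hx : x = a
    · subst hx; simp
    · by_cases hxs : x ∈ s <;> simp [hx, hxs]

/-- the four neighbours of a site -/
def nb4 (y : Z2) : Finset Z2 := {(y.1 + 1, y.2), (y.1 - 1, y.2), (y.1, y.2 + 1), (y.1, y.2 - 1)}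

lemma sum_nb4 (y : Z2) (f : Z2 → ℝ) : ∑ p ∈ nb4 y, f p =
    f (y.1 + 1, y.2) + f (y.1 - 1, y.2) + f (y.1, y.2 + 1) + f (y.1, y.2 - 1) := by
  unfold nb4
  rw [Finset.sum_insert, Finset.sum_insert, Finset.sum_insert, Finset.sum_singleton]
  · ring
  · simp only [Finset.mem_singleton, Prod.mk.injEq]; omega
  · simp only [Finset.mem_insert, Prod.mk.injEq, sub_eq_self, one_ne_zero, left_eq_add, and_self, Finset.mem_singleton, false_and, or_self, not_false_eq_true]
  · simp only [Finset.mem_insert, Finset.mem_singleton, Prod.mk.injEq]; omega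

lemma sum_plaq2 (y : Z2) (f : Z2 → ℝ) : ∑ q ∈ plaq (y.1 - 1, y.2 - 1) 2, f q =
    f (y.1 - 1, y.2 - 1) + f (y.1 - 1, y.2) + f (y.1, y.2 - 1) + f (y.1, y.2) := by
  have h : ∀ a : ℤ, Finset.Ico (a - 1) (a - 1 + 2) = {a - 1, a} := by
    intro a; ext b; simp only [Finset.mem_Ico, Finset.mem_insert, Finset.mem_singleton]; omega
  unfold plaq
  rw [Finset.sum_product]
  simp only [h]
  have hne : ∀ a : ℤ, a - 1 ∉ ({a} : Finset ℤ) := by intro a; simp
  rw [Finset.sum_insert (hne _), Finset.sum_singleton, Finset.sum_insert (hne _),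
    Finset.sum_singleton, Finset.sum_insert (hne _), Finset.sum_singleton]
  ring

lemma site_aux (β : ℝ) (y : Z2) (η : Z2 → Spin n) :
    PSb (y.1 - 1, y.2 - 1) 2 (fun _ _ s t => β * ⟪s, t⟫) η -
      β * ∑ p ∈ nb4 y, ⟪(η p : E n), (η y : E n)⟫ =
    β / 2 * (⟪(η (y.1 - 1, y.2 - 1) : E n), (η (y.1, y.2 - 1) : E n)⟫ +
      ⟪(η (y.1, y.2 - 1) : E n), (η (y.1 + 1, y.2 - 1) : E n)⟫ +
      ⟪(η (y.1 - 1, y.2 + 1) : E n), (η (y.1, y.2 + 1) : E n)⟫ +
      ⟪(η (y.1, y.2 + 1) : E n), (η (y.1 + 1, y.2 + 1) : E n)⟫ +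
      ⟪(η (y.1 - 1, y.2 - 1) : E n), (η (y.1 - 1, y.2) : E n)⟫ +
      ⟪(η (y.1 - 1, y.2) : E n), (η (y.1 - 1, y.2 + 1) : E n)⟫ +
      ⟪(η (y.1 + 1, y.2 - 1) : E n), (η (y.1 + 1, y.2) : E n)⟫ +
      ⟪(η (y.1 + 1, y.2) : E n), (η (y.1 + 1, y.2 + 1) : E n)⟫) := by
  simp only [PSb, PS, pq, sum_plaq2, sum_nb4, sub_add_cancel, Prod.mk.eta]
  rw [real_inner_comm (η (y.1 + 1, y.2) : E n) (η y : E n),
    real_inner_comm (η (y.1, y.2 + 1) : E n) (η y : E n)]
  ring

lemma noDep_site (β : ℝ) (y : Z2) : NoDep {y} (fun η : Z2 → Spin n =>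
    PSb (y.1 - 1, y.2 - 1) 2 (fun _ _ s t => β * ⟪s, t⟫) η -
      β * ∑ p ∈ nb4 y, ⟪(η p : E n), (η y : E n)⟫) := by
  intro ξ σ
  have hne : ∀ p : Z2, (p.1 ≠ y.1 ∨ p.2 ≠ y.2) → ({y} : Finset Z2).piecewise ξ σ p = σ p := by
    intro p hp
    refine Finset.piecewise_eq_of_notMem _ _ _ ?_
    rw [Finset.mem_singleton]
    rintro rfl
    simp at hp
  generalize ({y} : Finset Z2).piecewise ξ σ = η at hne ⊢
  beta_reduce
  rw [site_aux, site_aux]
  rw [hne (y.1 - 1, y.2 - 1) (by simp), hne (y.1 - 1, y.2) (by simp),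
    hne (y.1 - 1, y.2 + 1) (by simp), hne (y.1, y.2 - 1) (by simp),
    hne (y.1, y.2 + 1) (by simp), hne (y.1 + 1, y.2 - 1) (by simp),
    hne (y.1 + 1, y.2) (by simp), hne (y.1 + 1, y.2 + 1) (by simp)]

lemma noDep_W_site (β : ℝ) (p : Z2) (l : ℤ) {y : Z2} (hy : y ∈ inn p l) :
    NoDep {y} (fun η : Z2 → Spin n =>
      W β p l η - β * ∑ q ∈ nb4 y, ⟪(η q : E n), (η y : E n)⟫) := by
  have h1 : SubBox (y.1 - 1, y.2 - 1) 2 p l := by
    rw [mem_inn] at hy
    simp only [SubBox]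
    omega
  have h2 : inn (y.1 - 1, y.2 - 1) 2 = {y} := by
    ext q
    rw [mem_inn, Finset.mem_singleton, Prod.ext_iff]
    simp only
    omega
  have h3 := noDep_sub_PSb (n := n) h1 (fun _ _ s t => β * ⟪s, t⟫)
  rw [h2] at h3
  have h4 := h3.add (noDep_site (n := n) β y)
  intro ξ σ
  have := h4 ξ σ
  simp only at this ⊢
  unfold W
  linarith only [this]

section chart

variable {V : Type} [Fintype V] [DecidableEq V] {J : V → V → ℝ} {c : V → Z2} {β : ℝ} {R : ℤ}
  {ρ : V → ℝ}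

lemma clo_of_nb4 {p : Z2} {l : ℤ} {y q : Z2} (hy : y ∈ inn p l) (hq : q ∈ nb4 y) :
    q ∈ clo p l := by
  rw [mem_inn] at hy
  rw [mem_clo]
  simp only [nb4, Finset.mem_insert, Finset.mem_singleton] at hq
  rcases hq with rfl | rfl | rfl | rfl <;> simp only <;> omega

lemma noDep_V_site (hs : ∀ u v, J u v = J v u) (h0 : ∀ v, J v v = 0)
    (hc : Function.Injective c) {p : Z2} {l : ℤ} (hcov : ∀ q ∈ clo p l, ∃ v, c v = q)
    (hJ : ∀ u v, c u ∈ inn p l → J u v = if c v ∈ nb4 (c u) then β else 0)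
    (hρ : ∀ u, c u ∈ clo p l → ρ u = 1) {y : Z2} (hy : y ∈ inn p l) :
    NoDep {y} (fun η : Z2 → Spin n =>
      Hh (Jr J ρ) (fun u => (η (c u) : E n)) -
        β * ∑ q ∈ nb4 y, ⟪(η q : E n), (η y : E n)⟫) := by
  have hyc : y ∈ clo p l := by
    rw [mem_inn] at hy; rw [mem_clo]; omega
  obtain ⟨v, rfl⟩ := hcov y hyc
  have hρv : ρ v = 1 := hρ v hyc
  have key : ∀ η : Z2 → Spin n, Hh (Jr J ρ) (fun u => (η (c u) : E n)) -
        β * ∑ q ∈ nb4 (c v), ⟪(η q : E n), (η (c v) : E n)⟫ =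
      Rv J ρ v (fun u => (η (c u) : E n)) := by
    intro η
    have h1 := Hh_split (n := n) hs h0 ρ v (ρ v) (fun u => (η (c u) : E n))
    rw [Function.update_eq_self, hρv, one_mul, inner_Kv] at h1
    rw [h1]
    have h2 : ∑ u ∈ Finset.univ.erase v, J v u * ρ u * ⟪(η (c u) : E n), (η (c v) : E n)⟫ =
        β * ∑ q ∈ nb4 (c v), ⟪(η q : E n), (η (c v) : E n)⟫ := by
      rw [Finset.mul_sum]
      have e1 : ∀ u ∈ Finset.univ.erase v, J v u * ρ u * ⟪(η (c u) : E n), (η (c v) : E n)⟫ =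
          if c u ∈ nb4 (c v) then β * ⟪(η (c u) : E n), (η (c v) : E n)⟫ else 0 := by
        intro u _
        rw [hJ v u hy]
        by_cases hu : c u ∈ nb4 (c v)
        · rw [if_pos hu, if_pos hu, hρ u (clo_of_nb4 hy hu), mul_one]
        · rw [if_neg hu, if_neg hu]; ring
      rw [Finset.sum_congr rfl e1, ← Finset.sum_filter]
      refine Finset.sum_bij (fun u _ => c u) ?_ ?_ ?_ ?_
      · intro u hu
        exact (Finset.mem_filter.1 hu).2
      · intro u _ u' _ h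
        exact hc h
      · intro q hq
        obtain ⟨u, rfl⟩ := hcov q (clo_of_nb4 hy hq)
        refine ⟨u, ?_, rfl⟩
        rw [Finset.mem_filter, Finset.mem_erase]
        refine ⟨⟨?_, Finset.mem_univ _⟩, hq⟩
        rintro rfl
        simp only [nb4, Finset.mem_insert, Finset.mem_singleton, Prod.ext_iff] at hq
        omega
      · intro u _
        rfl
    rw [h2]
    ring
  intro ξ σ
  beta_reduce
  rw [key, key]
  have h3 : (fun u => ((({c v} : Finset Z2).piecewise ξ σ (c u) : Spin n) : E n)) =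
      Function.update (fun u => (σ (c u) : E n)) v (ξ (c v)) := by
    funext u
    by_cases hu : u = v
    · subst hu; simp
    · have : c u ∉ ({c v} : Finset Z2) := by
        rw [Finset.mem_singleton]; exact fun h => hu (hc h)
      rw [Function.update_of_ne hu, Finset.piecewise_eq_of_notMem _ _ _ this]
  rw [h3, Rv_update]

lemma noDep_V (hs : ∀ u v, J u v = J v u) (h0 : ∀ v, J v v = 0)
    (hc : Function.Injective c) {p : Z2} {l : ℤ} (hcov : ∀ q ∈ clo p l, ∃ v, c v = q)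
    (hJ : ∀ u v, c u ∈ inn p l → J u v = if c v ∈ nb4 (c u) then β else 0)
    (hρ : ∀ u, c u ∈ clo p l → ρ u = 1) :
    NoDep (inn p l) (fun η : Z2 → Spin n =>
      Hh (Jr J ρ) (fun u => (η (c u) : E n)) - W β p l η) := by
  refine noDep_of_sites _ fun y hy => ?_
  have h1 := noDep_V_site (n := n) hs h0 hc hcov hJ hρ hy
  have h2 := noDep_W_site (n := n) β p l hy
  intro ξ σ
  have h3 := h1 ξ σ
  have h4 := h2 ξ σ
  simp only at h3 h4 ⊢
  linarith only [h3, h4]

/-- From the bound of the magnetization to a bound of the two-point function. -/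
theorem Gt_le_of_MB [NeZero n] (hs : ∀ u v, J u v = J v u) (h0 : ∀ v, J v v = 0)
    (hc : Function.Injective c) (hcov : ∀ q ∈ clo (-R, -R) (2 * R), ∃ v, c v = q)
    (hJ : ∀ u v, c u ∈ inn (-R, -R) (2 * R) → J u v = if c v ∈ nb4 (c u) then β else 0)
    (hρ01 : ∀ u, 0 ≤ ρ u ∧ ρ u ≤ 1)
    (hρ : ∀ u, c u ∈ clo (-R, -R) (2 * R) → ρ u = 1) (hR : 0 < R) {M : ℝ} (hM : 0 ≤ M)
    (hMB : MB n β R M) {x z : V} (hx : c x = (0, 0)) (hz : c z ∉ inn (-R, -R) (2 * R)) :
    Gt n J ρ z x ≤ M * Zt n J ρ := by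
  have hxclo : c x ∈ clo (-R, -R) (2 * R) := by
    rw [hx, mem_clo]; simp only; omega
  have hxinn : c x ∈ inn (-R, -R) (2 * R) := by
    rw [hx, mem_inn]; simp only; omega
  have hH : Continuous (Hh (n := n) (Jr J ρ)) := continuous_Hh _
  have hval : Continuous fun (σ : V → Spin n) v => (σ v : E n) := by fun_prop
  have hHv : Continuous fun (σ : V → Spin n) => Hh (Jr J ρ) (fun v => (σ v : E n)) :=
    hH.comp hval
  -- the integral with spins on the sphere
  have hI : ∫ σ, ⟪σ z, σ x⟫ * wt (n := n) (Jr J ρ) σ ∂(P V n) =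
      ∫ σ, ⟪(σ z : E n), (σ x : E n)⟫ * Real.exp (Hh (Jr J ρ) (fun v => (σ v : E n))) ∂(QQ V n) :=
    integral_P_eq (F := fun σ => ⟪σ z, σ x⟫ * wt (n := n) (Jr J ρ) σ)
      (by have := continuous_wt (n := n) (Jr J ρ); fun_prop)
  have hZ : Zt n J ρ =
      ∫ σ, Real.exp (Hh (Jr J ρ) (fun v => (σ v : E n))) ∂(QQ V n) :=
    integral_P_eq (continuous_wt (n := n) (Jr J ρ))
  have hZpos : 0 < Zt n J ρ := Zp_pos _
  have hmain : ∫ σ, ⟪σ z, σ x⟫ * wt (n := n) (Jr J ρ) σ ∂(P V n) ≤ M * Zt n J ρ := by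
    rw [hI, hZ, ← integral_const_mul]
    let D : Finset V := Finset.univ.filter fun v => c v ∈ inn (-R, -R) (2 * R)
    have hD : ∀ v, v ∈ D ↔ c v ∈ inn (-R, -R) (2 * R) := fun v => by simp only [Finset.mem_filter, Finset.mem_univ, true_and, D]
    have hc1 : Continuous fun σ : V → Spin n => ⟪(σ z : E n), (σ x : E n)⟫ *
        Real.exp (Hh (Jr J ρ) (fun v => (σ v : E n))) := by fun_prop
    have hc2 : Continuous fun σ : V → Spin n => M *
        Real.exp (Hh (Jr J ρ) (fun v => (σ v : E n))) := by fun_prop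
    rw [← integral_pw D hc1, ← integral_pw D hc2]
    refine integral_mono (integrable_QQ (continuous_Av D hc1))
      (integrable_QQ (continuous_Av D hc2)) fun σ => ?_
    -- fixed outer spins
    obtain ⟨s0⟩ := spin_nonempty (n := n)
    let τ : Z2 → Spin n := Function.extend c σ fun _ => s0
    have hτ : ∀ v, τ (c v) = σ v := fun v => hc.extend_apply _ _ _
    have hpw : ∀ ξ : Z2 → Spin n, (fun v => (inn (-R, -R) (2 * R)).piecewise ξ τ (c v)) =
        D.piecewise (fun v => ξ (c v)) σ := by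
      intro ξ
      funext v
      by_cases hv : c v ∈ inn (-R, -R) (2 * R)
      · rw [Finset.piecewise_eq_of_mem _ _ _ hv, Finset.piecewise_eq_of_mem _ _ _ ((hD v).2 hv)]
      · rw [Finset.piecewise_eq_of_notMem _ _ _ hv,
          Finset.piecewise_eq_of_notMem _ _ _ (fun h => hv ((hD v).1 h)), hτ]
    have hnd := noDep_V (n := n) hs h0 hc hcov hJ hρ
    set K : ℝ := Hh (Jr J ρ) (fun u => (τ (c u) : E n)) - W β (-R, -R) (2 * R) τ with hK
    have hKξ : ∀ ξ : Z2 → Spin n, Hh (Jr J ρ) (fun u =>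
        (((inn (-R, -R) (2 * R)).piecewise ξ τ (c u) : Spin n) : E n)) =
        W β (-R, -R) (2 * R) ((inn (-R, -R) (2 * R)).piecewise ξ τ) + K := by
      intro ξ
      have := hnd ξ τ
      simp only at this
      rw [hK]
      linarith only [this]
    have t1 : ∫ ζ, ⟪((D.piecewise ζ σ z : Spin n) : E n), ((D.piecewise ζ σ x : Spin n) : E n)⟫ *
        Real.exp (Hh (Jr J ρ) (fun v => ((D.piecewise ζ σ v : Spin n) : E n))) ∂(QQ V n) =
        Real.exp K * Av (inn (-R, -R) (2 * R)) (fun η => ⟪(σ z : E n), (η (0, 0) : E n)⟫ *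
          Real.exp (W β (-R, -R) (2 * R) η)) τ := by
      rw [← integral_chart hc (F := fun ζ => ⟪((D.piecewise ζ σ z : Spin n) : E n),
        ((D.piecewise ζ σ x : Spin n) : E n)⟫ *
        Real.exp (Hh (Jr J ρ) (fun v => ((D.piecewise ζ σ v : Spin n) : E n))))
        (hc1.comp (continuous_pw_left D σ)), ← Av_const_mul]
      unfold Av
      congr 1
      funext ξ
      rw [← hpw ξ, hKξ ξ, Real.exp_add]
      beta_reduce
      rw [Finset.piecewise_eq_of_notMem _ _ _ hz, hτ, hx]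
      ring
    have t2 : ∫ ζ, M * Real.exp (Hh (Jr J ρ) (fun v => ((D.piecewise ζ σ v : Spin n) : E n)))
        ∂(QQ V n) =
        Real.exp K * (M * Av (inn (-R, -R) (2 * R)) (fun η =>
          Real.exp (W β (-R, -R) (2 * R) η)) τ) := by
      rw [← integral_chart hc (F := fun ζ => M *
        Real.exp (Hh (Jr J ρ) (fun v => ((D.piecewise ζ σ v : Spin n) : E n))))
        (hc2.comp (continuous_pw_left D σ)), ← Av_const_mul, ← Av_const_mul]
      unfold Av
      congr 1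
      funext ξ
      rw [← hpw ξ, hKξ ξ, Real.exp_add]
      ring
    rw [t1, t2]
    refine mul_le_mul_of_nonneg_left ?_ (Real.exp_pos K).le
    have h1 := hMB τ (σ z : E n) (by simp)
    have hden := Gb_den_pos (D := inn (-R, -R) (2 * R)) (continuous_W (n := n) β (-R, -R) (2 * R)) τ
    unfold Gc Gb at h1
    rwa [div_le_iff₀ hden] at h1
  unfold Gt
  rw [hρ x hxclo, mul_one]
  have hMZ : 0 ≤ M * Zt n J ρ := mul_nonneg hM hZpos.le
  calc ρ z * _ ≤ ρ z * (M * Zt n J ρ) := mul_le_mul_of_nonneg_left hmain (hρ01 z).1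
    _ ≤ 1 * (M * Zt n J ρ) := mul_le_mul_of_nonneg_right (hρ01 z).2 hMZ
    _ = _ := one_mul _

end chart

end Vale.Agent.P163
end
end

section

section

open MeasureTheory Filter Topology
open scoped RealInnerProductSpace

set_option linter.unusedSectionVars false

namespace Vale.Agent.P163

variable {n : ℕ}

/-- sup distance -/
def sd (p q : Z2) : ℤ := max |p.1 - q.1| |p.2 - q.2|

lemma sd_le {p q : Z2} {r : ℤ} : sd p q ≤ r ↔
    (q.1 - r ≤ p.1 ∧ p.1 ≤ q.1 + r) ∧ (q.2 - r ≤ p.2 ∧ p.2 ≤ q.2 + r) := by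
  unfold sd
  rw [max_le_iff, abs_le, abs_le]
  constructor <;> rintro ⟨⟨h1, h2⟩, h3, h4⟩ <;> refine ⟨⟨?_, ?_⟩, ?_, ?_⟩ <;> linarith

lemma sd_triangle (p q r : Z2) : sd p r ≤ sd p q + sd q r := by
  have h1 := (sd_le (p := p) (q := q)).1 le_rfl
  have h2 := (sd_le (p := q) (q := r)).1 le_rfl
  rw [sd_le]
  omega

lemma sd_nb4 {p q : Z2} (h : p ∈ nb4 q) : sd p q ≤ 1 := by
  rw [sd_le]
  simp only [nb4, Finset.mem_insert, Finset.mem_singleton] at h
  rcases h with rfl | rfl | rfl | rfl <;> simp only <;> omega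

lemma nb4_sub {p q r : Z2} : (p.1 - r.1, p.2 - r.2) ∈ nb4 (q.1 - r.1, q.2 - r.2) ↔ p ∈ nb4 q := by
  simp only [nb4, Finset.mem_insert, Finset.mem_singleton, Prod.ext_iff]
  constructor <;> (intro h; omega)

lemma mem_clo_sub {p x : Z2} {R : ℤ} :
    (p.1 - x.1, p.2 - x.2) ∈ clo (-R, -R) (2 * R) ↔ sd p x ≤ R := by
  rw [mem_clo, sd_le]
  simp only
  constructor <;> (intro h; omega)

lemma mem_inn_sub {p x : Z2} {R : ℤ} :
    (p.1 - x.1, p.2 - x.2) ∈ inn (-R, -R) (2 * R) ↔ sd p x ≤ R - 1 := by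
  rw [mem_inn, sd_le]
  simp only
  constructor <;> (intro h; omega)

lemma card_shell {R : ℤ} (hR : 0 < R) :
    ((clo (-R, -R) (2 * R) \ inn (-R, -R) (2 * R)).card : ℝ) = 8 * R := by
  have hsub : inn (-R, -R) (2 * R) ⊆ clo (-R, -R) (2 * R) := by
    intro q hq
    rw [mem_inn] at hq
    rw [mem_clo]
    omega
  have h1 : ((clo (-R, -R) (2 * R)).card : ℤ) = (2 * R + 1) ^ 2 := by
    unfold clo
    rw [Finset.card_product, Int.card_Icc]
    push_cast
    rw [Int.toNat_of_nonneg (by omega)]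
    ring
  have h2 : ((inn (-R, -R) (2 * R)).card : ℤ) = (2 * R - 1) ^ 2 := by
    unfold inn
    rw [Finset.card_product, Int.card_Ioo]
    push_cast
    rw [Int.toNat_of_nonneg (by omega)]
    ring
  have h3 := Finset.card_sdiff_add_card_eq_card hsub
  have h4 : ((clo (-R, -R) (2 * R) \ inn (-R, -R) (2 * R)).card : ℤ) = 8 * R := by
    have : ((clo (-R, -R) (2 * R) \ inn (-R, -R) (2 * R)).card : ℤ) +
        ((inn (-R, -R) (2 * R)).card : ℤ) = ((clo (-R, -R) (2 * R)).card : ℤ) := by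
      exact_mod_cast h3
    rw [h1, h2] at this
    linarith
  exact_mod_cast h4

section iter

variable {V : Type} [Fintype V] [DecidableEq V] {J : V → V → ℝ} {e : V → Z2} {β : ℝ} {R : ℤ}

/-- Iteration of Simon's inequality. -/
theorem Gt_iter [NeZero n] (hn : 2 ≤ n) (hβ : 0 ≤ β) (hs : ∀ u v, J u v = J v u)
    (h0 : ∀ v, J v v = 0) (hJ0 : ∀ u v, 0 ≤ J u v) (he : Function.Injective e)
    (hJ : ∀ u v, (∀ q ∈ nb4 (e u), ∃ w, e w = q) → J u v = if e v ∈ nb4 (e u) then β else 0)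
    (hR : 0 < R) {M : ℝ} (hM : 0 ≤ M) (hMB : MB n β R M) {q : ℝ} (hq0 : 0 ≤ q)
    (hq : 32 * β * R * M ≤ n * q) (k : ℕ) :
    ∀ x v : V, (∀ p, sd p (e x) ≤ k * (R + 1) → ∃ w, e w = p) →
      k * (R + 1) ≤ sd (e v) (e x) → Gt n J (fun _ => 1) v x ≤ q ^ k * Zt n J (fun _ => 1) := by
  classical
  have hnpos : (0 : ℝ) < n := by exact_mod_cast (by omega : 0 < n)
  induction k with
  | zero =>
    intro x v _ _
    rw [pow_zero, one_mul]
    exact Gt_le_Zt (fun _ => ⟨zero_le_one, le_rfl⟩) v x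
  | succ k ih =>
    intro x v hcov hd
    have hk0 : (0 : ℤ) ≤ k * (R + 1) := by (clear * - hR; positivity)
    have hk1 : ((k + 1 : ℕ) : ℤ) * (R + 1) = k * (R + 1) + (R + 1) := by push_cast; ring
    rw [hk1] at hcov hd
    let B : Finset V := Finset.univ.filter fun u => sd (e u) (e x) ≤ R
    have hB : ∀ u, u ∈ B ↔ sd (e u) (e x) ≤ R := fun u => by simp only [Finset.mem_filter, Finset.mem_univ, true_and, B]
    have hxx : sd (e x) (e x) = 0 := by simp [sd]
    have hx : x ∈ B := by rw [hB, hxx]; exact hR.le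
    have hv : v ∉ B := by rw [hB]; omega
    -- neighbours of sites in `B`
    have hnb : ∀ u ∈ B, ∀ q ∈ nb4 (e u), ∃ w, e w = q := by
      intro u hu q hq
      refine hcov q ?_
      have h1 := sd_triangle q (e u) (e x)
      have h2 := sd_nb4 hq
      have h3 := (hB u).1 hu
      omega
    have hJB : ∀ u ∈ B, ∀ w, J u w = if e w ∈ nb4 (e u) then β else 0 :=
      fun u hu w => hJ u w (hnb u hu)
    let c : V → Z2 := fun u => ((e u).1 - (e x).1, (e u).2 - (e x).2)
    have hc : Function.Injective c := by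
      intro u w huw
      apply he
      have h1 : (e u).1 - (e x).1 = (e w).1 - (e x).1 := congrArg Prod.fst huw
      have h2 : (e u).2 - (e x).2 = (e w).2 - (e x).2 := congrArg Prod.snd huw
      exact Prod.ext (by omega) (by omega)
    have hcB : ∀ u, c u ∈ clo (-R, -R) (2 * R) ↔ u ∈ B := by
      intro u; rw [hB]; exact mem_clo_sub
    have hinnB : ∀ u, c u ∈ inn (-R, -R) (2 * R) ↔ sd (e u) (e x) ≤ R - 1 := by
      intro u; exact mem_inn_sub
    have hcc : ∀ q ∈ clo (-R, -R) (2 * R), ∃ w, c w = q := by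
      intro q hq
      obtain ⟨w, hw⟩ := hcov (q.1 + (e x).1, q.2 + (e x).2) (by
        rw [mem_clo] at hq
        simp only at hq
        rw [sd_le]
        simp only
        omega)
      refine ⟨w, ?_⟩
      simp only [c, hw]
      exact Prod.ext (by simp) (by simp)
    have hzero : ∀ z ∈ B, ∀ w ∉ B, sd (e z) (e x) ≤ R - 1 → J w z = 0 := by
      intro z hz w hw hlt
      rw [hs w z, hJB z hz w, if_neg]
      intro hmem
      apply hw
      rw [hB]
      have h1 := sd_triangle (e w) (e z) (e x)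
      have h2 := sd_nb4 hmem
      omega
    have hA : ∀ ρ : V → ℝ, (∀ u, 0 ≤ ρ u ∧ ρ u ≤ 1) → (∀ u ∈ B, ρ u = 1) →
        ∀ z ∈ B, (∃ v, v ∉ B ∧ 0 < J v z) → Gt n J ρ z x ≤ M * Zt n J ρ := by
      intro ρ hρ hρB z hz hex
      refine Gt_le_of_MB (c := c) hs h0 hc hcc ?_ hρ ?_ hR hM hMB ?_ ?_
      · intro u w hu
        have huB : u ∈ B := by
          rw [hB]; have := (hinnB u).1 hu; omega
        rw [hJB u huB w]
        simp only [c, nb4_sub]
      · intro u hu
        exact hρB u ((hcB u).1 hu)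
      · simp [c]
      · intro hin
        obtain ⟨w, hw, hpos⟩ := hex
        rw [hzero z hz w hw ((hinnB z).1 hin)] at hpos
        exact lt_irrefl _ hpos
    have hS := simon (n := n) hn hs h0 hJ0 hx (A := fun _ => M) (fun _ => hM) hA
      (fun _ => 1) (fun _ => ⟨zero_le_one, le_rfl⟩) (fun _ _ => rfl) v hv
    refine hS.trans ?_
    have hZ : 0 < Zt n J (fun _ => 1) := Zp_pos _
    set Z := Zt n J (fun _ => 1) with hZdef
    -- termwise bound
    have h1 : ∑ v' ∈ Bᶜ, ∑ z ∈ B, (J v' z / n) * M * Gt n J (fun _ => 1) v v' ≤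
        ∑ v' ∈ Bᶜ, ∑ z ∈ B, J v' z * (M / n * (q ^ k * Z)) := by
      refine Finset.sum_le_sum fun v' hv' => Finset.sum_le_sum fun z hz => ?_
      have hv'B : v' ∉ B := Finset.mem_compl.1 hv'
      rcases (hJ0 v' z).eq_or_lt with h | h
      · rw [← h]; simp
      · have hmem : e v' ∈ nb4 (e z) := by
          by_contra hne
          rw [hs v' z, hJB z hz v', if_neg hne] at h
          exact lt_irrefl _ h
        have hd1 : sd (e v') (e x) ≤ R + 1 := by
          have h1 := sd_triangle (e v') (e z) (e x)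
          have h2 := sd_nb4 hmem
          have h3 := (hB z).1 hz
          omega
        have hG : Gt n J (fun _ => 1) v v' ≤ q ^ k * Z := by
          refine ih v' v ?_ ?_
          · intro p hp
            refine hcov p ?_
            have := sd_triangle p (e v') (e x)
            omega
          · have := sd_triangle (e v) (e v') (e x)
            omega
        have h5 : J v' z / n * M * Gt n J (fun _ => 1) v v' ≤ J v' z / n * M * (q ^ k * Z) :=
          mul_le_mul_of_nonneg_left hG (by (clear * - h hn hM; positivity))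
        calc _ ≤ _ := h5
          _ = _ := by ring
    refine h1.trans ?_
    rw [Finset.sum_comm]
    -- number of boundary bonds
    have hrow : ∀ z ∈ B, ∑ v' ∈ Bᶜ, J v' z ≤ if sd (e z) (e x) ≤ R - 1 then 0 else 4 * β := by
      intro z hz
      split_ifs with hlt
      · exact (Finset.sum_eq_zero fun w hw => hzero z hz w (Finset.mem_compl.1 hw) hlt).le
      · calc ∑ v' ∈ Bᶜ, J v' z ≤ ∑ v', J v' z :=
              Finset.sum_le_sum_of_subset_of_nonneg (Finset.subset_univ _)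
                (fun w _ _ => hJ0 w z)
          _ = ∑ v', if e v' ∈ nb4 (e z) then β else 0 :=
              Finset.sum_congr rfl fun w _ => by rw [hs w z, hJB z hz w]
          _ = ((Finset.univ.filter fun v' => e v' ∈ nb4 (e z)).card : ℝ) * β := by
              rw [← Finset.sum_filter, Finset.sum_const, nsmul_eq_mul]
          _ ≤ 4 * β := by
              refine mul_le_mul_of_nonneg_right ?_ hβ
              have hc1 : (Finset.univ.filter fun v' => e v' ∈ nb4 (e z)).card ≤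
                  (nb4 (e z)).card :=
                Finset.card_le_card_of_injOn e (fun w hw => by simpa only [SetLike.mem_coe, Finset.coe_filter, Finset.mem_univ, true_and, Set.mem_ofPred_eq] using hw) he.injOn
              have hc2 : (nb4 (e z)).card ≤ 4 := by
                unfold nb4; exact Finset.card_le_four
              exact_mod_cast hc1.trans hc2
    have hcount : ∑ z ∈ B, ∑ v' ∈ Bᶜ, J v' z ≤ 32 * β * R := by
      calc ∑ z ∈ B, ∑ v' ∈ Bᶜ, J v' z ≤ ∑ z ∈ B, if sd (e z) (e x) ≤ R - 1 then 0 else 4 * β :=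
            Finset.sum_le_sum hrow
        _ = ((B.filter fun z => ¬ sd (e z) (e x) ≤ R - 1).card : ℝ) * (4 * β) := by
            rw [Finset.sum_ite, Finset.sum_const_zero, zero_add, Finset.sum_const, nsmul_eq_mul]
        _ ≤ (8 * R) * (4 * β) := by
            refine mul_le_mul_of_nonneg_right ?_ (by (clear * - hβ; positivity))
            rw [← card_shell hR]
            have : (B.filter fun z => ¬ sd (e z) (e x) ≤ R - 1).card ≤
                (clo (-R, -R) (2 * R) \ inn (-R, -R) (2 * R)).card := by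
              refine Finset.card_le_card_of_injOn c (fun z hz => ?_) hc.injOn
              have hz' := Finset.mem_filter.1 (Finset.mem_coe.1 hz)
              rw [Finset.mem_coe, Finset.mem_sdiff]
              exact ⟨(hcB z).2 hz'.1, fun h => hz'.2 ((hinnB z).1 h)⟩
            exact_mod_cast this
        _ = 32 * β * R := by ring
    have e1 : ∑ z ∈ B, ∑ v' ∈ Bᶜ, J v' z * (M / n * (q ^ k * Z)) =
        (∑ z ∈ B, ∑ v' ∈ Bᶜ, J v' z) * (M / n * (q ^ k * Z)) := by
      rw [Finset.sum_mul]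
      exact Finset.sum_congr rfl fun z _ => (Finset.sum_mul _ _ _).symm
    rw [e1]
    calc (∑ z ∈ B, ∑ v' ∈ Bᶜ, J v' z) * (M / n * (q ^ k * Z)) ≤
          (32 * β * R) * (M / n * (q ^ k * Z)) :=
          mul_le_mul_of_nonneg_right hcount (by (clear * - hM hn hq0 hZ; positivity))
      _ = (32 * β * R * M) * (q ^ k * Z / n) := by ring
      _ ≤ (n * q) * (q ^ k * Z / n) := mul_le_mul_of_nonneg_right hq (by (clear * - hq0 hZ hn; positivity))
      _ = q ^ (k + 1) * Z := by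
          rw [pow_succ]; (clear * - hn hZ; field_simp)

end iter

end Vale.Agent.P163
end
end

section

section

open MeasureTheory Filter Topology
open scoped RealInnerProductSpace

set_option linter.unusedSectionVars false

namespace Vale.Agent.P163

variable {n : ℕ}

lemma weight_eq_wt {V : Type} [Fintype V] (J : V → V → ℝ) (σ : V → Spin n) :
    weight J σ = wt J (fun v => (σ v : E n)) := rfl

/-- expectation in the Gibbs measure -/
lemma integral_gibbs [NeZero n] {V : Type} [Fintype V] (J : V → V → ℝ) {g : (V → E n) → ℝ}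
    (hg : Continuous g) :
    ∫ σ, g (fun v => (σ v : E n)) ∂(gibbs n J) =
      (∫ σ, g σ * wt J σ ∂(P V n)) / Zp n J := by
  classical
  have hw : Continuous fun σ : V → Spin n => weight J σ := by
    have := continuous_wt (n := n) J
    simp only [weight_eq_wt]
    fun_prop
  have hQ : (Measure.pi fun _ : V => unif n) = QQ V n := by
    unfold QQ; rw [Measure.infinitePi_eq_pi]
  have hpos : ∀ σ : V → Spin n, 0 ≤ weight J σ := fun σ => (Real.exp_pos _).le
  unfold gibbs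
  rw [hQ, integral_smul_measure, integral_withDensity_eq_integral_toReal_smul
    (hw.measurable.ennreal_ofReal) (Filter.Eventually.of_forall fun σ => ENNReal.ofReal_lt_top),
    ← ofReal_integral_eq_lintegral_ofReal (integrable_QQ hw)
      (Filter.Eventually.of_forall hpos), ENNReal.toReal_inv,
    ENNReal.toReal_ofReal (integral_nonneg hpos)]
  have h1 : ∫ σ, weight J σ ∂(QQ V n) = Zp n J :=
    (integral_P_eq (continuous_wt (n := n) J)).symm
  have h2 : ∫ σ, (ENNReal.ofReal (weight J σ)).toReal • g (fun v => (σ v : E n)) ∂(QQ V n) =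
      ∫ σ, g σ * wt J σ ∂(P V n) := by
    have hc : Continuous fun σ : V → E n => g σ * wt J σ := hg.mul (continuous_wt J)
    rw [integral_P_eq hc]
    congr 1
    funext σ
    rw [ENNReal.toReal_ofReal (hpos σ), smul_eq_mul, mul_comm, weight_eq_wt]
  rw [h1, h2, smul_eq_mul, inv_mul_eq_div]

lemma adj_iff {x y : Z2} : Adj x y ↔ y ∈ nb4 x := by
  unfold Adj nb4
  simp only [Finset.mem_insert, Finset.mem_singleton, Prod.ext_iff]
  constructor
  · intro h
    rcases abs_cases (x.1 - y.1) with ⟨h1, h1'⟩ | ⟨h1, h1'⟩ <;>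
      rcases abs_cases (x.2 - y.2) with ⟨h2, h2'⟩ | ⟨h2, h2'⟩ <;> omega
  · intro h
    rcases abs_cases (x.1 - y.1) with ⟨h1, h1'⟩ | ⟨h1, h1'⟩ <;>
      rcases abs_cases (x.2 - y.2) with ⟨h2, h2'⟩ | ⟨h2, h2'⟩ <;> omega

lemma adj_symm {x y : Z2} (h : Adj x y) : Adj y x := by
  unfold Adj at *
  rwa [abs_sub_comm, abs_sub_comm y.2]

lemma perAdj_symm {a b x y : Z2} (h : PerAdj a b x y) : PerAdj a b y x := by
  obtain ⟨k, l, h⟩ := h
  refine ⟨-k, -l, ?_⟩
  unfold Adj at *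
  simp only at h ⊢
  have e1 : y.1 - (x.1 + -k * (b.1 - a.1 + 1)) = -(x.1 - (y.1 + k * (b.1 - a.1 + 1))) := by ring
  have e2 : y.2 - (x.2 + -l * (b.2 - a.2 + 1)) = -(x.2 - (y.2 + l * (b.2 - a.2 + 1))) := by ring
  rw [e1, e2, abs_neg, abs_neg]
  exact h

lemma not_perAdj_self {a b x : Z2} (h1 : a.1 + 1 ≤ b.1) (h2 : a.2 + 1 ≤ b.2) :
    ¬ PerAdj a b x x := by
  rintro ⟨k, l, h⟩
  unfold Adj at h
  simp only at h
  have e1 : x.1 - (x.1 + k * (b.1 - a.1 + 1)) = -(k * (b.1 - a.1 + 1)) := by ring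
  have e2 : x.2 - (x.2 + l * (b.2 - a.2 + 1)) = -(l * (b.2 - a.2 + 1)) := by ring
  rw [e1, e2, abs_neg, abs_neg, abs_mul, abs_mul] at h
  have a1 : 2 ≤ |b.1 - a.1 + 1| := by rw [abs_of_nonneg] <;> omega
  have a2 : 2 ≤ |b.2 - a.2 + 1| := by rw [abs_of_nonneg] <;> omega
  rcases eq_or_ne k 0 with rfl | hk
  · rcases eq_or_ne l 0 with rfl | hl
    · simp at h
    · have : 1 ≤ |l| := Int.one_le_abs hl
      simp only [abs_zero, zero_mul, zero_add] at h
      nlinarith only [a2, this, h]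
  · have : 1 ≤ |k| := Int.one_le_abs hk
    have h5 : 0 ≤ |l| * |b.2 - a.2 + 1| := by (clear * - a2; positivity)
    nlinarith only [h, a1, this, h5]

lemma aux_shift {a b v k : ℤ} (h1 : a ≤ v) (h2 : v ≤ b) (h3 : a ≤ v + k * (b - a + 1))
    (h4 : v + k * (b - a + 1) ≤ b) : k = 0 := by
  by_contra hk
  rcases lt_or_gt_of_ne hk with h | h
  · have : k * (b - a + 1) ≤ (-1) * (b - a + 1) :=
      mul_le_mul_of_nonneg_right (by omega) (by omega)
    omega
  · have : 1 * (b - a + 1) ≤ k * (b - a + 1) :=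
      mul_le_mul_of_nonneg_right (by omega) (by omega)
    omega

lemma perAdj_iff {a b u v : Z2} (hu : ∀ q ∈ nb4 u, q ∈ Finset.Icc a b)
    (hv : v ∈ Finset.Icc a b) : PerAdj a b u v ↔ v ∈ nb4 u := by
  constructor
  · rintro ⟨k, l, h⟩
    rw [adj_iff] at h
    have h1 := hu _ h
    rw [Finset.mem_Icc, Prod.le_def, Prod.le_def] at h1 hv
    simp only at h1
    obtain ⟨⟨a1, a2⟩, a3, a4⟩ := h1
    obtain ⟨⟨b1, b2⟩, b3, b4⟩ := hv
    have hk := aux_shift b1 b3 a1 a3
    have hl := aux_shift b2 b4 a2 a4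
    subst hk hl
    simpa using h
  · intro h
    refine ⟨0, 0, ?_⟩
    rw [adj_iff]
    simpa using h

open Classical in
/-- The two-point function in a box decays, away from the boundary of the box. -/
theorem box_bound [NeZero n] (hn : 2 ≤ n) {β : ℝ} (hβ : 0 ≤ β) {R : ℤ}
    (hR : 0 < R) {M : ℝ} (hM : 0 ≤ M) (hMB : MB n β R M) {q : ℝ} (hq0 : 0 ≤ q)
    (hq : 32 * β * R * M ≤ n * q) (k : ℕ) (p : Bool) (a b x y : Z2)
    (hx : x ∈ Finset.Icc a b) (hy : y ∈ Finset.Icc a b)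
    (hcov : ∀ r, sd r y ≤ k * (R + 1) + 1 → r ∈ Finset.Icc a b)
    (hd : k * (R + 1) ≤ sd x y) :
    ∫ σ, ⟪(σ ⟨x, hx⟩ : E n), (σ ⟨y, hy⟩ : E n)⟫ ∂(boxState n β p a b) ≤ q ^ k := by
  have hk0 : (0 : ℤ) ≤ k * (R + 1) := by (clear * - hR; positivity)
  have hab : a.1 + 1 ≤ b.1 ∧ a.2 + 1 ≤ b.2 := by
    have h1 := hcov (y.1 - 1, y.2 - 1) (by rw [sd_le]; simp only; omega)
    have h2 := hcov (y.1 + 1, y.2 + 1) (by rw [sd_le]; simp only; omega)
    rw [Finset.mem_Icc, Prod.le_def, Prod.le_def] at h1 h2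
    simp only at h1 h2
    omega
  set J : Finset.Icc a b → Finset.Icc a b → ℝ := fun x y =>
    if (p = true ∧ PerAdj a b x y) ∨ (p = false ∧ Adj x y) then β else 0 with hJdef
  have hs : ∀ u v, J u v = J v u := by
    intro u v
    simp only [hJdef]
    have h1 : PerAdj a b u v ↔ PerAdj a b v u := ⟨perAdj_symm, perAdj_symm⟩
    have h2 : Adj u v ↔ Adj v u := ⟨adj_symm, adj_symm⟩
    simp only [h1, h2]
  have h0 : ∀ v, J v v = 0 := by
    intro v
    simp only [hJdef]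
    rw [if_neg]
    rintro (⟨-, h⟩ | ⟨-, h⟩)
    · exact not_perAdj_self hab.1 hab.2 h
    · simp only [Adj, sub_self, abs_zero, add_zero, zero_ne_one] at h
  have hJ0 : ∀ u v, 0 ≤ J u v := by
    intro u v
    simp only [hJdef]
    split_ifs <;> simp [hβ]
  let e : Finset.Icc a b → Z2 := fun u => u.1
  have he : Function.Injective e := Subtype.val_injective
  have hJ : ∀ u v, (∀ q ∈ nb4 (e u), ∃ w, e w = q) →
      J u v = if e v ∈ nb4 (e u) then β else 0 := by
    intro u v hu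
    have hu' : ∀ q ∈ nb4 u.1, q ∈ Finset.Icc a b := by
      intro q hq
      obtain ⟨w, rfl⟩ := hu q hq
      exact w.2
    have h1 := perAdj_iff hu' v.2
    have h2 : Adj u.1 v.1 ↔ v.1 ∈ nb4 u.1 := adj_iff
    simp only [hJdef, h1, h2, e]
    cases p <;> simp
  have hit := Gt_iter (n := n) hn hβ hs h0 hJ0 he hJ hR hM hMB hq0 hq k ⟨y, hy⟩ ⟨x, hx⟩
    (fun r hr => ⟨⟨r, hcov r (by simp only [e] at hr; omega)⟩, rfl⟩) hd
  have hg : Continuous fun σ : Finset.Icc a b → E n => ⟪σ ⟨x, hx⟩, σ ⟨y, hy⟩⟫ := by fun_prop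
  have hbox : boxState n β p a b = gibbs n J := rfl
  rw [hbox, integral_gibbs J hg]
  have hJr : Jr J (fun _ => 1) = J := by
    funext u v; simp [Jr]
  unfold Gt Zt at hit
  rw [hJr] at hit
  rw [div_le_iff₀ (Zp_pos J)]
  simpa only [mul_one, one_mul] using hit

lemma dist2_le (x y : Z2) : dist2 x y ≤ 2 * (sd x y : ℝ) := by
  have h := (sd_le (p := x) (q := y)).1 le_rfl
  have h0 : 0 ≤ sd x y := le_max_of_le_left (abs_nonneg _)
  have h0' : (0 : ℝ) ≤ sd x y := by exact_mod_cast h0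
  unfold dist2
  rw [Real.sqrt_le_left (by positivity)]
  have h1 : |((x.1 - y.1 : ℤ) : ℝ)| ≤ (sd x y : ℝ) := by
    have : |x.1 - y.1| ≤ sd x y := le_max_left _ _
    exact_mod_cast this
  have h2 : |((x.2 - y.2 : ℤ) : ℝ)| ≤ (sd x y : ℝ) := by
    have : |x.2 - y.2| ≤ sd x y := le_max_right _ _
    exact_mod_cast this
  have h3 := sq_le_sq' (by linarith [abs_le.1 h1]) (abs_le.1 h1).2
  have h4 := sq_le_sq' (by linarith only [abs_le.1 h2]) (abs_le.1 h2).2
  nlinarith only [h3, h4]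

/-- From the decay of the magnetization to exponential decay in infinite volume. -/
theorem bridge (hn : 3 ≤ n) {β : ℝ} (hβ : 0 < β)
    (h : ∀ ε : ℝ, 0 < ε → ∃ (R : ℤ) (M : ℝ), 0 < R ∧ 0 ≤ M ∧ MB n β R M ∧ (2 * R + 1) * M ≤ ε) :
    ExpDecay n β := by
  have : NeZero n := ⟨by omega⟩
  have hnpos : (0 : ℝ) < n := by exact_mod_cast (by omega : 0 < n)
  obtain ⟨R, M, hR, hM, hMB, hRM⟩ := h (n / (32 * β)) (by positivity)
  have hR' : (0 : ℝ) < R := by exact_mod_cast hR
  have hq : 32 * β * R * M ≤ n * (1 / 2 : ℝ) := by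
    have h1 : 2 * (R : ℝ) * M ≤ n / (32 * β) := by
      refine le_trans ?_ hRM
      linarith
    rw [le_div_iff₀ (by positivity)] at h1
    linarith only [h1]
  have hlog : 0 < Real.log 2 := Real.log_pos (by norm_num)
  refine ⟨2, Real.log 2 / (2 * (R + 1)), by positivity, ?_⟩
  rintro μ ⟨p, a, b, hex, hlim⟩ x y
  set k : ℕ := (sd x y / (R + 1)).toNat with hk
  have hsd0 : 0 ≤ sd x y := le_max_of_le_left (abs_nonneg _)
  have hR1 : 0 < R + 1 := by omega
  have hkz : (k : ℤ) = sd x y / (R + 1) :=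
    Int.toNat_of_nonneg (Int.ediv_nonneg hsd0 hR1.le)
  have hk1 : (k : ℤ) * (R + 1) ≤ sd x y := by
    rw [hkz]; exact Int.ediv_mul_le _ hR1.ne'
  have hk2 : sd x y < ((k : ℤ) + 1) * (R + 1) := by
    rw [hkz]; exact Int.lt_ediv_add_one_mul_self _ hR1
  -- the bound in infinite volume
  have hinf : ∫ σ, ⟪(σ x : E n), (σ y : E n)⟫ ∂μ ≤ (1 / 2 : ℝ) ^ k := by
    have hxA : x ∈ ({x, y} : Finset Z2) := by simp
    have hyA : y ∈ ({x, y} : Finset Z2) := by simp
    have hf : Continuous fun σ : ({x, y} : Finset Z2) → Spin n =>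
        ⟪(σ ⟨x, hxA⟩ : E n), (σ ⟨y, hyA⟩ : E n)⟫ := by fun_prop
    have hl := hlim {x, y} _ hf
    refine le_of_tendsto hl ?_
    have e1 := hex (y.1 - (k * (R + 1) + 1), y.2 - (k * (R + 1) + 1))
    have e2 := hex (y.1 + (k * (R + 1) + 1), y.2 + (k * (R + 1) + 1))
    filter_upwards [hex x, hex y, e1, e2] with j hjx hjy h1 h2
    have hA : ({x, y} : Finset Z2) ⊆ Finset.Icc (a j) (b j) := by
      intro r hr
      rw [Finset.mem_insert, Finset.mem_singleton] at hr
      rcases hr with rfl | rfl <;> assumption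
    rw [dif_pos hA]
    refine box_bound (by omega) hβ.le hR hM hMB (by norm_num) hq k (p j) (a j) (b j) x y hjx hjy
      ?_ hk1
    intro r hr
    rw [sd_le] at hr
    rw [Finset.mem_Icc, Prod.le_def, Prod.le_def] at h1 h2 ⊢
    simp only at h1 h2
    omega
  refine hinf.trans ?_
  have hk3 : (sd x y : ℝ) ≤ (k + 1) * (R + 1) := by exact_mod_cast hk2.le
  have hd := dist2_le x y
  have hkd : dist2 x y / (2 * (R + 1)) ≤ k + 1 := by
    rw [div_le_iff₀ (by positivity)]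
    linarith only [hk3, hd]
  have e1 : (1 / 2 : ℝ) ^ k = Real.exp (-(Real.log 2 * k)) := by
    rw [Real.exp_neg, mul_comm, Real.exp_nat_mul, Real.exp_log (by norm_num)]
    simp
  have e2 : (2 : ℝ) = Real.exp (Real.log 2) := (Real.exp_log (by norm_num)).symm
  rw [e1]
  calc Real.exp (-(Real.log 2 * k)) ≤
        Real.exp (Real.log 2 + -(Real.log 2 / (2 * (R + 1))) * dist2 x y) := by
        apply Real.exp_le_exp.2
        have : Real.log 2 / (2 * (R + 1)) * dist2 x y ≤ Real.log 2 * (k + 1) := by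
          calc Real.log 2 / (2 * (R + 1)) * dist2 x y =
              Real.log 2 * (dist2 x y / (2 * (R + 1))) := by ring
            _ ≤ _ := mul_le_mul_of_nonneg_left hkd hlog.le
        linarith only [this]
    _ = 2 * Real.exp (-(Real.log 2 / (2 * (R + 1))) * dist2 x y) := by
        rw [Real.exp_add, Real.exp_log (by norm_num)]

end Vale.Agent.P163
end
end
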